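import Crest.Agent.R54.Defs

set_option autoImplicit false

namespace Crest.Agent.R54

open Finset

namespace BTaux
variable {V : Type}

theorem chain_rev {G : SimpleGraph V} {l : List V} (h : l.IsChain G.Adj) :
    l.reverse.IsChain G.Adj := by
  rw [List.isChain_reverse]
  exact h.imp (fun a b hab => hab.symm)

theorem ham [DecidableEq V] {G : SimpleGraph V} {K W : Finset V} {z z' : V}
    (hK : G.IsClique (K : Set V)) (hS : Sp G K W z z') :
    ∃ T : List V, (z :: T).Nodup ∧ (z :: T).IsChain G.Adj ∧ (z :: T).toFinset = W ∧
      T.getLast? = some z' := by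
  obtain ⟨R₁, R₂, hnd, hW, h1, h2, ⟨a, ha, ha'⟩, hz, hz', ⟨b, hb, hb'⟩⟩ := hS
  obtain ⟨R₁', e1⟩ : ∃ t, R₁ = t ++ [z] := List.getLast?_eq_some_iff.1 hz
  have hperm : (R₁.reverse ++ R₂.reverse).Perm (R₁ ++ R₂) :=
    (List.reverse_perm _).append (List.reverse_perm _)
  have e2 : R₁.reverse ++ R₂.reverse = z :: (R₁'.reverse ++ R₂.reverse) := by simp [e1]
  refine ⟨R₁'.reverse ++ R₂.reverse, ?_, ?_, ?_, ?_⟩
  · rw [← e2, hperm.nodup_iff]; exact hnd
  · rw [← e2]
    refine (chain_rev h1).append (chain_rev h2) ?_
    intro x hx y hy
    rw [List.getLast?_reverse, ha'] at hx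
    rw [List.head?_reverse, hb'] at hy
    simp only [Option.mem_def, Option.some.injEq] at hx hy
    subst hx hy
    refine hK (by simpa using ha) (by simpa using hb) ?_
    rintro rfl
    exact (List.nodup_append.1 hnd).2.2 a (List.mem_of_head? ha') a (List.mem_of_getLast? hb') rfl
  · rw [← e2, List.toFinset_eq_of_perm _ _ hperm, hW]
  · rw [List.getLast?_append, List.getLast?_reverse, hz']; rfl

end BTaux

open BTaux in
theorem BT_proof : BTStmt := by
  intro V _ _ G k K W z z' u p hk hc hK hS hC hp hQ hWk hge
  classical
  obtain ⟨T, hnd, hch, hW, hlast⟩ := ham hK hS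
  obtain ⟨pn, pW, pc⟩ := hC
  have hcard : W.card = T.length + 1 := by
    rw [← hW, List.toFinset_card_of_nodup hnd]; simp
  have hmem : ∀ x, x ∈ W ↔ x = z ∨ x ∈ T := by intro x; rw [← hW]; simp
  have hzu : G.Adj z u := by
    simp only [List.cons_append, List.isChain_cons_cons] at pc
    exact pc.1
  have hu : u ∈ out G W z := mem_out.2 ⟨pW u (by simp), hzu⟩
  set q := (out G W z).card with hq
  obtain ⟨a, ha⟩ : ∃ a, W.card + (p.length + 1) = k + 1 + a := ⟨_, (Nat.add_sub_cancel' hge).symm⟩
  have key : ∀ j (hj : j < T.length), a ≤ j → j < a + q → ¬ G.Adj z T[j] := by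
    intro j hj h1 h2 hadj
    obtain ⟨M, hM, hMc⟩ := Finset.exists_subset_card_eq (s := (out G W z).erase u) (n := j - a)
      (by rw [Finset.card_erase_of_mem hu]; omega)
    have hMo : ∀ x ∈ M.toList, x ∈ out G W z ∧ x ≠ u := by
      intro x hx
      have := hM (Finset.mem_toList.1 hx)
      exact ⟨(Finset.mem_erase.1 this).2, (Finset.mem_erase.1 this).1⟩
    have hDlast : (T.drop j).getLast? = some z' := by
      rw [List.getLast?_drop, if_neg (by omega), hlast]
    have hDhead : (T.drop j).head? = some T[j] := by
      rw [List.head?_drop, List.getElem?_eq_getElem hj]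
    obtain ⟨D', hD'⟩ : ∃ t, (T.drop j).reverse = z' :: t :=
      List.head?_eq_some_iff.1 (by rw [List.head?_reverse, hDlast])
    have hDT : ∀ x ∈ (T.drop j).reverse, x ∈ T := fun x hx =>
      List.mem_of_mem_drop (List.mem_reverse.1 hx)
    refine hc.nocyc ⟨z, T[j], z :: (M.toList ++ ((u :: p) ++ (T.drop j).reverse)), ⟨?_, ?_⟩, ?_, rfl,
      ?_, hadj.symm⟩
    · rw [List.nodup_cons, List.nodup_append, List.nodup_append]
      refine ⟨?_, M.nodup_toList, ⟨pn, ?_, ?_⟩, ?_⟩
      · simp only [List.mem_append, not_or]
        refine ⟨fun h => (mem_out.1 (hMo z h).1).1 ((hmem z).2 (Or.inl rfl)),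
          fun h => pW z h ((hmem z).2 (Or.inl rfl)), fun h => (List.nodup_cons.1 hnd).1 (hDT z h)⟩
      · rw [List.nodup_reverse]
        exact (List.nodup_cons.1 hnd).2.sublist (List.drop_sublist _ _)
      · intro x hx y hy hxy
        subst hxy
        exact pW x hx ((hmem x).2 (Or.inr (hDT x hy)))
      · intro x hx y hy hxy
        subst hxy
        rcases List.mem_append.1 hy with hy | hy
        · rcases List.mem_cons.1 hy with hy | hy
          · exact (hMo x hx).2 hy
          · exact hp x hy (mem_out.1 (hMo x hx).1).2
        · exact (mem_out.1 (hMo x hx).1).1 ((hmem x).2 (Or.inr (hDT x hy)))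
    · have c1 : (z :: (M.toList ++ [u])).IsChain G.Adj := by
        apply List.Pairwise.isChain
        rw [List.pairwise_cons]
        refine ⟨?_, ?_⟩
        · intro x hx
          rcases List.mem_append.1 hx with hx | hx
          · exact (mem_out.1 (hMo x hx).1).2
          · simp only [List.mem_singleton] at hx; exact hx ▸ hzu
        · have hn : (M.toList ++ [u]).Nodup := by
            rw [List.nodup_append]
            refine ⟨M.nodup_toList, by simp, ?_⟩
            intro x hx y hy
            simp only [List.mem_singleton] at hy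
            exact hy ▸ (hMo x hx).2
          refine List.Pairwise.imp_of_mem ?_ hn
          have hin : ∀ x ∈ M.toList ++ [u], x ∈ out G W z := by
            intro x hx
            rcases List.mem_append.1 hx with hx | hx
            · exact (hMo x hx).1
            · simp only [List.mem_singleton] at hx; exact hx ▸ hu
          intro x y hx hy hxy
          exact hQ (by simpa using hin x hx) (by simpa using hin y hy) hxy
      have c2 : ((u :: p) ++ [z']).IsChain G.Adj := pc.tail
      have c3 : (z' :: D').IsChain G.Adj := hD' ▸ chain_rev (hch.tail.drop j)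
      have c4 := List.IsChain.append_overlap (l₁ := u :: p) (l₂ := [z']) (l₃ := D') c2
        (by simpa using c3) (by simp)
      have c5 := List.IsChain.append_overlap (l₁ := z :: M.toList) (l₂ := [u])
        (l₃ := p ++ [z'] ++ D') (by simpa using c1) (by simpa using c4) (by simp)
      rw [hD']
      simpa using c5
    · simp only [List.length_cons, List.length_append, Finset.length_toList, List.length_reverse,
        List.length_drop]
      omega
    · have : (T.drop j).reverse.getLast? = some T[j] := by rw [List.getLast?_reverse, hDhead]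
      rw [← List.cons_append, ← List.append_assoc, List.getLast?_append, this]
      rfl
  have hsub : nb G W z ⊆ (T.take a).toFinset ∪ (T.drop (a + q)).toFinset := by
    intro x hx
    obtain ⟨hxW, hzx⟩ := mem_nb.1 hx
    rcases (hmem x).1 hxW with rfl | hxT
    · exact absurd hzx (G.irrefl)
    obtain ⟨j, hj, rfl⟩ := List.getElem_of_mem hxT
    simp only [Finset.mem_union, List.mem_toFinset]
    by_cases h1 : j < a
    · left
      rw [List.mem_take_iff_getElem]
      exact ⟨j, by omega, rfl⟩
    · by_cases h2 : j < a + q
      · exact absurd hzx (key j hj (by omega) h2)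
      · right
        rw [List.mem_drop_iff_getElem]
        exact ⟨j - (a + q), by omega, by congr 1; omega⟩
  have h1 := Finset.card_le_card hsub
  have h2 := Finset.card_union_le (T.take a).toFinset (T.drop (a + q)).toFinset
  have h3 := List.toFinset_card_le (T.take a)
  have h4 := List.toFinset_card_le (T.drop (a + q))
  rw [List.length_take] at h3
  rw [List.length_drop] at h4
  have h5 := hc.exp.deg W z
  have h6 : T.length < a + q := by omega
  refine ⟨by omega, fun hlt hadj => ?_⟩
  have hT : T ≠ [] := by rintro rfl; simp at hlast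
  have hpos := List.length_pos_iff.2 hT
  have h7 : T[T.length - 1] = z' := by
    rw [List.getLast?_eq_getElem?, List.getElem?_eq_getElem (by omega)] at hlast
    simpa using hlast
  exact key (T.length - 1) (by omega) (by omega) (by omega) (h7 ▸ hadj)

end Crest.Agent.R54
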