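import Crest.Agent.R54.Defs

set_option autoImplicit false

namespace Crest.Agent.R54

open Finset

namespace CLQ

variable {V : Type}

theorem first_out (K : Finset V) : ∀ l : List V, (∃ w ∈ l, w ∉ K) →
    ∃ (A : List V) (w : V) (B : List V), l = A ++ w :: B ∧ (∀ x ∈ A, x ∈ K) ∧ w ∉ K
  | [], h => by simp at h
  | a :: t, h => by
    by_cases ha : a ∈ K
    · obtain ⟨w, hw, hwK⟩ := h
      have hwt : w ∈ t := by
        rcases List.mem_cons.1 hw with rfl | h
        · exact absurd ha hwK
        · exact h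
      obtain ⟨A, w', B, rfl, hA, hw'⟩ := first_out K t ⟨w, hwt, hwK⟩
      refine ⟨a :: A, w', B, rfl, ?_, hw'⟩
      intro x hx
      rcases List.mem_cons.1 hx with rfl | h
      · exact ha
      · exact hA x h
    · exact ⟨[], a, t, rfl, by simp, ha⟩

theorem rt_iff (K : Finset V) (X Y : List V) (z : V) (hn : (X ++ z :: Y).Nodup) :
    Rt K (X ++ z :: Y) z ↔ (Y = [] ∨ ∃ y ∈ K, Y.head? = some y) := by
  have hX : z ∉ X := fun h => (List.nodup_append.1 hn).2.2 z h z (by simp) rfl
  have hY : z ∉ Y := (List.nodup_cons.1 (List.nodup_append.1 hn).2.1).1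
  constructor
  · rintro (h | ⟨l₁, l₂, y, h, hy⟩)
    · left
      cases Y with
      | nil => rfl
      | cons y Y =>
        exfalso
        apply hY
        apply List.mem_of_getLast? (a := z)
        simpa using h
    · right
      have := (List.append_cons_inj_of_notMem hX hY).1 h
      refine ⟨y, hy, ?_⟩
      rw [this.2.2]; rfl
  · rintro (rfl | ⟨y, hy, h⟩)
    · left; simp
    · right
      cases Y with
      | nil => simp at h
      | cons y' Y =>
        simp only [List.head?_cons, Option.some.injEq] at h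
        subst h
        exact ⟨X, Y, y', rfl, hy⟩

theorem rt_mem {K : Finset V} {l : List V} {z : V} (h : Rt K l z) : z ∈ l := by
  rcases h with h | ⟨l₁, l₂, y, rfl, -⟩
  · exact List.mem_of_getLast? h
  · simp

/-- insertion of a vertex -/
theorem ins {G : SimpleGraph V} {K : Finset V} {A B : List V} {p w u : V}
    (h : KP G K (A ++ p :: w :: B)) (hu : u ∉ A ++ p :: w :: B) (h1 : G.Adj p u) (h2 : G.Adj u w) :
    KP G K (A ++ p :: u :: w :: B) := by
  obtain ⟨⟨hn, hc⟩, ⟨a, ha, ha'⟩, ⟨b, hb, hb'⟩⟩ := h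
  refine ⟨⟨?_, ?_⟩, ⟨a, ha, ?_⟩, ⟨b, hb, ?_⟩⟩
  · have hp : (A ++ p :: u :: w :: B).Perm (u :: (A ++ p :: w :: B)) := by
      have e1 : A ++ p :: u :: w :: B = (A ++ [p]) ++ u :: (w :: B) := by simp
      have e2 : A ++ p :: w :: B = (A ++ [p]) ++ (w :: B) := by simp
      rw [e1, e2]
      exact List.perm_middle
    exact hp.nodup_iff.2 (List.nodup_cons.2 ⟨hu, hn⟩)
  · rw [List.isChain_append_cons_cons] at hc ⊢
    exact ⟨hc.1, h1, List.isChain_cons_cons.2 ⟨h2, hc.2.2⟩⟩
  · cases A <;> simpa using ha'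
  · simpa using hb'

end CLQ

open CLQ in
theorem CLQ_proof (hS : SPLITStmt) : CLQStmt := by
  intro V _ G k K l z z' u u' hk hK hl hlen hw hz hz' hzz hu hu' huu hzu hzu' hx
  obtain ⟨A0, w, B, rfl, hA0, hwK⟩ := first_out K l hw
  have hn := hl.1.1
  rcases List.eq_nil_or_concat A0 with rfl | ⟨A, p, rfl⟩
  · obtain ⟨a, ha, ha'⟩ := hl.2.1
    simp only [List.nil_append, List.head?_cons, Option.some.injEq] at ha'
    exact absurd (ha' ▸ ha) hwK
  rw [List.concat_eq_append] at *
  have e : A ++ [p] ++ w :: B = A ++ p :: w :: B := by simp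
  rw [e] at hl hlen hw hz hz' hu hu' hx hn
  have hpK : p ∈ K := hA0 p (by simp)
  have hAK : ∀ x ∈ A, x ∈ K := fun x hx => hA0 x (by simp [hx])
  have hpr : ¬ Rt K (A ++ p :: w :: B) p := by
    rw [rt_iff K A (w :: B) p hn]
    rintro (h | ⟨y, hy, h⟩)
    · simp at h
    · simp only [List.head?_cons, Option.some.injEq] at h
      exact hwK (h ▸ hy)
  obtain ⟨hup, hup'⟩ := hx p (by simp) hpr
  have fin1 : ∀ v, v ∉ A ++ p :: w :: B → G.Adj p v → G.Adj v w → HasCyc G (k + 1) := by
    intro v hv h1 h2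
    have := hasCyc_of_kp hK (ins hl hv h1 h2) (by simp; omega)
    have hl' : (A ++ p :: v :: w :: B).length = k + 1 := by
      rw [← hlen]; simp; omega
    rwa [hl'] at this
  by_cases hwr : Rt K (A ++ p :: w :: B) w
  swap
  · exact fin1 u hu hup.symm (hx w (by simp) hwr).1
  by_cases hwz : w = z
  · subst hwz; exact fin1 u hu hup.symm hzu.symm
  by_cases hwz' : w = z'
  · subst hwz'; exact fin1 u' hu' hup'.symm hzu'.symm
  -- the successor of `w` is in `K`
  have hn' : (A ++ [p] ++ w :: B).Nodup := by rw [e]; exact hn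
  have hwr' := (rt_iff K (A ++ [p]) B w hn').1 (by rw [e]; exact hwr)
  obtain ⟨b, hb, hb'⟩ := hl.2.2
  obtain ⟨y, B', rfl, hy⟩ : ∃ y B', B = y :: B' ∧ y ∈ K := by
    rcases hwr' with rfl | ⟨y, hy, h⟩
    · simp at hb'
      exact absurd (hb' ▸ hb) hwK
    · cases B with
      | nil => simp at h
      | cons y' B' =>
        simp only [List.head?_cons, Option.some.injEq] at h
        subst h
        exact ⟨y', B', rfl, hy⟩
  have hsub : (A ++ y :: B').Sublist (A ++ p :: w :: y :: B') :=
    List.Sublist.append (List.Sublist.refl A) ((List.sublist_cons_self _ _).trans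
      (List.sublist_cons_self _ _))
  have hn2 : (A ++ y :: B').Nodup := hn.sublist hsub
  have hc := hl.1.2
  have hkp : KP G K (A ++ y :: B') := by
    refine ⟨⟨hn2, ?_⟩, ?_, ⟨b, hb, ?_⟩⟩
    · rw [List.isChain_append] at hc ⊢
      refine ⟨hc.1, (List.isChain_cons_cons.1 (List.isChain_cons_cons.1 hc.2.1).2).2, ?_⟩
      intro a ha c hc'
      simp only [List.head?_cons, Option.mem_def, Option.some.injEq] at hc'
      subst hc'
      have haA : a ∈ A := List.mem_of_getLast? ha
      refine hK (by simpa using hAK a haA) (by simpa using hy) ?_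
      rintro rfl
      exact (List.nodup_append.1 hn2).2.2 a haA a (by simp) rfl
    · cases A with
      | nil => exact ⟨y, hy, rfl⟩
      | cons a A => exact ⟨a, hAK a (by simp), rfl⟩
    · simpa using hb'
  have hrt : ∀ t, Rt K (A ++ p :: w :: y :: B') t → w ≠ t → Rt K (A ++ y :: B') t := by
    intro t ht hwt
    have htp : t ≠ p := by rintro rfl; exact hpr ht
    have hm := rt_mem ht
    simp only [List.mem_append, List.mem_cons] at hm
    rcases hm with hm | hm | hm | hm
    · obtain ⟨X, Y, rfl⟩ := List.append_of_mem hm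
      have e2 : X ++ t :: Y ++ y :: B' = X ++ t :: (Y ++ y :: B') := by simp
      rw [e2] at hn2 ⊢
      rw [rt_iff K _ _ t hn2]
      right
      cases Y with
      | nil => exact ⟨y, hy, rfl⟩
      | cons a Y => exact ⟨a, hAK a (by simp), rfl⟩
    · exact absurd hm htp
    · exact absurd hm.symm hwt
    · have hm' : t ∈ y :: B' := by simpa using hm
      obtain ⟨X, Y, hXY⟩ := List.append_of_mem hm'
      rw [hXY] at hn hn2 ht ⊢
      have e2 : A ++ (X ++ t :: Y) = (A ++ X) ++ t :: Y := by simp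
      have e3 : A ++ p :: w :: (X ++ t :: Y) = (A ++ p :: w :: X) ++ t :: Y := by simp
      rw [e2] at hn2 ⊢
      rw [e3] at hn ht
      rw [rt_iff K _ _ t hn2]
      exact (rt_iff K _ _ t hn).1 ht
  obtain ⟨R₁, R₂, hRn, hRW, hc1, hc2, hh1, hl1, hh2, hl2⟩ :=
    hS V G K _ z z' hK hkp (hrt z hz hwz) (hrt z' hz' hwz') hzz
  have hmem : ∀ x, x ∈ R₁ ++ R₂ → x ∈ A ++ y :: B' := by
    intro x hx
    rw [← List.mem_toFinset, ← hRW, List.mem_toFinset]; exact hx
  have hlen2 : (R₁ ++ R₂).length = (A ++ y :: B').length := by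
    rw [← List.toFinset_card_of_nodup hRn, hRW, List.toFinset_card_of_nodup hn2]
  have hpn : p ∉ A ++ y :: B' := by
    have hp : (A ++ p :: w :: y :: B').Perm (p :: (A ++ w :: y :: B')) := List.perm_middle
    have := (List.nodup_cons.1 (hp.nodup_iff.1 hn)).1
    intro h
    apply this
    simp only [List.mem_append, List.mem_cons] at h ⊢
    tauto
  have hfin : KP G K (R₁ ++ u :: p :: u' :: R₂) := by
    refine ⟨⟨?_, ?_⟩, ?_, ?_⟩
    · have hp : (R₁ ++ u :: p :: u' :: R₂).Perm (u :: p :: u' :: (R₁ ++ R₂)) :=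
        List.perm_middle.trans (List.Perm.cons _ (List.perm_middle.trans
          (List.Perm.cons _ List.perm_middle)))
      rw [hp.nodup_iff]
      have h1 : u ∉ R₁ ++ R₂ := fun h => hu (hsub.subset (hmem _ h))
      have h2 : u' ∉ R₁ ++ R₂ := fun h => hu' (hsub.subset (hmem _ h))
      have h3 : p ∉ R₁ ++ R₂ := fun h => hpn (hmem _ h)
      refine List.nodup_cons.2 ⟨?_, List.nodup_cons.2 ⟨?_, List.nodup_cons.2 ⟨h2, hRn⟩⟩⟩
      · simp only [List.mem_cons, not_or]
        exact ⟨hup.ne, huu, h1⟩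
      · simp only [List.mem_cons, not_or]
        exact ⟨hup'.ne.symm, h3⟩
    · rw [List.isChain_append]
      refine ⟨hc1, ?_, ?_⟩
      · refine List.isChain_cons_cons.2 ⟨hup, List.isChain_cons_cons.2 ⟨hup'.symm, ?_⟩⟩
        cases R₂ with
        | nil => simp at hh2
        | cons a R₂ =>
          simp only [List.head?_cons, Option.some.injEq] at hh2
          subst hh2
          exact List.isChain_cons_cons.2 ⟨hzu'.symm, hc2⟩
      · intro a ha c hc'
        simp only [List.head?_cons, Option.mem_def, Option.some.injEq] at hc'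
        subst hc'
        rw [hl1] at ha
        simp only [Option.mem_def, Option.some.injEq] at ha
        subst ha
        exact hzu
    · obtain ⟨a, ha, ha'⟩ := hh1
      refine ⟨a, ha, ?_⟩
      cases R₁ with
      | nil => simp at ha'
      | cons c R₁ => simpa using ha'
    · obtain ⟨a, ha, ha'⟩ := hl2
      refine ⟨a, ha, ?_⟩
      cases R₂ with
      | nil => simp at ha'
      | cons c R₂ => simpa using ha'
  have := hasCyc_of_kp hK hfin (by simp; omega)
  have hl' : (R₁ ++ u :: p :: u' :: R₂).length = k + 1 := by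
    simp only [List.length_append, List.length_cons] at hlen hlen2 ⊢
    omega
  rwa [hl'] at this

end Crest.Agent.R54
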