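import Crest.Agent.R54.Defs

set_option autoImplicit false

namespace Crest.Agent.R54

open Finset

namespace COUNT

variable {V : Type} [Fintype V] [DecidableEq V] (G : SimpleGraph V) (v : V)

omit [DecidableEq V] in
theorem ball_sub (i : ℕ) : ball G v i ⊆ ball G v (i + 1) := by
  intro x hx
  show x ∈ cn G (ball G v i)
  exact mem_cn.2 (Or.inl hx)

omit [DecidableEq V] in
theorem cn_mono {I J : Finset V} (h : I ⊆ J) : cn G I ⊆ cn G J := by
  intro x hx
  rw [mem_cn] at hx ⊢
  rcases hx with hx | ⟨u, hu, hx⟩
  · exact Or.inl (h hx)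
  · exact Or.inr ⟨u, h hu, hx⟩

theorem card_ball (i : ℕ) :
    (ball G v (i + 1)).card = (ball G v i).card + (lay G v (i + 1)).card := by
  have h := Finset.card_sdiff_add_card_eq_card (ball_sub G v i)
  have h2 : lay G v (i + 1) = ball G v (i + 1) \ ball G v i := rfl
  rw [h2]
  omega

/-- alternate sums of the independence numbers of the layers -/
noncomputable def E : ℕ → ℕ
  | 0 => 1
  | 1 => al G (lay G v 1)
  | i + 2 => E i + al G (lay G v (i + 2))

theorem indep : ∀ i : ℕ, ∃ I : Finset V, I ⊆ ball G v i ∧ G.IsIndepSet (I : Set V) ∧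
    I.card = E G v i
  | 0 => ⟨{v}, by intro x hx; exact hx, by simp, by simp [E]⟩
  | 1 => by
    obtain ⟨I, h1, h2, h3⟩ := exists_al G (lay G v 1)
    refine ⟨I, h1.trans ?_, h2, by simp [E, h3]⟩
    exact Finset.sdiff_subset
  | i + 2 => by
    obtain ⟨I, h1, h2, h3⟩ := indep i
    obtain ⟨J, g1, g2, g3⟩ := exists_al G (lay G v (i + 2))
    have hJ : ∀ x ∈ J, x ∈ ball G v (i + 2) ∧ x ∉ ball G v (i + 1) := by
      intro x hx
      have := g1 hx
      exact Finset.mem_sdiff.1 this
    have hna : ∀ x ∈ I, ∀ y ∈ J, ¬ G.Adj x y := by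
      intro x hx y hy hxy
      exact (hJ y hy).2 (mem_cn.2 (Or.inr ⟨x, h1 hx, hxy⟩))
    have hd : Disjoint I J := by
      rw [Finset.disjoint_left]
      intro x hx hy
      exact (hJ x hy).2 (ball_sub G v i (h1 hx))
    refine ⟨I ∪ J, ?_, ?_, ?_⟩
    · intro x hx
      rcases Finset.mem_union.1 hx with hx | hx
      · exact ball_sub G v (i + 1) (ball_sub G v i (h1 hx))
      · exact (hJ x hx).1
    · intro x hx y hy hne hxy
      simp only [Finset.coe_union, Set.mem_union, Finset.mem_coe] at hx hy
      rcases hx with hx | hx <;> rcases hy with hy | hy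
      · exact h2 hx hy hne hxy
      · exact hna x hx y hy hxy
      · exact hna y hy x hx hxy.symm
      · exact g2 hx hy hne hxy
    · rw [Finset.card_union_of_disjoint hd, h3, g3]
      rfl

theorem E_le {k : ℕ} (h : Ctx G k) (i : ℕ) : E G v i ≤ k := by
  obtain ⟨I, -, h2, h3⟩ := indep G v i
  rw [← h3]
  exact h.alpha I h2

theorem E_exp {k : ℕ} (h : Ctx G k) (i : ℕ) (h1 : 1 ≤ E G v i) :
    k * E G v i + 1 ≤ (ball G v (i + 1)).card := by
  obtain ⟨I, g1, g2, g3⟩ := indep G v i
  have hne : I.Nonempty := by
    rw [← Finset.card_pos]; omega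
  have := h.exp I hne g2
  rw [g3] at this
  exact this.trans (Finset.card_le_card (cn_mono G g1))

/-- the balls are bounded by the alternate sums -/
theorem ball_le {c d : ℕ} (hl : ∀ j, 1 ≤ j → j ≤ c → (lay G v j).card ≤ c * al G (lay G v j))
    (h1 : (ball G v 1).card ≤ d + c * al G (lay G v 1)) :
    ∀ i, i + 1 ≤ c → (ball G v (i + 1)).card + c ≤ d + c * (E G v (i + 1) + E G v i) := by
  intro i
  induction i with
  | zero =>
    intro _
    have e0 : E G v 0 = 1 := rfl
    have e1 : E G v (0 + 1) = al G (lay G v 1) := rfl
    rw [e0, e1, mul_add, mul_one]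
    simp only [zero_add]
    omega
  | succ i ih =>
    intro hi
    have a1 := ih (by omega)
    have a2 := card_ball G v (i + 1)
    have a3 := hl (i + 1 + 1) (by omega) hi
    have e2 : E G v (i + 1 + 1) = E G v i + al G (lay G v (i + 1 + 1)) := rfl
    rw [e2]
    have a4 : c * (E G v i + al G (lay G v (i + 1 + 1)) + E G v (i + 1)) =
        c * (E G v (i + 1) + E G v i) + c * al G (lay G v (i + 1 + 1)) := by ring
    rw [a4]
    omega

end COUNT

open COUNT in
theorem COUNT_proof (hL : LLStmt) (hY : LAYERStmt) (hB : B1Stmt) : COUNTStmt := by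
  intro V _ _ G k hk hC hO hne
  obtain ⟨v⟩ := hne
  set c := k / 2 with hc
  have hc3 : 3 ≤ c := by omega
  have hl : ∀ j, 1 ≤ j → j ≤ c → (lay G v j).card ≤ c * al G (lay G v j) := by
    intro j h1 h2
    refine hL V G c _ hc3 hO ?_
    intro n r f hn hT
    exact hY V G k j n r v f hC.nocyc h1 (by omega) (by omega) hT
  have e0 : E G v 0 = 1 := rfl
  have hb0 : (ball G v 0).card = 1 := rfl
  have hle := E_le G v hC c
  rcases Nat.even_or_odd' k with ⟨m, hm | hm⟩
  · -- even
    have hmc : k = 2 * c := by omega
    have b1 : (ball G v 1).card ≤ c * al G (ball G v 1) := by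
      refine hL V G c _ hc3 hO ?_
      intro n r f hn hT
      exact hB V G k n r v f (by omega) hC.nocyc (by omega) hT
    have b2 := E_exp G v hC 0 (by omega)
    rw [e0] at b2
    simp only [zero_add, mul_one] at b2
    have b3 : al G (ball G v 1) ≤ al G (lay G v 1) := by
      obtain ⟨I, g1, g2, g3⟩ := exists_al G (ball G v 1)
      by_cases hv : v ∈ I
      · exfalso
        have : I ⊆ {v} := by
          intro x hx
          have hx1 : x ∈ cn G {v} := g1 hx
          rw [mem_cn] at hx1
          rcases hx1 with hx1 | ⟨u, hu, hx1⟩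
          · exact hx1
          · rw [Finset.mem_singleton] at hu
            subst hu
            exact absurd hx1 (g2 hv hx hx1.ne)
        have h4 := Finset.card_le_card this
        rw [Finset.card_singleton, g3] at h4
        have h5 : c * al G (ball G v 1) ≤ c * 1 := Nat.mul_le_mul_left _ h4
        omega
      · rw [← g3]
        refine le_al ?_ g2
        intro x hx
        refine Finset.mem_sdiff.2 ⟨g1 hx, ?_⟩
        intro hx0
        have : x = v := Finset.mem_singleton.1 hx0
        exact hv (this ▸ hx)
    have b4 : (ball G v 1).card ≤ 0 + c * al G (lay G v 1) := by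
      have := Nat.mul_le_mul_left c b3
      omega
    have key := ball_le G v hl b4
    have grow : ∀ i, i ≤ c → 2 * i + 1 ≤ E G v i := by
      intro i
      induction i with
      | zero => intro _; omega
      | succ i ih =>
        intro hi
        have a1 := ih (by omega)
        have a2 := key i hi
        have a3 := E_exp G v hC i (by omega)
        have a4 : c * (E G v i + 1) < c * E G v (i + 1) := by
          rw [hmc] at a3
          have : 2 * c * E G v i = c * E G v i + c * E G v i := by ring
          rw [mul_add] at a2 ⊢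
          omega
        have a5 := Nat.lt_of_mul_lt_mul_left a4
        omega
    have := grow c le_rfl
    omega
  · -- odd
    have hmc : k = 2 * c + 1 := by omega
    have b4 : (ball G v 1).card ≤ 1 + c * al G (lay G v 1) := by
      have h1 := card_ball G v 0
      have h2 := hl 1 le_rfl (by omega)
      simp only [zero_add] at h1
      omega
    have key := ball_le G v hl b4
    have step : ∀ i, i + 1 ≤ c → 1 ≤ E G v i →
        c * E G v i + E G v i + c ≤ c * E G v (i + 1) := by
      intro i hi h1
      have a2 := key i hi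
      have a3 := E_exp G v hC i h1
      rw [hmc] at a3
      have : (2 * c + 1) * E G v i = c * E G v i + c * E G v i + E G v i := by ring
      rw [mul_add] at a2
      omega
    have grow : ∀ i, i ≤ c → 2 * i + 1 ≤ E G v i := by
      intro i
      induction i with
      | zero => intro _; omega
      | succ i ih =>
        intro hi
        have a1 := ih (by omega)
        have a2 := step i hi (by omega)
        have a4 : c * (E G v i + 1) < c * E G v (i + 1) := by
          rw [mul_add]
          omega
        have a5 := Nat.lt_of_mul_lt_mul_left a4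
        omega
    obtain ⟨i, hi⟩ : ∃ i, c = i + 1 := ⟨c - 1, by omega⟩
    have a1 := grow i (by omega)
    have a2 := step i (by omega) (by omega)
    have a4 : c * (E G v i + 2) < c * E G v (i + 1) := by
      rw [mul_add]
      omega
    have a5 := Nat.lt_of_mul_lt_mul_left a4
    rw [hi] at hle
    omega

end Crest.Agent.R54
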