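import Crest.Agent.R54.Defs

set_option autoImplicit false

namespace Crest.Agent.R54

open Finset

theorem core (hTRI : TRIStmt) (hCL : CLQKStmt) (h3 : K3Stmt) (h4 : K4Stmt) (hCO : COUNTStmt)
    (hM : MAINIStmt) (hST : STRUCTStmt) (hW4 : W4Stmt) (hW5 : W5Stmt) (hW7 : W7Stmt)
    (V : Type) [Fintype V] [DecidableEq V] (G : SimpleGraph V) (k : ℕ) (hk : 3 ≤ k) (hc : Ctx G k)
    (hne : Nonempty V) : False := by
  classical
  obtain ⟨a, b, c, hab, hac, hbc⟩ := hTRI V G k hk hc hne
  by_cases e3 : k = 3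
  · subst e3; exact h3 V G hc a b c hab hac hbc
  by_cases e4 : k = 4
  · subst e4; exact h4 V G hc a b c hab hac hbc
  obtain ⟨K, hK, hmax⟩ := Finset.exists_max_image
    ((Finset.univ : Finset V).powerset.filter (fun Q : Finset V => G.IsClique (Q : Set V)))
    Finset.card ⟨∅, by simp⟩
  have hK' : G.IsClique (K : Set V) := (Finset.mem_filter.1 hK).2
  have hOm : Om G K.card := fun Q hQ => hmax Q (by simp [hQ])
  have hs3 : 3 ≤ K.card := by
    have h := hOm {a, b, c} (by
      have := (SimpleGraph.is3Clique_triple_iff (G := G)).2 ⟨hab, hac, hbc⟩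
      exact this.isClique)
    have h2 := ((SimpleGraph.is3Clique_triple_iff (G := G)).2 ⟨hab, hac, hbc⟩).card_eq
    omega
  have hsk : K.card ≤ k := by
    by_contra h
    exact hc.nocyc (hCL V G K (k + 1) (by omega) hK' (by omega))
  by_cases h2 : 2 * K.card ≤ k
  · exact hCO V G k (by omega) hc (fun Q hQ => (hOm Q hQ).trans (by omega)) hne
  · refine hM V G k K (by omega) hc hK' hOm (by omega) hsk ?_
    intro l hl hKl hlen
    obtain ⟨S, R, hWS, hR, hS⟩ := hST V G K k l (by omega) hK' hc.nocyc (by omega) hl hKl hlen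
    rcases hS with hS | hS | hS
    · refine hW4 V G K k (S :: R) hc hK' hOm hs3 hWS ?_
      intro B hB
      rcases List.mem_cons.1 hB with rfl | hB
      · exact hS
      · exact hR B hB
    · exact hW5 V G K k S R hc hK' hOm hs3 hWS hS hR
    · exact hW7 V G K k S R hc hK' hOm hWS hS hR

theorem hasCyc_of_induce {V : Type} {G : SimpleGraph V} {T : Set V} {n : ℕ}
    (h : HasCyc (G.induce T) n) : HasCyc G n := by
  obtain ⟨a, b, l, ⟨h1, h2⟩, h3, h4, h5, h6⟩ := h
  refine ⟨a, b, l.map Subtype.val, ⟨h1.map Subtype.val_injective, ?_⟩, by rw [List.length_map, h3],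
    by rw [List.head?_map, h4]; rfl, by rw [List.getLast?_map, h5]; rfl, h6⟩
  rw [List.isChain_map]
  exact h2

theorem final (hCYC : CYCStmt) (hMIN : MINStmt)
    (hcore : ∀ (V : Type) [Fintype V] [DecidableEq V] (G : SimpleGraph V) (k : ℕ), 3 ≤ k → Ctx G k →
      Nonempty V → False)
    (m n : ℕ) (hn : 3 ≤ n) (hnm : n ≤ m)
    (h33 : ¬ (m = 3 ∧ n = 3)) (V : Type) [Fintype V] [DecidableEq V]
    (hV : Fintype.card V = (m - 1) * (n - 1) + 1) (G : SimpleGraph V) :
    (∃ v : V, ∃ p : G.Walk v v, p.IsCycle ∧ p.length = m) ∨ (∃ s : Finset V, Gᶜ.IsNClique n s) := by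
  classical
  by_contra hcon
  rw [not_or] at hcon
  obtain ⟨hc1, hc2⟩ := hcon
  obtain ⟨k, rfl⟩ : ∃ k, m = k + 1 := ⟨m - 1, by omega⟩
  have hk : 3 ≤ k := by omega
  have hno : ¬ HasCyc G (k + 1) := fun h => hc1 (hCYC V G (k + 1) (by omega) h)
  have hal : ∀ I : Finset V, G.IsIndepSet (I : Set V) → I.card ≤ n - 1 := by
    intro I hI
    by_contra h
    obtain ⟨J, hJ, hJc⟩ := Finset.exists_subset_card_eq (s := I) (n := n) (by omega)
    refine hc2 ⟨J, ?_, hJc⟩
    rw [SimpleGraph.isClique_compl]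
    exact hI.mono (by exact_mod_cast hJ)
  obtain ⟨I, -, hI, hIc⟩ := exists_al G Finset.univ
  have h1 := hal I hI
  obtain ⟨T, -, hTne, hT⟩ := hMIN V G k Finset.univ (by
    rw [Finset.card_univ, hV, ← hIc]
    simp only [Nat.add_sub_cancel]
    have := Nat.mul_le_mul_left k h1
    omega)
  refine hcore _ (G.induce (T : Set V)) k hk ⟨fun h => hno (hasCyc_of_induce h), ?_, hT⟩
    (by obtain ⟨x, hx⟩ := hTne; exact ⟨⟨x, by simpa using hx⟩⟩)
  intro J hJ
  have h2 := hal (J.map (Function.Embedding.subtype _)) (by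
    intro x hx y hy hxy
    simp only [Finset.coe_map, Set.mem_image, Finset.mem_coe, Function.Embedding.coe_subtype] at hx hy
    obtain ⟨x', hx', rfl⟩ := hx
    obtain ⟨y', hy', rfl⟩ := hy
    exact hJ hx' hy' (fun h => hxy (congrArg _ h)))
  rw [Finset.card_map] at h2
  omega

end Crest.Agent.R54
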