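import Mathlib

/-!
# Row 54 (S0075, cycle-complete Ramsey numbers): definitions and sub-tasks

Notation: `k = m - 1 ≥ 3`.  A minimal counterexample is a nonempty graph with `Ctx G k`:
no cycle of length `k+1`, `α ≤ k`, and `|N[I]| ≥ k|I|+1` for every nonempty independent `I`
(so min degree `≥ k`).  We derive `False`.  `s = ω(G) ≥ 3` (TRI), `s ≤ k` (CLQK).
* `k = 3`, `k = 4` by hand (K3, K4).
* Case II `2s ≤ k`: BFS layers (LCORE, LL, THETA, TREE, LAYER, B1, COUNT).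
* Case I `k+1 ≤ 2s`, `k ≥ 5`: a longest `K`-path through a maximum clique `K`
  (ROOTS, SPLIT, BT, CLQ, IND, MAINI) after excluding a `K`-path with `k+2` vertices
  (CLOSE, REPL, STRUCT, FIN, W4, W5, W7).
Each task `X` = a file `Crest/Agent/R54/X.lean` with `theorem X_proof (hyps named in the docstring) : XStmt`.
-/

set_option autoImplicit false

namespace Crest.Agent.R54

open Finset

section defs
variable {V : Type}

/-- a path, as the list of its vertices -/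
def Pth (G : SimpleGraph V) (l : List V) : Prop := l.Nodup ∧ l.IsChain G.Adj

/-- a cycle with `n` vertices (only used for `n ≥ 3`) -/
def HasCyc (G : SimpleGraph V) (n : ℕ) : Prop :=
  ∃ (a b : V) (l : List V), Pth G l ∧ l.length = n ∧ l.head? = some a ∧ l.getLast? = some b ∧
    G.Adj b a

open Classical in
/-- closed neighbourhood of a set -/
noncomputable def cn [Fintype V] (G : SimpleGraph V) (I : Finset V) : Finset V :=
  univ.filter (fun v => v ∈ I ∨ ∃ u ∈ I, G.Adj u v)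

open Classical in
/-- neighbours of `z` inside `W` -/
noncomputable def nb (G : SimpleGraph V) (W : Finset V) (z : V) : Finset V :=
  W.filter (fun u => G.Adj z u)

open Classical in
/-- neighbours of `z` outside `W` -/
noncomputable def out [Fintype V] (G : SimpleGraph V) (W : Finset V) (z : V) : Finset V :=
  univ.filter (fun u => u ∉ W ∧ G.Adj z u)

open Classical in
/-- second territory: vertices outside `W`, not adjacent to `z`, adjacent to a vertex of `out W z` -/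
noncomputable def out2 [Fintype V] (G : SimpleGraph V) (W : Finset V) (z : V) : Finset V :=
  univ.filter (fun v => v ∉ W ∧ ¬ G.Adj z v ∧ ∃ u, u ∉ W ∧ G.Adj z u ∧ G.Adj u v)

open Classical in
/-- independence number of `G[S]` -/
noncomputable def al (G : SimpleGraph V) (S : Finset V) : ℕ :=
  (S.powerset.filter (fun I : Finset V => G.IsIndepSet (I : Set V))).sup Finset.card

/-- expansion of independent sets -/
def Exp [Fintype V] (G : SimpleGraph V) (k : ℕ) : Prop :=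
  ∀ I : Finset V, I.Nonempty → G.IsIndepSet (I : Set V) → k * I.card + 1 ≤ (cn G I).card

/-- all cliques have at most `s` vertices -/
def Om (G : SimpleGraph V) (s : ℕ) : Prop :=
  ∀ Q : Finset V, G.IsClique (Q : Set V) → Q.card ≤ s

/-- the minimal counterexample -/
structure Ctx [Fintype V] (G : SimpleGraph V) (k : ℕ) : Prop where
  nocyc : ¬ HasCyc G (k + 1)
  alpha : ∀ I : Finset V, G.IsIndepSet (I : Set V) → I.card ≤ k
  exp : Exp G k

/-- a cycle `f 0, …, f (n-1)` with the chord `f 0 ~ f r` -/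
structure Th (G : SimpleGraph V) (n r : ℕ) (f : ℕ → V) : Prop where
  inj : ∀ i j, i < n → j < n → f i = f j → i = j
  adj : ∀ i, i + 1 < n → G.Adj (f i) (f (i + 1))
  cl : G.Adj (f (n - 1)) (f 0)
  r2 : 2 ≤ r
  rn : r + 2 ≤ n
  ch : G.Adj (f 0) (f r)

/-- a path `g 0, …, g L` with `L` edges, as a function -/
structure FP (G : SimpleGraph V) (L : ℕ) (g : ℕ → V) : Prop where
  inj : ∀ i j, i ≤ L → j ≤ L → g i = g j → i = j
  adj : ∀ i, i < L → G.Adj (g i) (g (i + 1))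

/-- BFS balls -/
noncomputable def ball [Fintype V] (G : SimpleGraph V) (v : V) : ℕ → Finset V
  | 0 => {v}
  | i + 1 => cn G (ball G v i)

/-- BFS layers -/
noncomputable def lay [Fintype V] [DecidableEq V] (G : SimpleGraph V) (v : V) : ℕ → Finset V
  | 0 => {v}
  | i + 1 => ball G v (i + 1) \ ball G v i

/-- the list starts and ends in `K` -/
def Ends (K : Finset V) (l : List V) : Prop :=
  (∃ a ∈ K, l.head? = some a) ∧ (∃ b ∈ K, l.getLast? = some b)

/-- a `K`-path: a path starting and ending in `K` -/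
def KP (G : SimpleGraph V) (K : Finset V) (l : List V) : Prop := Pth G l ∧ Ends K l

/-- `z` is a root of the `K`-path `l`: its cyclic successor is in `K` -/
def Rt (K : Finset V) (l : List V) (z : V) : Prop :=
  l.getLast? = some z ∨ ∃ (l₁ l₂ : List V) (y : V), l = l₁ ++ z :: y :: l₂ ∧ y ∈ K

/-- `W` splits into a path from `K` to `z` and a path from `z'` to `K` -/
def Sp [DecidableEq V] (G : SimpleGraph V) (K W : Finset V) (z z' : V) : Prop :=
  ∃ R₁ R₂ : List V, (R₁ ++ R₂).Nodup ∧ (R₁ ++ R₂).toFinset = W ∧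
    R₁.IsChain G.Adj ∧ R₂.IsChain G.Adj ∧ (∃ a ∈ K, R₁.head? = some a) ∧ R₁.getLast? = some z ∧
    R₂.head? = some z' ∧ (∃ b ∈ K, R₂.getLast? = some b)

/-- `p` is the interior of a `z`–`z'` path outside `W` -/
def Conn (G : SimpleGraph V) (W : Finset V) (z z' : V) (p : List V) : Prop :=
  p.Nodup ∧ (∀ x ∈ p, x ∉ W) ∧ (z :: (p ++ [z'])).IsChain G.Adj

/-- a system of disjoint `K`-paths -/
def Sys (G : SimpleGraph V) (K : Finset V) (L : List (List V)) : Prop :=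
  L.flatten.Nodup ∧ ∀ B ∈ L, B.IsChain G.Adj ∧ Ends K B

/-- a system with `k+2` vertices covering `K` -/
def WS (G : SimpleGraph V) (K : Finset V) (k : ℕ) (L : List (List V)) : Prop :=
  Sys G K L ∧ L.flatten.length = k + 2 ∧ ∀ x ∈ K, x ∈ L.flatten

def B4 (K : Finset V) (B : List V) : Prop :=
  ∃ x a b y : V, B = [x, a, b, y] ∧ x ∈ K ∧ a ∉ K ∧ b ∉ K ∧ y ∈ K

def B5 (K : Finset V) (B : List V) : Prop :=
  ∃ x c m d y : V, B = [x, c, m, d, y] ∧ x ∈ K ∧ c ∉ K ∧ m ∉ K ∧ d ∉ K ∧ y ∈ K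

def B7 (K : Finset V) (B : List V) : Prop :=
  ∃ x₀ c d x a b y : V, B = [x₀, c, d, x, a, b, y] ∧ x₀ ∈ K ∧ c ∉ K ∧ d ∉ K ∧ x ∈ K ∧ a ∉ K ∧
    b ∉ K ∧ y ∈ K

end defs

/-! ## General tasks -/

/-- CYC: list cycle ⇒ Mathlib cycle. -/
def CYCStmt : Prop :=
  ∀ (V : Type) (G : SimpleGraph V) (n : ℕ), 3 ≤ n → HasCyc G n →
    ∃ (v : V) (p : G.Walk v v), p.IsCycle ∧ p.length = n

/-- MIN: take `T ⊆ S` of least size with `k * al T < |T|`; for `I ⊆ T` independent nonempty,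
`T' = T \ N[I]` is smaller and `al T' + |I| ≤ al T`, so `|T| - |T ∩ N[I]| ≤ k (al T - |I|)`. -/
def MINStmt : Prop :=
  ∀ (V : Type) [Fintype V] [DecidableEq V] (G : SimpleGraph V) (k : ℕ) (S : Finset V),
    k * al G S < S.card → ∃ T : Finset V, T ⊆ S ∧ T.Nonempty ∧ Exp (G.induce (T : Set V)) k

/-- TRI: triangle-free is impossible.  A triangle-free set `S` with `al S ≤ a` has
`2|S| ≤ a(a+3)` (remove a closed neighbourhood, which has `≤ a+1` vertices, induct on `a`); `Exp` on a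
maximum independent set gives `k a + 1 ≤ |V|`; `a ≤ k`, `3 ≤ k`. -/
def TRIStmt : Prop :=
  ∀ (V : Type) [Fintype V] [DecidableEq V] (G : SimpleGraph V) (k : ℕ), 3 ≤ k → Ctx G k →
    Nonempty V → ∃ a b c : V, G.Adj a b ∧ G.Adj a c ∧ G.Adj b c

/-- CLQK: a clique with `≥ n ≥ 3` vertices has an `n`-cycle. -/
def CLQKStmt : Prop :=
  ∀ (V : Type) [DecidableEq V] (G : SimpleGraph V) (Q : Finset V) (n : ℕ), 3 ≤ n →
    G.IsClique (Q : Set V) → n ≤ Q.card → HasCyc G n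

/-- K3 (`k = 3`, no `C₄`, degrees `≥ 3`, `α ≤ 3`).  Triangle `z₁z₂z₃ = K`, `Qᵢ = out K zᵢ ≠ ∅`; the `Qᵢ` are
disjoint and non-adjacent (else `C₄`).  If some `Qᵢ` is not a clique: 4 independent vertices.  So all are
cliques, `|Qᵢ| ≤ 2` (no `K₄`).  `Exp` on `{u₁,u₂,u₃}` gives `|V| ≥ 10`.  For `v` outside `K ∪ Q₁ ∪ Q₂ ∪ Q₃`,
`{zᵢ,uⱼ,uₗ,v}` is not independent, so for each pair `j,l`, `v` is adjacent to all of `Qⱼ` or to all of `Qₗ`;
adjacent to all of `Qⱼ` forces `|Qⱼ| = 1` (else `C₄`); two such `v` with the same pair give a `C₄`.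
So `|V| ≤ 3+3+3`, `3+4+1` or `3+6+0`, all `< 10`. -/
def K3Stmt : Prop :=
  ∀ (V : Type) [Fintype V] [DecidableEq V] (G : SimpleGraph V), Ctx G 3 →
    ∀ a b c : V, G.Adj a b → G.Adj a c → G.Adj b c → False

/-- K4 (`k = 4`, no `C₅`, degrees `≥ 4`, `α ≤ 4`, no `K₅`); find 5 independent vertices.
(a) a `K₄ = K`: `Qᵢ = out K zᵢ ≠ ∅`, no outside connection with `≤ 3` interior vertices between two `zᵢ`
(`C₅`).  Some `Qᵢ` not a clique: done.  Else `u ∈ Q₁`, `|Q₁| ≤ 3`, `u` has a neighbour `v ∉ K ∪ Q₁`;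
`{z₁,v,u₂,u₃,u₄}`.
(b) no `K₄`, but `W = {x,x',w,z}` with all edges except `wz`.  `L y = out W y`.  No connections with
`≤ 2` interior vertices among `w,z,x'`, none with 3 between `x'` and `w` or `z` (`C₅`).  `L w`, `L z` both
cliques ⇒ sizes `≤ 2`, `|N[{w,z}]| ≤ 8 < 9`.  So wlog `b,b' ∈ L z` non-adjacent, `a ∈ L w`.  If `L x'`
is not a clique: done; else `c ∈ L x'` has a neighbour `v ∉ W ∪ L x'`: `{x',v,a,b,b'}`.
(c) no edge in two triangles: `K = z₁z₂z₃`, `|Qᵢ| ≥ 2`, disjoint, no connections with 2 or 3 interior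
vertices.  All `Qᵢ` non-cliques: done.  Else `Q₁ = {u,u'}` a clique, `u,u'` have disjoint sets of `≥ 2` further
neighbours; these `≥ 4` vertices are not a clique: `{z₁,v,v',u₂,u₃}`. -/
def K4Stmt : Prop :=
  ∀ (V : Type) [Fintype V] [DecidableEq V] (G : SimpleGraph V), Ctx G 4 →
    ∀ a b c : V, G.Adj a b → G.Adj a c → G.Adj b c → False

/-! ## Case II -/

/-- LCORE (Pósa rotation).  Degrees `≥ c`.  Among longest paths `x₀ … x_L` choose one with the largest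
index `p` of a neighbour of `x₀` (all neighbours of `x₀` are on the path).  `x₀ … x_p` is a cycle with a
chord (`deg ≥ 3`), so suppose `p + 1 ≤ 2c`.  For each neighbour `xⱼ` of `x₀` the rotated path
`x_{j-1} … x₀ xⱼ … x_L` is longest, so `N[x_{j-1}] ⊆ {x₀..x_p}`.  `S = {x_{j-1} : xⱼ ~ x₀}`: two
non-adjacent members contradict `Exp` (`2c+1 ≤ p+1`), so `S` is a clique, `|S| = deg x₀ ≥ c`, so `= c`.
`x₀` is adjacent to `S - x₀`; if `x_i ∈ S`, `0 < i`, then `x_{i-1} ∈ S`; so `S = {x₀..x_{c-1}}`, `p = c`, and every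
member of `S` has its `≥ c` neighbours in `{x₀..x_c}`: a clique of size `c+1`. -/
def LCOREStmt : Prop :=
  ∀ (V : Type) [Fintype V] [DecidableEq V] (G : SimpleGraph V) (c : ℕ), 3 ≤ c → Exp G c → Om G c →
    Nonempty V → ∃ (n r : ℕ) (f : ℕ → V), 2 * c + 1 ≤ n ∧ Th G n r f

/-- LL, from MIN and LCORE (apply LCORE to `G.induce T`, compose with `Subtype.val`):
`theorem LL_proof (hM : MINStmt) (hL : LCOREStmt) : LLStmt`. -/
def LLStmt : Prop :=
  ∀ (V : Type) [Fintype V] [DecidableEq V] (G : SimpleGraph V) (c : ℕ) (S : Finset V), 3 ≤ c →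
    Om G c → (∀ (n r : ℕ) (f : ℕ → V), 2 * c + 1 ≤ n → Th G n r f → ¬ ∀ i, i < n → f i ∈ S) →
    S.card ≤ c * al G S

/-- THETA (Bondy–Simonovits / Verstraëte).  Put `X : ℤ → Prop`, `X i = χ (f (i mod n))`; suppose the first
alternative fails.  Arcs give period `L`; `m` = least positive period, `m ∣ n`, `m ∣ L`, `2 ≤ m ≤ L`,
`m ≤ n - L`.  Paths through the chord (a steps along the cycle to `f 0`, chord, `L-1-a` steps from `f r`):
(F) `r ≤ n-L`: `-a..0, r, r+1..` for all `a < L` ⇒ `r-1` is a period; (B) `L ≤ r`: `a..0, r, r-1, ..` ⇒ `r+1`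
is a period; (R1) `-a..0, r, r-1, ..` for `L-r ≤ a ≤ min (L-1) (n-r-1)`: `X (-a) = X (r+1+a)`;
(R2) `a..0, r, r+1, ..` for `L-(n-r) ≤ a ≤ min (L-1) (r-1)`: `X a = X (r-1-a)`.
`r ≤ m` contradicts (F), `n-m ≤ r` contradicts (B); otherwise both ranges have `≥ m` values, so
`X x = X (r+1-x) = X (r-1-x)` for all `x`, `2` is a period, `m = 2`, second alternative. -/
def THETAStmt : Prop :=
  ∀ (V : Type) (G : SimpleGraph V) (n r L : ℕ) (f : ℕ → V) (χ : V → Prop), Th G n r f →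
    (∃ i, i < n ∧ ¬ (χ (f i) ↔ χ (f 0))) → 1 ≤ L → L < n →
    (∃ g : ℕ → V, FP G L g ∧ (∀ i, i ≤ L → ∃ j, j < n ∧ g i = f j) ∧ χ (g 0) ∧ ¬ χ (g L)) ∨
    (Even L ∧ (∀ i, i + 1 < n → ¬ (χ (f i) ↔ χ (f (i + 1)))) ∧ ¬ (χ (f (n - 1)) ↔ χ (f 0)) ∧
      ¬ (χ (f 0) ↔ χ (f r)))

/-- TREE: close a path inside one level of a rooted tree: `g 0 … g L`, then `par^[t] (g L)` for
`t = 1..h`, then `par^[t] (g 0)` for `t = h-1..1` (use `hasCyc_of_fun`; vertices are told apart by `d`). -/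
def TREEStmt : Prop :=
  ∀ (V : Type) (G : SimpleGraph V) (R : Set V) (d : V → ℕ) (par : V → V) (j L h : ℕ) (g : ℕ → V),
    (∀ x ∈ R, 0 < d x → par x ∈ R ∧ G.Adj x (par x) ∧ d (par x) + 1 = d x) →
    FP G L g → (∀ i, i ≤ L → g i ∈ R ∧ d (g i) = j) → 1 ≤ h → h ≤ j →
    par^[h] (g 0) = par^[h] (g L) → par^[h - 1] (g 0) ≠ par^[h - 1] (g L) → HasCyc G (L + 2 * h)

/-- LAYER, `theorem LAYER_proof (hT : THETAStmt) (hR : TREEStmt) : LAYERStmt`.
`d x` = the layer of `x`, `par x` a neighbour in the previous layer; `par^[j] = v` on layer `j`.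
`X = {f i}`; `h` least with `par^[h]` constant on `X` (`1 ≤ h ≤ j`); `χ x := par^[h-1] x = par^[h-1] (f 0)`,
`L = k+1-2h`.  First alternative of THETA + TREE: a `C_{k+1}`.  Second: `A = {x ∈ X, χ x} ∋ f 0, f 2`; `h'` least
with `par^[h']` constant on `A` (`1 ≤ h' < h`), `χ' x := χ x ∧ par^[h'-1] x = par^[h'-1] (f 0)`, `L' = k+1-2h'` even;
apply THETA in `G' = ` edges of `G` with `¬ (χ a ↔ χ b)`.  Its second alternative gives `χ' = χ` on `X`
(contradiction); its first gives an even path, so both ends are in `A`; TREE again. -/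
def LAYERStmt : Prop :=
  ∀ (V : Type) [Fintype V] [DecidableEq V] (G : SimpleGraph V) (k j n r : ℕ) (v : V) (f : ℕ → V),
    ¬ HasCyc G (k + 1) → 1 ≤ j → 2 * j ≤ k → k ≤ n → Th G n r f → ¬ ∀ i, i < n → f i ∈ lay G v j

/-- B1: a cycle with `n ≥ k+1` vertices in `N[v]` contains a path with `k` vertices avoiding `v`
(start after `v`); add `v`. -/
def B1Stmt : Prop :=
  ∀ (V : Type) [Fintype V] [DecidableEq V] (G : SimpleGraph V) (k n r : ℕ) (v : V) (f : ℕ → V),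
    2 ≤ k → ¬ HasCyc G (k + 1) → k + 1 ≤ n → Th G n r f → ¬ ∀ i, i < n → f i ∈ ball G v 1

/-- COUNT, `theorem COUNT_proof (hL : LLStmt) (hY : LAYERStmt) (hB : B1Stmt) : COUNTStmt`.
`c = k/2`, `e j = al (lay j)`, `|lay j| ≤ c e j` for `1 ≤ j ≤ c`.  `E 0 = 1`, `E 1 = e 1`, `E (i+2) = E i + e (i+2)`;
there is an independent `I ⊆ ball i` with `|I| = E i`, so `E i ≤ k` and `k E i + 1 ≤ |ball (i+1)|` (when `E i ≥ 1`).
Odd `k = 2c+1`: `|ball (i+1)| + c ≤ 1 + c (E (i+1) + E i)` for `i+1 ≤ c`, so `(c+1) E i + c ≤ c E (i+1)`,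
`E i ≥ 2i+1`, and `E c ≥ E (c-1) + 3 ≥ k+1`.  Even `k = 2c`: `|ball 1| ≤ c al (ball 1) ≤ c e 1` (LL with B1),
`|ball (i+1)| + c ≤ c (E (i+1) + E i)`, so `E (i+1) ≥ E i + 2`, `E c ≥ k+1`. -/
def COUNTStmt : Prop :=
  ∀ (V : Type) [Fintype V] [DecidableEq V] (G : SimpleGraph V) (k : ℕ), 6 ≤ k → Ctx G k →
    Om G (k / 2) → Nonempty V → False

/-! ## Case I, main part -/

/-- ROOTS: a `K`-path through all of `K` has at least `|K|` roots (cyclic predecessors of `K`). -/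
def ROOTSStmt : Prop :=
  ∀ (V : Type) [DecidableEq V] (G : SimpleGraph V) (K : Finset V) (l : List V), KP G K l →
    (∀ x ∈ K, x ∈ l) → ∃ Z : Finset V, Z.card = K.card ∧ ∀ z ∈ Z, z ∈ l ∧ Rt K l z

/-- SPLIT: `l = v₀ … v_{t}`, `z = vᵢ`, `z' = vⱼ`, `i < j`: `R₁ = v₀ … vᵢ`,
`R₂ = vⱼ v_{j-1} … v_{i+1} v_{j+1} … v_t`.  For `j < i` reverse and swap. -/
def SPLITStmt : Prop :=
  ∀ (V : Type) [DecidableEq V] (G : SimpleGraph V) (K : Finset V) (l : List V) (z z' : V),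
    G.IsClique (K : Set V) → KP G K l → Rt K l z → Rt K l z' → z ≠ z' → Sp G K l.toFinset z z'

/-- BT.  `R = R₁.reverse ++ R₂.reverse = r₁ … r_ℓ` is a Hamiltonian `z`–`z'` path of `W`; `g = k+1-ℓ`, `e = |p|+1`,
`Q = out W z` a clique, `q = |Q| ≥ k - |nb W z|`.  If `z ~ r_{j+2}` with `e-g ≤ j ≤ e-g+q-1`, then
`z r_{j+2} … z'`, the connection backwards, and `j-(e-g)` more vertices of `Q` form a `C_{k+1}`.  `z` misses at most
`q-g < q` vertices of `W - z`, so the window leaves the path and `z` misses all `rᵢ`, `i ≥ e-g+2`. -/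
def BTStmt : Prop :=
  ∀ (V : Type) [Fintype V] [DecidableEq V] (G : SimpleGraph V) (k : ℕ) (K W : Finset V) (z z' u : V)
    (p : List V), 2 ≤ k → Ctx G k → G.IsClique (K : Set V) → Sp G K W z z' → Conn G W z z' (u :: p) →
    (∀ x ∈ p, ¬ G.Adj z x) → G.IsClique (out G W z : Set V) → W.card ≤ k →
    k + 1 ≤ W.card + (p.length + 1) →
    (nb G W z).card + (k + 1) ≤ W.card + (p.length + 1) ∧ (p.length + 1 < k → ¬ G.Adj z z')

/-- CLQ, `theorem CLQ_proof (hS : SPLITStmt) : CLQStmt`.  `w` = first vertex of `l` outside `K`, `p` its predecessor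
(not a root, so `u,u' ~ p`).  If `w` is not a root, or `w = z`, or `w = z'`: insert `u` (or `u'`) between `p` and `w`.
Otherwise the successor of `w` is in `K`; delete `p, w`: a `K`-path `l'` with `k-2` vertices in which `z,z'` are still
roots; SPLIT and `R₁ ++ [u,p,u'] ++ R₂` is a `K`-path with `k+1` vertices (`hasCyc_of_kp`). -/
def CLQStmt : Prop :=
  ∀ (V : Type) [DecidableEq V] (G : SimpleGraph V) (k : ℕ) (K : Finset V) (l : List V)
    (z z' u u' : V), 2 ≤ k → G.IsClique (K : Set V) → KP G K l → l.length = k → (∃ w ∈ l, w ∉ K) →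
    Rt K l z → Rt K l z' → z ≠ z' → u ∉ l → u' ∉ l → u ≠ u' → G.Adj z u → G.Adj z' u' →
    (∀ x ∈ l, ¬ Rt K l x → G.Adj u x ∧ G.Adj u' x) → HasCyc G (k + 1)

/-- IND: choose for `z ∈ Z \ D` one vertex of `out z`; for `z ∈ D` two non-adjacent vertices of `out z` if it is not
a clique, else two non-adjacent vertices of `out z ∪ out2 z` if that is not a clique, else (at most one `z`)
the pair `z, v` with `v ∈ out2 z`.  The chosen sets are disjoint and non-adjacent by `N1`–`N4`. -/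
def INDStmt : Prop :=
  ∀ (V : Type) [Fintype V] [DecidableEq V] (G : SimpleGraph V) (W Z D : Finset V), Z ⊆ W → D ⊆ Z →
    (∀ z ∈ Z, (out G W z).Nonempty) →
    (∀ z ∈ D, G.IsClique (out G W z : Set V) → (out2 G W z).Nonempty) →
    -- N1
    (∀ z ∈ Z, ∀ z' ∈ Z, z ≠ z' → ∀ u ∈ out G W z, u ∉ out G W z') →
    -- N2
    (∀ z ∈ Z, ∀ z' ∈ Z, z ≠ z' → ∀ u ∈ out G W z, ∀ u' ∈ out G W z', ¬ G.Adj u u') →
    -- N3
    (∀ z ∈ D, G.IsClique (out G W z : Set V) → ∀ z' ∈ Z, z ≠ z' →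
      ∀ v ∈ out2 G W z, ∀ u' ∈ out G W z', ¬ G.Adj v u') →
    -- N4
    (∀ z ∈ D, G.IsClique (out G W z : Set V) → ∀ z' ∈ D, G.IsClique (out G W z' : Set V) → z ≠ z' →
      ∀ v ∈ out2 G W z, ∀ v' ∈ out2 G W z', ¬ G.Adj v v') →
    -- at most one clique territory
    (∀ z ∈ D, ∀ z' ∈ D, G.IsClique ((out G W z ∪ out2 G W z : Finset V) : Set V) →
      G.IsClique ((out G W z' ∪ out2 G W z' : Finset V) : Set V) → z = z') →
    ∃ I : Finset V, G.IsIndepSet (I : Set V) ∧ I.card = Z.card + D.card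

/-- MAINI, `theorem MAINI_proof (ROOTS SPLIT BT CLQ IND) : MAINIStmt` (helper27 does this one). -/
def MAINIStmt : Prop :=
  ∀ (V : Type) [Fintype V] [DecidableEq V] (G : SimpleGraph V) (k : ℕ) (K : Finset V), 5 ≤ k →
    Ctx G k → G.IsClique (K : Set V) → Om G K.card → k + 1 ≤ 2 * K.card → K.card ≤ k →
    (∀ l : List V, KP G K l → (∀ x ∈ K, x ∈ l) → l.length ≠ k + 2) → False

/-! ## Case I, a `K`-path with `k+2` vertices -/

/-- CLOSE: `L.flatten` followed by `n - |L.flatten|` unused vertices of `K` is a `K`-path. -/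
def CLOSEStmt : Prop :=
  ∀ (V : Type) [DecidableEq V] (G : SimpleGraph V) (K : Finset V) (L : List (List V)) (n : ℕ),
    3 ≤ n → G.IsClique (K : Set V) → Sys G K L → L.flatten.length ≤ n →
    n ≤ (L.flatten.toFinset ∪ K).card → HasCyc G n

/-- REPL, `theorem REPL_proof (hC : CLOSEStmt) : REPLStmt`: replace the blocks `Bs` by `Ns`; CLOSE for `Ns ++ R`. -/
def REPLStmt : Prop :=
  ∀ (V : Type) [DecidableEq V] (G : SimpleGraph V) (K : Finset V) (k : ℕ)
    (L Bs R Ns : List (List V)), 2 ≤ k → G.IsClique (K : Set V) → WS G K k L → L.Perm (Bs ++ R) →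
    Sys G K Ns → (∀ x ∈ Ns.flatten, x ∈ Bs.flatten ∨ x ∉ L.flatten) →
    Ns.flatten.length < Bs.flatten.length →
    Bs.flatten.countP (fun x => x ∉ K) ≤ Ns.flatten.countP (fun x => x ∉ K) + 1 →
    HasCyc G (k + 1)

/-- STRUCT, `theorem STRUCT_proof (hR : REPLStmt) : STRUCTStmt`.  `[l]` is a `WS`; take a `WS` with the most blocks.
No block contains two consecutive `K`-vertices (split it), none is a single vertex and none contains `K,o,K`
(REPL).  Such a block with `j ≥ 2` vertices in `K` has `≥ 2(j-1)` vertices outside, so (outside − inside) `≥ 0`,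
`= 0` only for `B4`, `= 1` only for `B5`, `B7`; the total is `(k+2-s) - s ≤ 1`. -/
def STRUCTStmt : Prop :=
  ∀ (V : Type) [DecidableEq V] (G : SimpleGraph V) (K : Finset V) (k : ℕ) (l : List V), 2 ≤ k →
    G.IsClique (K : Set V) → ¬ HasCyc G (k + 1) → k + 1 ≤ 2 * K.card → KP G K l →
    (∀ x ∈ K, x ∈ l) → l.length = k + 2 →
    ∃ (S : List V) (R : List (List V)), WS G K k (S :: R) ∧ (∀ B ∈ R, B4 K B) ∧
      (B4 K S ∨ B5 K S ∨ B7 K S)

/-- FIN.  `|out W y| ≥ k - |nb W y| ≥ s`, and `out W y + y` would be a clique of size `> s`, so each `out W y` has two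
non-adjacent vertices; `2|Y| ≥ k+1` independent vertices.  Pairs `{y, σ y}` may share outside neighbours, but then
`|out| ≥ s+1`: a shared `u` is isolated in `out y ∪ out (σ y)`; take `u`, two non-adjacent `v₁,v₂ ∈ out (σ y) - u`,
and `u₂ ∈ out y \ {u,v₁,v₂}`.  (With `σ = id` there are no exceptional pairs.) -/
def FINStmt : Prop :=
  ∀ (V : Type) [Fintype V] [DecidableEq V] (G : SimpleGraph V) (k s : ℕ) (W Y : Finset V) (σ : V → V),
    3 ≤ s → Ctx G k → Om G s → k + 1 ≤ 2 * Y.card → (∀ y ∈ Y, (nb G W y).card + s ≤ k) →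
    (∀ y ∈ Y, σ y ∈ Y ∧ σ (σ y) = y ∧ (σ y ≠ y → (nb G W y).card + s + 1 ≤ k)) →
    (∀ y ∈ Y, ∀ y' ∈ Y, y ≠ y' → y' ≠ σ y → ∀ u ∈ out G W y, u ∉ out G W y') →
    (∀ y ∈ Y, ∀ y' ∈ Y, y ≠ y' → ∀ u ∈ out G W y, ∀ u' ∈ out G W y', ¬ G.Adj u u') → False

/-- W4, `theorem W4_proof (hR : REPLStmt) (hF : FINStmt) : W4Stmt`.  `ρ ≥ 2` blocks, `k+2 = 4ρ`, `s = 2ρ`.
`Y` = all non-`K` vertices, `σ = id`.  For blocks `[x,a,b,y]`, `[x',a',b',y']` (up to reversing blocks), REPL excludes: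
`a~y`: `[x,a,y]`; `a~x'`: `[y,b,a,x',a',b',y']`; `a~a'`: `[y,b,a,a',b',y']`, so `nb W a ⊆ {x,b}`;
connection `p` (1 or 2 vertices) `a`–`a'`: `[x,a]++p++[a',x']`; `a`–`b`: `[x,a]++p++[b,y]` replacing both blocks. -/
def W4Stmt : Prop :=
  ∀ (V : Type) [Fintype V] [DecidableEq V] (G : SimpleGraph V) (K : Finset V) (k : ℕ)
    (L : List (List V)), Ctx G k → G.IsClique (K : Set V) → Om G K.card → 3 ≤ K.card →
    WS G K k L → (∀ B ∈ L, B4 K B) → False

/-- W5, `theorem W5_proof (hR : REPLStmt) (hF : FINStmt) : W5Stmt`.  `S = [P,c,m,d,Q]`, `R ≠ []`, `k = 2s-1`, `s ≥ 4`.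
`Y = {c,m}` ∪ all `a,b`; `σ` swaps `a,b` of each 4-block.  Besides the W4 moves: `a~P`: `[y,b,a,P,c,m,d,Q]`;
`a~c`: `[y,b,a,c,m,d,Q]`; `a~m`: `[y,b,a,m,d,Q]` (so `nb a ⊆ {x,b}`); `c~d`: `[P,c,d,Q]`; `c~x`: `[Q,d,m,c,x,a,b,y]`
(so `nb c ⊆ {P,m,Q}`); `m~P`: `[P,m,d,Q]`; `m~x`: `[Q,d,m,x,a,b,y]` (so `nb m ⊆ {c,d}`).  Connections `p`:
`a`–`a'` as in W4; `a`–`b` only `|p| = 2`: `[x,a,u,u',b,y]` replacing the block and `S`; `a`–`c`: `[x,a]++p++[c,m,d,Q]`;
`a`–`m`: `[x,a]++p++[m,d,Q]`; `c`–`m`: `[P,c]++p++[m,d,Q]` replacing `S` and a 4-block. -/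
def W5Stmt : Prop :=
  ∀ (V : Type) [Fintype V] [DecidableEq V] (G : SimpleGraph V) (K : Finset V) (k : ℕ) (S : List V)
    (R : List (List V)), Ctx G k → G.IsClique (K : Set V) → Om G K.card → 3 ≤ K.card →
    WS G K k (S :: R) → B5 K S → (∀ B ∈ R, B4 K B) → False

/-- W7, `theorem W7_proof (hR : REPLStmt) (hF : FINStmt) : W7Stmt`.  `S = [x₀,c,d,X,a₀,b₀,y₀]`, `k = 2s-1`, `s = 3+2|R|`.
If `R = []` (`k = 5`), `d~y₀` and `a₀~x₀` give the 6-cycle `x₀ a₀ b₀ y₀ d c`; so (reversing `S`) `R ≠ []` or `¬ d~y₀`.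
`Y = {c,d,b₀}` ∪ all `a,b`, `σ = id`; need `|nb| ≤ s-1`.  For a 4-block `[x,a,b,y]`: `nb a ⊆ {x,b,X}`: W4 moves and
`a~x₀`: `[y,b,a]++S`; `a~c`: `[y,b,a,c,d,X,a₀,b₀,y₀]`; `a~d`: `[y,b,a,d,c,x₀],[X,a₀,b₀,y₀]` (and mirror images).
`nb c ⊆ {x₀,d}`: `c~X`: `[x₀,c,X,a₀,b₀,y₀]`; `c~y₀`: `[x₀,c,y₀,b₀,a₀,X]`; `c~a₀`: `[x₀,c,a₀,b₀,y₀]`; `c~b₀`:
`[x₀,c,b₀,a₀,X]`; `c~x`: `[y,b,a,x,c,d,X,a₀,b₀,y₀]`.  `nb d ⊆ {c,X,y₀}`: `d~x₀`: `[x₀,d,X,a₀,b₀,y₀]`; `d~a₀`:
`[x₀,c,d,a₀,b₀,y₀]`; `d~b₀`: `[x₀,c,d,b₀,a₀,X]`; `d~x`: `[y,b,a,x,d,X,a₀,b₀,y₀]`.  Connections `p`: `a`–`a'` as in W4;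
`a`–`b`: `[x,a]++p++[b,y],[x₀,c,d,X]`; `a`–`c`: `[x,a]++p++[c,x₀],[X,a₀,b₀,y₀]`; `a`–`b₀` mirror;
`a`–`d`: `[x,a]++p++[d,X,a₀,b₀,y₀]`; `c`–`d`: `[x₀,c]++p++[d,X]`; `c`–`b₀`: `[x₀,c]++p++[b₀,y₀]`; `d`–`b₀`: `[X,d]++p++[b₀,y₀]`. -/
def W7Stmt : Prop :=
  ∀ (V : Type) [Fintype V] [DecidableEq V] (G : SimpleGraph V) (K : Finset V) (k : ℕ) (S : List V)
    (R : List (List V)), Ctx G k → G.IsClique (K : Set V) → Om G K.card →
    WS G K k (S :: R) → B7 K S → (∀ B ∈ R, B4 K B) → False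

/-! ## Basic API -/

section api
variable {V : Type}

theorem mem_cn [Fintype V] {G : SimpleGraph V} {I : Finset V} {v : V} :
    v ∈ cn G I ↔ v ∈ I ∨ ∃ u ∈ I, G.Adj u v := by simp [cn]

theorem mem_nb {G : SimpleGraph V} {W : Finset V} {z u : V} :
    u ∈ nb G W z ↔ u ∈ W ∧ G.Adj z u := by simp [nb]

theorem mem_out [Fintype V] {G : SimpleGraph V} {W : Finset V} {z u : V} :
    u ∈ out G W z ↔ u ∉ W ∧ G.Adj z u := by simp [out]

theorem mem_out2 [Fintype V] {G : SimpleGraph V} {W : Finset V} {z v : V} :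
    v ∈ out2 G W z ↔ v ∉ W ∧ ¬ G.Adj z v ∧ ∃ u, u ∉ W ∧ G.Adj z u ∧ G.Adj u v := by simp [out2]

theorem le_al {G : SimpleGraph V} {S I : Finset V} (h : I ⊆ S) (hI : G.IsIndepSet (I : Set V)) :
    I.card ≤ al G S := by
  classical
  unfold al
  exact Finset.le_sup (f := Finset.card) (by simp [h, hI])

theorem exists_al (G : SimpleGraph V) (S : Finset V) :
    ∃ I : Finset V, I ⊆ S ∧ G.IsIndepSet (I : Set V) ∧ I.card = al G S := by
  classical
  unfold al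
  obtain ⟨I, hI, h⟩ := Finset.exists_mem_eq_sup
    (S.powerset.filter (fun I : Finset V => G.IsIndepSet (I : Set V)))
    ⟨∅, by simp⟩ Finset.card
  simp only [Finset.mem_filter, Finset.mem_powerset] at hI
  exact ⟨I, hI.1, hI.2, by convert h.symm⟩

/-- degree bound from `Exp`: `k ≤ |nb W z| + |out W z|` -/
theorem Exp.deg [Fintype V] [DecidableEq V] {G : SimpleGraph V} {k : ℕ} (h : Exp G k) (W : Finset V)
    (z : V) : k ≤ (nb G W z).card + (out G W z).card := by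
  have h1 := h {z} (by simp) (by simp)
  have h2 : cn G {z} ⊆ insert z (nb G W z ∪ out G W z) := by
    intro v hv
    rw [mem_cn] at hv
    simp only [Finset.mem_insert, Finset.mem_union, mem_nb, mem_out, Finset.mem_singleton] at hv ⊢
    rcases hv with hv | ⟨u, rfl, hv⟩
    · exact Or.inl hv
    · by_cases hw : v ∈ W
      · exact Or.inr (Or.inl ⟨hw, hv⟩)
      · exact Or.inr (Or.inr ⟨hw, hv⟩)
  have h3 := Finset.card_le_card h2
  have h4 := Finset.card_insert_le z (nb G W z ∪ out G W z)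
  have h5 := Finset.card_union_le (nb G W z) (out G W z)
  simp only [Finset.card_singleton, mul_one] at h1
  omega

theorem hasCyc_of_fun {G : SimpleGraph V} {n : ℕ} (f : ℕ → V) (hn : 1 ≤ n)
    (inj : ∀ i j, i < n → j < n → f i = f j → i = j)
    (adj : ∀ i, i + 1 < n → G.Adj (f i) (f (i + 1))) (cl : G.Adj (f (n - 1)) (f 0)) :
    HasCyc G n := by
  refine ⟨f 0, f (n - 1), (List.range n).map f, ⟨?_, ?_⟩, by simp, ?_, ?_, cl⟩
  · refine (List.nodup_range).map_on ?_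
    intro i hi j hj h
    exact inj i j (List.mem_range.1 hi) (List.mem_range.1 hj) h
  · rw [List.isChain_iff_getElem]
    intro i hi
    simp only [List.length_map, List.length_range] at hi
    simpa using adj i hi
  · obtain ⟨m, rfl⟩ : ∃ m, n = m + 1 := ⟨n - 1, by omega⟩
    simp [List.range_succ_eq_map]
  · obtain ⟨m, rfl⟩ : ∃ m, n = m + 1 := ⟨n - 1, by omega⟩
    simp [List.range_succ]

/-- a `K`-path with at least two vertices closes up -/
theorem hasCyc_of_kp {G : SimpleGraph V} {K : Finset V} {l : List V} (hK : G.IsClique (K : Set V))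
    (h : KP G K l) (h2 : 2 ≤ l.length) : HasCyc G l.length := by
  obtain ⟨hp, ⟨a, ha, ha'⟩, ⟨b, hb, hb'⟩⟩ := h
  refine ⟨a, b, l, hp, rfl, ha', hb', hK (by simpa using hb) (by simpa using ha) ?_⟩
  rintro rfl
  match l, hp, ha', hb', h2 with
  | x :: y :: t, hp, ha', hb', _ =>
    simp only [List.head?_cons, Option.some.injEq] at ha'
    subst ha'
    have : x ∈ y :: t := List.mem_of_getLast? (by simpa using hb')
    exact (List.nodup_cons.1 hp.1).1 this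

end api

end Crest.Agent.R54
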