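import Crest.Agent.R54.Defs

/-! Row 54, task FIN: two independent outside neighbours for every vertex of `Y`. -/

set_option autoImplicit false

namespace Crest.Agent.R54

open Finset

namespace FIN

variable {V : Type} [Fintype V] [DecidableEq V]

def Gd (G : SimpleGraph V) (W : Finset V) (y : V) (A : Finset V) : Prop :=
  A ⊆ out G W y ∧ A.card = 2 ∧ ∀ a ∈ A, ∀ b ∈ A, ¬ G.Adj a b

theorem gd_pair {G : SimpleGraph V} {W : Finset V} {y a b : V} (ha : a ∈ out G W y)
    (hb : b ∈ out G W y) (hab : a ≠ b) (h : ¬ G.Adj a b) : Gd G W y {a, b} := by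
  refine ⟨insert_subset ha (singleton_subset_iff.2 hb), card_pair hab, ?_⟩
  intro x hx z hz
  simp only [mem_insert, mem_singleton] at hx hz
  rcases hx with rfl | rfl <;> rcases hz with rfl | rfl
  · exact G.irrefl
  · exact h
  · exact fun h' => h h'.symm
  · exact G.irrefl

theorem two {G : SimpleGraph V} {s : ℕ} (hO : Om G s) (W : Finset V) (y : V) (Q : Finset V)
    (hQ : Q ⊆ out G W y) (hs : s ≤ Q.card) : ∃ A ⊆ Q, Gd G W y A := by
  by_contra h
  have hy : y ∉ Q := fun h' => G.irrefl (mem_out.1 (hQ h')).2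
  have h1 : G.IsClique ((insert y Q : Finset V) : Set V) := by
    rw [coe_insert]
    refine SimpleGraph.IsClique.insert ?_ fun b hb _ => (mem_out.1 (hQ hb)).2
    intro a ha b hb hab
    by_contra h'
    exact h ⟨{a, b}, insert_subset ha (singleton_subset_iff.2 hb),
      gd_pair (hQ ha) (hQ hb) hab h'⟩
  have := hO _ h1
  rw [card_insert_of_notMem hy] at this
  omega

theorem pair {G : SimpleGraph V} {s : ℕ} (hs : 3 ≤ s) (hO : Om G s) (W : Finset V) (y y' : V)
    (h1 : s + 1 ≤ (out G W y).card) (h2 : s + 1 ≤ (out G W y').card)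
    (h : ∀ u ∈ out G W y, ∀ u' ∈ out G W y', ¬ G.Adj u u') :
    ∃ A B, Gd G W y A ∧ Gd G W y' B ∧ Disjoint A B := by
  by_cases hd : Disjoint (out G W y) (out G W y')
  · obtain ⟨A, hA, gA⟩ := two hO W y _ subset_rfl (by omega)
    obtain ⟨B, hB, gB⟩ := two hO W y' _ subset_rfl (by omega)
    exact ⟨A, B, gA, gB, hd.mono hA hB⟩
  obtain ⟨u, hu, hu'⟩ := not_disjoint_iff.1 hd
  obtain ⟨B, hB, gB⟩ := two hO W y' ((out G W y').erase u) (erase_subset _ _)
    (by rw [card_erase_of_mem hu']; omega)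
  have h3 : (insert u B).card < (out G W y).card := by
    have := card_insert_le u B
    have := gB.2.1
    omega
  obtain ⟨v, hv, hv'⟩ := exists_mem_notMem_of_card_lt_card h3
  rw [mem_insert, not_or] at hv'
  refine ⟨{v, u}, B, gd_pair hv hu hv'.1 (h v hv u hu'), gB, ?_⟩
  rw [disjoint_insert_left, disjoint_singleton_left]
  exact ⟨hv'.2, fun h' => (mem_erase.1 (hB h')).1 rfl⟩

end FIN

open FIN in
theorem FIN_proof : FINStmt := by
  intro V _ _ G k s W Y σ hs hC hO hY hnb hσ hdis hadj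
  have h1 : ∀ y ∈ Y, ∃ A B, Gd G W y A ∧ Gd G W (σ y) B ∧ (σ y ≠ y → Disjoint A B) := by
    intro y hy
    obtain ⟨a1, a2, a3⟩ := hσ y hy
    have d1 := hC.exp.deg W y
    by_cases h : σ y = y
    · have := hnb y hy
      obtain ⟨A, -, gA⟩ := two hO W y _ subset_rfl (by omega)
      exact ⟨A, A, gA, by rw [h]; exact gA, fun h' => absurd h h'⟩
    · have d2 := hC.exp.deg W (σ y)
      have b1 := a3 h
      have b2 := (hσ _ a1).2.2 (by rw [a2]; exact Ne.symm h)
      obtain ⟨A, B, gA, gB, hd⟩ := pair hs hO W y (σ y) (by omega) (by omega)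
        (hadj y hy _ a1 (Ne.symm h))
      exact ⟨A, B, gA, gB, fun _ => hd⟩
  choose! A B hA hB hAB using h1
  let e := Fintype.equivFin V
  let J : V → Finset V := fun y => if e y ≤ e (σ y) then A y else B (σ y)
  have hJ : ∀ y ∈ Y, Gd G W y (J y) := by
    intro y hy
    simp only [J]
    split_ifs
    · exact hA y hy
    · have := hB _ (hσ y hy).1
      rwa [(hσ y hy).2.1] at this
  have hd : ∀ y ∈ Y, ∀ y' ∈ Y, y ≠ y' → Disjoint (J y) (J y') := by
    intro y hy y' hy' hne
    by_cases h : y' = σ y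
    · subst h
      have a2 := (hσ y hy).2.1
      have hne' : e y ≠ e (σ y) := fun h => hne (e.injective h)
      simp only [J, a2]
      rcases lt_or_gt_of_ne hne' with g | g
      · rw [if_pos g.le, if_neg g.not_ge]
        exact hAB y hy hne.symm
      · rw [if_neg g.not_ge, if_pos g.le]
        exact (hAB _ hy' (by rw [a2]; exact hne)).symm
    · exact disjoint_left.2 fun u hu hu' =>
        hdis y hy y' hy' hne h u ((hJ y hy).1 hu) ((hJ y' hy').1 hu')
  have hI : G.IsIndepSet ((Y.biUnion J : Finset V) : Set V) := by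
    intro a ha b hb _
    obtain ⟨y, hy, ha⟩ := mem_biUnion.1 (mem_coe.1 ha)
    obtain ⟨y', hy', hb⟩ := mem_biUnion.1 (mem_coe.1 hb)
    by_cases h : y = y'
    · subst h
      exact (hJ y hy).2.2 a ha b hb
    · exact hadj y hy y' hy' h a ((hJ y hy).1 ha) b ((hJ y' hy').1 hb)
  have h2 := hC.alpha _ hI
  rw [card_biUnion fun y hy y' hy' h => hd y hy y' hy' h,
    sum_congr rfl fun y hy => (hJ y hy).2.1] at h2
  simp only [sum_const, smul_eq_mul] at h2
  omega

end Crest.Agent.R54
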