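import Crest.Agent.R54.Defs

set_option autoImplicit false

namespace Crest.Agent.R54

open Finset

theorem exists_pair_of_not_clique {V : Type} {G : SimpleGraph V} {S : Set V}
    (h : ¬ G.IsClique S) : ∃ a ∈ S, ∃ b ∈ S, a ≠ b ∧ ¬ G.Adj a b := by
  by_contra hc
  apply h
  intro a ha b hb hab
  by_contra hn
  exact hc ⟨a, ha, b, hb, hab, hn⟩

theorem indep_pair {V : Type} [DecidableEq V] {G : SimpleGraph V} {a b : V} (h : ¬ G.Adj a b) :
    ∀ x ∈ ({a, b} : Finset V), ∀ y ∈ ({a, b} : Finset V), ¬ G.Adj x y := by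
  intro x hx y hy
  simp only [Finset.mem_insert, Finset.mem_singleton] at hx hy
  rcases hx with rfl | rfl <;> rcases hy with rfl | rfl
  · exact G.irrefl
  · exact h
  · exact fun h' => h h'.symm
  · exact G.irrefl

theorem IND_proof : INDStmt := by
  intro V _ _ G W Z D hZW hDZ hne hne2 N1 N2 N3 N4 N5
  -- the type of a chosen vertex
  let Ty : V → V → Prop := fun z x =>
    x ∈ out G W z ∨ (z ∈ D ∧ G.IsClique (out G W z : Set V) ∧ x ∈ out2 G W z) ∨
      (z ∈ D ∧ G.IsClique ((out G W z ∪ out2 G W z : Finset V) : Set V) ∧ x = z)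
  have hT : ∀ z ∈ Z, ∃ T : Finset V, T.card = (if z ∈ D then 2 else 1) ∧ (∀ x ∈ T, Ty z x) ∧
      ∀ x ∈ T, ∀ y ∈ T, ¬ G.Adj x y := by
    intro z hz
    by_cases hD : z ∈ D
    · rw [if_pos hD]
      by_cases h1 : G.IsClique (out G W z : Set V)
      · by_cases h2 : G.IsClique ((out G W z ∪ out2 G W z : Finset V) : Set V)
        · obtain ⟨v, hv⟩ := hne2 z hD h1
          have hv' := mem_out2.1 hv
          have hzv : z ≠ v := by
            rintro rfl
            exact hv'.1 (hZW hz)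
          refine ⟨{z, v}, Finset.card_pair hzv, ?_, indep_pair hv'.2.1⟩
          intro x hx
          simp only [Finset.mem_insert, Finset.mem_singleton] at hx
          rcases hx with rfl | rfl
          · exact Or.inr (Or.inr ⟨hD, h2, rfl⟩)
          · exact Or.inr (Or.inl ⟨hD, h1, hv⟩)
        · obtain ⟨a, ha, b, hb, hab, hn⟩ := exists_pair_of_not_clique h2
          refine ⟨{a, b}, Finset.card_pair hab, ?_, indep_pair hn⟩
          have key : ∀ x, x ∈ ((out G W z ∪ out2 G W z : Finset V) : Set V) → Ty z x := by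
            intro x hx
            rw [Finset.mem_coe, Finset.mem_union] at hx
            rcases hx with hx | hx
            · exact Or.inl hx
            · exact Or.inr (Or.inl ⟨hD, h1, hx⟩)
          intro x hx
          simp only [Finset.mem_insert, Finset.mem_singleton] at hx
          rcases hx with rfl | rfl
          · exact key _ ha
          · exact key _ hb
      · obtain ⟨a, ha, b, hb, hab, hn⟩ := exists_pair_of_not_clique h1
        refine ⟨{a, b}, Finset.card_pair hab, ?_, indep_pair hn⟩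
        intro x hx
        simp only [Finset.mem_insert, Finset.mem_singleton] at hx
        rcases hx with rfl | rfl
        · exact Or.inl ha
        · exact Or.inl hb
    · rw [if_neg hD]
      obtain ⟨u, hu⟩ := hne z hz
      refine ⟨{u}, Finset.card_singleton u, ?_, ?_⟩
      · intro x hx
        rw [Finset.mem_singleton] at hx
        subst hx
        exact Or.inl hu
      · intro x hx y hy
        rw [Finset.mem_singleton] at hx hy
        subst hx; subst hy
        exact G.irrefl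
  -- compatibility of types
  have hcomp : ∀ z ∈ Z, ∀ z' ∈ Z, z ≠ z' → ∀ x x', Ty z x → Ty z' x' → x ≠ x' ∧ ¬ G.Adj x x' := by
    have hba : ∀ z ∈ D, G.IsClique (out G W z : Set V) → ∀ z' ∈ Z, z ≠ z' → ∀ x ∈ out2 G W z,
        ∀ x' ∈ out G W z', x ≠ x' ∧ ¬ G.Adj x x' := by
      intro z hz h1 z' hz' hzz x hx x' hx'
      refine ⟨?_, N3 z hz h1 z' hz' hzz x hx x' hx'⟩
      rintro rfl
      obtain ⟨_, _, u, hu1, hu2, hu3⟩ := mem_out2.1 hx
      exact N2 z (hDZ hz) z' hz' hzz u (mem_out.2 ⟨hu1, hu2⟩) x hx' hu3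
    have hca : ∀ z ∈ Z, ∀ z' ∈ Z, z ≠ z' → ∀ x' ∈ out G W z', z ≠ x' ∧ ¬ G.Adj z x' := by
      intro z hz z' hz' hzz x' hx'
      have h := mem_out.1 hx'
      refine ⟨?_, fun ha => N1 z hz z' hz' hzz x' (mem_out.2 ⟨h.1, ha⟩) hx'⟩
      rintro rfl
      exact h.1 (hZW hz)
    have hcb : ∀ z ∈ Z, ∀ z' ∈ Z, z ≠ z' → ∀ x' ∈ out2 G W z', z ≠ x' ∧ ¬ G.Adj z x' := by
      intro z hz z' hz' hzz x' hx'
      obtain ⟨h1, _, u, hu1, hu2, hu3⟩ := mem_out2.1 hx'
      refine ⟨?_, fun ha => N2 z hz z' hz' hzz x' (mem_out.2 ⟨h1, ha⟩) u (mem_out.2 ⟨hu1, hu2⟩)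
        hu3.symm⟩
      rintro rfl
      exact h1 (hZW hz)
    have hsym : ∀ x x' : V, x ≠ x' ∧ ¬ G.Adj x x' → x' ≠ x ∧ ¬ G.Adj x' x :=
      fun x x' h => ⟨fun e => h.1 e.symm, fun e => h.2 e.symm⟩
    intro z hz z' hz' hzz x x' hx hx'
    rcases hx with hx | ⟨hD, h1, hx⟩ | ⟨hD, h2, rfl⟩ <;>
      rcases hx' with hx' | ⟨hD', h1', hx'⟩ | ⟨hD', h2', rfl⟩
    · refine ⟨?_, N2 z hz z' hz' hzz x hx x' hx'⟩
      rintro rfl
      exact N1 z hz z' hz' hzz x hx hx'
    · exact hsym _ _ (hba z' hD' h1' z hz hzz.symm x' hx' x hx)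
    · exact hsym _ _ (hca _ hz' z hz hzz.symm x hx)
    · exact hba z hD h1 z' hz' hzz x hx x' hx'
    · refine ⟨?_, N4 z hD h1 z' hD' h1' hzz x hx x' hx'⟩
      rintro rfl
      obtain ⟨_, _, u, hu1, hu2, hu3⟩ := mem_out2.1 hx'
      exact N3 z hD h1 z' hz' hzz x hx u (mem_out.2 ⟨hu1, hu2⟩) hu3.symm
    · exact hsym _ _ (hcb _ hz' z hz hzz.symm x hx)
    · exact hca _ hz z' hz' hzz x' hx'
    · exact hcb _ hz z' hz' hzz x' hx'
    · exact absurd (N5 _ hD _ hD' h2 h2') hzz
  choose! T hT1 hT2 hT3 using hT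
  refine ⟨Z.biUnion T, ?_, ?_⟩
  · intro x hx y hy _
    rw [Finset.mem_coe, Finset.mem_biUnion] at hx hy
    obtain ⟨z, hz, hx⟩ := hx
    obtain ⟨z', hz', hy⟩ := hy
    by_cases hzz : z = z'
    · subst hzz
      exact hT3 z hz x hx y hy
    · exact (hcomp z hz z' hz' hzz x y (hT2 z hz x hx) (hT2 z' hz' y hy)).2
  · rw [Finset.card_biUnion]
    · rw [Finset.sum_congr rfl hT1]
      have : ∀ z ∈ Z, (if z ∈ D then 2 else 1) = 1 + (if z ∈ D then 1 else 0) := by
        intro z _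
        split_ifs <;> rfl
      rw [Finset.sum_congr rfl this, Finset.sum_add_distrib, Finset.sum_ite_mem,
        Finset.inter_eq_right.2 hDZ]
      simp
    · intro z hz z' hz' hzz
      rw [Function.onFun, Finset.disjoint_left]
      intro x hx hx'
      exact (hcomp z hz z' hz' hzz x x (hT2 z hz x hx) (hT2 z' hz' x hx')).1 rfl

end Crest.Agent.R54
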