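import Crest.Agent.R54.Defs

set_option autoImplicit false
set_option linter.unusedSectionVars false

namespace Crest.Agent.R54

open Finset

namespace K3

variable {V : Type} [Fintype V] [DecidableEq V] {G : SimpleGraph V}

theorem c4 (h : Ctx G 3) {x y u v : V} (hxy : x ≠ y) (huv : u ≠ v) (h1 : G.Adj x u) (h2 : G.Adj y u)
    (h3 : G.Adj x v) (h4 : G.Adj y v) : False := by
  refine h.nocyc ⟨x, v, [x, u, y, v], ⟨?_, ?_⟩, rfl, rfl, rfl, h3.symm⟩
  · have := h1.ne; have := h2.ne; have := h3.ne; have := h4.ne; have := h2.ne'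
    simp [*]
  · simp [h1, h2.symm, h4]

theorem i4 (h : Ctx G 3) {x y u v : V} (e1 : x ≠ y) (e2 : x ≠ u) (e3 : x ≠ v) (e4 : y ≠ u)
    (e5 : y ≠ v) (e6 : u ≠ v) (n1 : ¬ G.Adj x y) (n2 : ¬ G.Adj x u) (n3 : ¬ G.Adj x v)
    (n4 : ¬ G.Adj y u) (n5 : ¬ G.Adj y v) (n6 : ¬ G.Adj u v) : False := by
  have hI : G.IsIndepSet (({x, y, u, v} : Finset V) : Set V) := by
    intro p hp q hq hpq hadj
    simp only [coe_insert, coe_singleton, Set.mem_insert_iff, Set.mem_singleton_iff] at hp hq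
    rcases hp with rfl | rfl | rfl | rfl <;> rcases hq with rfl | rfl | rfl | rfl <;>
      first | exact hpq rfl | contradiction | exact absurd hadj.symm (by assumption)
  have := h.alpha _ hI
  rw [card_insert_of_notMem (by simp [*]), card_insert_of_notMem (by simp [*]),
    card_insert_of_notMem (by simp [*]), card_singleton] at this
  omega

/-- outside neighbours of `z` -/
def Q (G : SimpleGraph V) (z p q u : V) : Prop := G.Adj z u ∧ u ≠ p ∧ u ≠ q

theorem exQ (h : Ctx G 3) (z p q : V) : ∃ u, Q G z p q u := by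
  have h1 := h.exp.deg {p, q} z
  have h2 : (nb G {p, q} z).card ≤ 2 :=
    (card_le_card fun u hu => (mem_nb.1 hu).1).trans card_le_two
  obtain ⟨u, hu⟩ : (out G {p, q} z).Nonempty := card_pos.1 (by omega)
  rw [mem_out] at hu
  simp only [mem_insert, mem_singleton, not_or] at hu
  exact ⟨u, hu.2, hu.1.1, hu.1.2⟩

theorem Q.swap {z p q u : V} (hu : Q G z p q u) : Q G z q p u := ⟨hu.1, hu.2.2, hu.2.1⟩

theorem nadj (h : Ctx G 3) {z p q u : V} (hzp : G.Adj z p) (hzq : G.Adj z q) (hpq : G.Adj p q)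
    (hu : Q G z p q u) : ¬ G.Adj p u := fun hp =>
  c4 h hzp.ne hu.2.2 hu.1 hp hzq hpq

theorem cross (h : Ctx G 3) {z p q u v : V} (hzp : G.Adj z p) (hzq : G.Adj z q) (hpq : G.Adj p q)
    (hu : Q G z p q u) (hv : Q G p z q v) : u ≠ v ∧ ¬ G.Adj u v := by
  refine ⟨?_, fun huv => ?_⟩
  · rintro rfl
    exact nadj h hzp hzq hpq hu hv.1
  · exact c4 h hv.2.1.symm hu.2.1 hu.1 huv.symm hzp hv.1.symm

theorem clq (h : Ctx G 3) {z p q x y : V} (hzp : G.Adj z p) (hzq : G.Adj z q) (hpq : G.Adj p q)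
    (hx : Q G z p q x) (hy : Q G z p q y) (hxy : x ≠ y) : G.Adj x y := by
  by_contra hn
  obtain ⟨u, hu⟩ := exQ h p z q
  obtain ⟨v, hv⟩ := exQ h q z p
  have a1 := cross h hzp hzq hpq hx hu
  have a2 := cross h hzp hzq hpq hy hu
  have a3 := cross h hzq hzp hpq.symm hx.swap hv
  have a4 := cross h hzq hzp hpq.symm hy.swap hv
  have a5 := cross h hpq hzp.symm hzq.symm hu.swap hv.swap
  exact i4 h hxy a1.1 a3.1 a2.1 a4.1 a5.1 hn a1.2 a3.2 a2.2 a4.2 a5.2

open Classical in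
theorem two (h : Ctx G 3) {z p q up : V} (hzp : G.Adj z p) (hzq : G.Adj z q) (hpq : G.Adj p q)
    (hup : Q G p z q up) :
    (univ.filter (fun v => Q G z p q v ∨
      (v ≠ z ∧ (∀ u, Q G z p q u → G.Adj v u) ∧ G.Adj v up))).card ≤ 2 := by
  by_contra hc
  obtain ⟨x, hx, y, hy, w, hw, hxy, hxw, hyw⟩ := two_lt_card.1 (not_le.1 hc)
  simp only [mem_filter, mem_univ, true_and] at hx hy hw
  obtain ⟨uz, huz⟩ := exQ h z p q
  have hne := (cross h hzp hzq hpq huz hup).1
  have FF : ∀ v v', v ≠ v' → (v ≠ z ∧ (∀ u, Q G z p q u → G.Adj v u) ∧ G.Adj v up) →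
      (v' ≠ z ∧ (∀ u, Q G z p q u → G.Adj v' u) ∧ G.Adj v' up) → False := fun v v' e a b =>
    c4 h e hne (a.2.1 _ huz) (b.2.1 _ huz) a.2.2 b.2.2
  have QF : ∀ a b v, a ≠ b → Q G z p q a → Q G z p q b →
      (v ≠ z ∧ (∀ u, Q G z p q u → G.Adj v u) ∧ G.Adj v up) → False := fun a b v e ha hb hv =>
    c4 h e hv.1 (hv.2.1 _ ha).symm (hv.2.1 _ hb).symm ha.1.symm hb.1.symm
  rcases hx with hx | hx <;> rcases hy with hy | hy <;> rcases hw with hw | hw
  · exact c4 h hxy hw.1.ne hx.1.symm hy.1.symm (clq h hzp hzq hpq hx hw hxw)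
      (clq h hzp hzq hpq hy hw hyw)
  · exact QF _ _ _ hxy hx hy hw
  · exact QF _ _ _ hxw hx hw hy
  · exact FF _ _ hyw hy hw
  · exact QF _ _ _ hyw hy hw hx
  · exact FF _ _ hxw hx hw
  · exact FF _ _ hxy hx hy
  · exact FF _ _ hxy hx hy

theorem far (h : Ctx G 3) {z p q v : V} (hzp : G.Adj z p) (hzq : G.Adj z q) (hpq : G.Adj p q)
    (n1 : ¬ G.Adj z v) (n2 : ¬ G.Adj p v) (n3 : ¬ G.Adj q v) (e : v ≠ q) :
    (∀ u, Q G z p q u → G.Adj v u) ∨ (∀ u, Q G p z q u → G.Adj v u) := by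
  by_contra hc
  push Not at hc
  obtain ⟨⟨x, hx, hx'⟩, ⟨y, hy, hy'⟩⟩ := hc
  have a := cross h hzp hzq hpq hx hy
  refine i4 h (x := q) (y := x) (u := y) (v := v) hx.2.2.symm hy.2.2.symm e.symm a.1 ?_ ?_
    (nadj h hzq hzp hpq.symm hx.swap) (nadj h hpq hzp.symm hzq.symm hy.swap) n3 a.2
    (fun t => hx' t.symm) (fun t => hy' t.symm)
  · rintro rfl; exact n1 hx.1
  · rintro rfl; exact n2 hy.1

end K3

open K3 in
theorem K3_proof : K3Stmt := by
  classical
  intro V _ _ G h a b c hab hac hbc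
  obtain ⟨ua, hua⟩ := exQ h a b c
  obtain ⟨ub, hub⟩ := exQ h b a c
  obtain ⟨uc, huc⟩ := exQ h c a b
  have a1 := cross h hab hac hbc hua hub
  have a2 := cross h hac hab hbc.symm hua.swap huc
  have a3 := cross h hbc hab.symm hac.symm hub.swap huc.swap
  have hI : G.IsIndepSet (({ua, ub, uc} : Finset V) : Set V) := by
    have := a1.2; have := a2.2; have := a3.2
    intro p hp q hq hpq hadj
    simp only [coe_insert, coe_singleton, Set.mem_insert_iff, Set.mem_singleton_iff] at hp hq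
    rcases hp with rfl | rfl | rfl <;> rcases hq with rfl | rfl | rfl <;>
      first | exact hpq rfl | contradiction | exact absurd hadj.symm (by assumption)
  have h10 := h.exp _ (by simp) hI
  rw [card_insert_of_notMem (by simp [a1.1, a2.1]), card_insert_of_notMem (by simp [a3.1]),
    card_singleton] at h10
  have t1 := two h hab hac hbc hub
  have t2 := two h hbc hab.symm hac.symm huc.swap
  have t3 := two h hac.symm hbc.symm hab hua.swap
  set S1 := univ.filter (fun v => Q G a b c v ∨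
      (v ≠ a ∧ (∀ u, Q G a b c u → G.Adj v u) ∧ G.Adj v ub)) with hS1
  set S2 := univ.filter (fun v => Q G b c a v ∨
      (v ≠ b ∧ (∀ u, Q G b c a u → G.Adj v u) ∧ G.Adj v uc)) with hS2
  set S3 := univ.filter (fun v => Q G c a b v ∨
      (v ≠ c ∧ (∀ u, Q G c a b u → G.Adj v u) ∧ G.Adj v ua)) with hS3
  have hsub : cn G {ua, ub, uc} ⊆ ({a, b, c} : Finset V) ∪ S1 ∪ S2 ∪ S3 := by
    intro v _
    simp only [hS1, hS2, hS3, mem_union, mem_insert, mem_singleton, mem_filter, mem_univ, true_and]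
    by_cases ea : v = a
    · simp [ea]
    by_cases eb : v = b
    · simp [eb]
    by_cases ec : v = c
    · simp [ec]
    by_cases na : G.Adj a v
    · exact Or.inl (Or.inl (Or.inr (Or.inl ⟨na, eb, ec⟩)))
    by_cases nb : G.Adj b v
    · exact Or.inl (Or.inr (Or.inl ⟨nb, ec, ea⟩))
    by_cases nc : G.Adj c v
    · exact Or.inr (Or.inl ⟨nc, ea, eb⟩)
    have f1 := far h hab hac hbc na nb nc ec
    have f2 := far h hbc hab.symm hac.symm nb nc na ea
    have f3 := far h hac.symm hbc.symm hab nc na nb eb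
    by_cases A : ∀ u, Q G a b c u → G.Adj v u
    · rcases f2 with B | C
      · exact Or.inl (Or.inl (Or.inr (Or.inr ⟨ea, A, B _ hub.swap⟩)))
      · exact Or.inr (Or.inr ⟨ec, fun u hu => C u hu.swap, A _ hua⟩)
    · have B := f1.resolve_left A
      have C := f3.resolve_right fun t => A fun u hu => t u hu.swap
      exact Or.inl (Or.inr (Or.inr ⟨eb, fun u hu => B u hu.swap, C _ huc⟩))
  have hc := card_le_card hsub
  have c1 := card_union_le (({a, b, c} : Finset V) ∪ S1 ∪ S2) S3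
  have c2 := card_union_le (({a, b, c} : Finset V) ∪ S1) S2
  have c3 := card_union_le ({a, b, c} : Finset V) S1
  have c4 : ({a, b, c} : Finset V).card ≤ 3 := card_le_three
  omega

end Crest.Agent.R54
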