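import Crest.Agent.R54.Defs

/-!
# Row 54, task K4: the case `k = 4`
-/

set_option autoImplicit false

namespace Crest.Agent.R54

open Finset

namespace K4

variable {V : Type} [Fintype V] [DecidableEq V] {G : SimpleGraph V}

theorem c5 (h : Ctx G 4) {a b c d e : V} (h1 : G.Adj a b) (h2 : G.Adj b c) (h3 : G.Adj c d)
    (h4 : G.Adj d e) (h5 : G.Adj e a) (n1 : a ≠ c) (n2 : a ≠ d) (n3 : b ≠ d) (n4 : b ≠ e)
    (n5 : c ≠ e) : False := by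
  apply h.nocyc
  refine ⟨a, e, [a, b, c, d, e], ⟨?_, ?_⟩, rfl, rfl, rfl, h5⟩
  · have := h1.ne; have := h2.ne; have := h3.ne; have := h4.ne; have := h5.ne.symm
    simp [*]
  · simp [*]

theorem i5 (h : Ctx G 4) {a b c d e : V} (n1 : a ≠ b ∧ ¬ G.Adj a b) (n2 : a ≠ c ∧ ¬ G.Adj a c)
    (n3 : a ≠ d ∧ ¬ G.Adj a d) (n4 : a ≠ e ∧ ¬ G.Adj a e) (n5 : b ≠ c ∧ ¬ G.Adj b c)
    (n6 : b ≠ d ∧ ¬ G.Adj b d) (n7 : b ≠ e ∧ ¬ G.Adj b e) (n8 : c ≠ d ∧ ¬ G.Adj c d)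
    (n9 : c ≠ e ∧ ¬ G.Adj c e) (n10 : d ≠ e ∧ ¬ G.Adj d e) : False := by
  have hc : ({a, b, c, d, e} : Finset V).card = 5 := by
    rw [card_insert_of_notMem, card_insert_of_notMem, card_insert_of_notMem,
      card_insert_of_notMem, card_singleton] <;> simp [*]
  have := h.alpha {a, b, c, d, e} (by
    intro x hx y hy hxy
    simp only [coe_insert, coe_singleton, Set.mem_insert_iff, Set.mem_singleton_iff] at hx hy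
    rcases hx with rfl | rfl | rfl | rfl | rfl <;> rcases hy with rfl | rfl | rfl | rfl | rfl <;>
      first
        | exact absurd rfl hxy
        | tauto
        | (rw [G.adj_comm]; tauto))
  omega

theorem d3 (h : Ctx G 4) (z x₁ x₂ x₃ : V) : ∃ u, G.Adj z u ∧ u ≠ x₁ ∧ u ≠ x₂ ∧ u ≠ x₃ := by
  by_contra hc
  have h1 := h.exp {z} (by simp) (by simp)
  have h2 : cn G {z} ⊆ {z, x₁, x₂, x₃} := by
    intro v hv
    rw [mem_cn] at hv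
    simp only [mem_singleton, exists_eq_left, mem_insert] at hv ⊢
    rcases hv with hv | hv
    · exact Or.inl hv
    · by_contra h3
      push Not at h3
      exact hc ⟨v, hv, h3.2.1, h3.2.2.1, h3.2.2.2⟩
  have h3 := card_le_card h2
  have h4 : ({z, x₁, x₂, x₃} : Finset V).card ≤ 4 := card_le_four
  simp only [card_singleton] at h1
  omega

/-- two private neighbours of the ends of an edge of a triangle -/
theorem far2 (h : Ctx G 4) {p q t u u' : V} (pq : G.Adj p q) (pt : G.Adj p t) (qt : G.Adj q t)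
    (pu : G.Adj p u) (qu' : G.Adj q u') (uq : u ≠ q) (ut : u ≠ t) (u'p : u' ≠ p) (u't : u' ≠ t) :
    ¬ G.Adj u u' := fun e =>
  c5 h pu e qu'.symm qt pt.symm u'p.symm pq.ne uq ut u't

/-- no connection with three interior vertices between adjacent vertices -/
theorem far3 (h : Ctx G 4) {p q u v u' : V} (pq : G.Adj p q) (pu : G.Adj p u) (uv : G.Adj u v)
    (qu' : G.Adj q u') (uq : u ≠ q) (u'p : u' ≠ p) (vp : v ≠ p) (vq : v ≠ q) (uu' : u ≠ u') :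
    ¬ G.Adj v u' := fun e =>
  c5 h pu uv e qu'.symm pq.symm vp.symm u'p.symm uu' uq vq

theorem caseA (h : Ctx G 4) {z₁ z₂ z₃ z₄ : V} (a12 : G.Adj z₁ z₂) (a13 : G.Adj z₁ z₃)
    (a14 : G.Adj z₁ z₄) (a23 : G.Adj z₂ z₃) (a24 : G.Adj z₂ z₄) (a34 : G.Adj z₃ z₄) : False := by
  -- an outside vertex has at most one neighbour in the clique
  have one : ∀ {p q r t u : V}, G.Adj p q → G.Adj p r → G.Adj p t → G.Adj q r → G.Adj q t →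
      G.Adj r t → G.Adj p u → u ≠ r → u ≠ t → ¬ G.Adj q u :=
    fun pq pr pt qr qt rt pu ur ut e =>
      c5 h pu.symm pr rt qt.symm e ur ut pt.ne pq.ne qr.ne.symm
  obtain ⟨u, zu, u2, u3, u4⟩ := d3 h z₁ z₂ z₃ z₄
  obtain ⟨b, zb, b1, b3, b4⟩ := d3 h z₂ z₁ z₃ z₄
  obtain ⟨c, zc, c1, c2, c4⟩ := d3 h z₃ z₁ z₂ z₄
  obtain ⟨d, zd, d1, d2, d3'⟩ := d3 h z₄ z₁ z₂ z₃
  have n1b : ¬ G.Adj z₁ b := one a12.symm a23 a24 a13 a14 a34 zb b3 b4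
  have n1c : ¬ G.Adj z₁ c := one a13.symm a23.symm a34 a12 a14 a24 zc c2 c4
  have n1d : ¬ G.Adj z₁ d := one a14.symm a24.symm a34.symm a12 a13 a23 zd d2 d3'
  have n2c : ¬ G.Adj z₂ c := one a23.symm a13.symm a34 a12.symm a24 a14 zc c1 c4
  have n2d : ¬ G.Adj z₂ d := one a24.symm a14.symm a34.symm a12.symm a23 a13 zd d1 d3'
  have n3d : ¬ G.Adj z₃ d := one a34.symm a14.symm a24.symm a13.symm a23.symm a12 zd d1 d2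
  have bc : b ≠ c ∧ ¬ G.Adj b c :=
    ⟨fun e => n2c (e ▸ zb), far2 h a23 a12.symm a13.symm zb zc b3 b1 c2 c1⟩
  have bd : b ≠ d ∧ ¬ G.Adj b d :=
    ⟨fun e => n2d (e ▸ zb), far2 h a24 a12.symm a14.symm zb zd b4 b1 d2 d1⟩
  have cd : c ≠ d ∧ ¬ G.Adj c d :=
    ⟨fun e => n3d (e ▸ zc), far2 h a34 a13.symm a14.symm zc zd c4 c1 d3' d1⟩
  have q1 : ∀ y, G.Adj z₁ y → y ≠ z₂ → y ≠ z₃ → y ≠ z₄ →
      (y ≠ b ∧ ¬ G.Adj y b) ∧ (y ≠ c ∧ ¬ G.Adj y c) ∧ (y ≠ d ∧ ¬ G.Adj y d) := fun y zy y2 y3 y4 =>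
    ⟨⟨fun e => n1b (e ▸ zy), far2 h a12 a13 a23 zy zb y2 y3 b1 b3⟩,
      ⟨fun e => n1c (e ▸ zy), far2 h a13 a12 a23.symm zy zc y3 y2 c1 c2⟩,
      ⟨fun e => n1d (e ▸ zy), far2 h a14 a12 a24.symm zy zd y4 y2 d1 d2⟩⟩
  have clq : ∀ y y', G.Adj z₁ y → y ≠ z₂ → y ≠ z₃ → y ≠ z₄ → G.Adj z₁ y' → y' ≠ z₂ → y' ≠ z₃ →
      y' ≠ z₄ → y ≠ y' → G.Adj y y' := by
    intro y y' zy y2 y3 y4 zy' y2' y3' y4' yy
    by_contra e
    obtain ⟨p1, p2, p3⟩ := q1 y zy y2 y3 y4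
    obtain ⟨r1, r2, r3⟩ := q1 y' zy' y2' y3' y4'
    exact i5 h ⟨yy, e⟩ p1 p2 p3 r1 r2 r3 bc bd cd
  have nu2 : ¬ G.Adj z₂ u := one a12 a13 a14 a23 a24 a34 zu u3 u4
  have nu3 : ¬ G.Adj z₃ u := one a13 a12 a14 a23.symm a34 a24 zu u2 u4
  have nu4 : ¬ G.Adj z₄ u := one a14 a12 a13 a24.symm a34.symm a23 zu u2 u3
  have out : ∀ v, G.Adj u v → v ≠ z₂ ∧ v ≠ z₃ ∧ v ≠ z₄ := fun v uv =>
    ⟨fun e => nu2 (e ▸ uv.symm), fun e => nu3 (e ▸ uv.symm), fun e => nu4 (e ▸ uv.symm)⟩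
  obtain ⟨ub, uc, ud⟩ := q1 u zu u2 u3 u4
  have nb1 : ∀ v, G.Adj u v → v ≠ z₁ → G.Adj z₁ v := by
    intro v uv v1
    by_contra e
    obtain ⟨v2, v3, v4⟩ := out v uv
    exact i5 h (a := z₁) (b := v) (c := b) (d := c) (e := d) ⟨v1.symm, e⟩ ⟨b1.symm, n1b⟩
      ⟨c1.symm, n1c⟩ ⟨d1.symm, n1d⟩
      ⟨fun e' => ub.2 (e' ▸ uv), far3 h a12 zu uv zb u2 b1 v1 v2 ub.1⟩
      ⟨fun e' => uc.2 (e' ▸ uv), far3 h a13 zu uv zc u3 c1 v1 v3 uc.1⟩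
      ⟨fun e' => ud.2 (e' ▸ uv), far3 h a14 zu uv zd u4 d1 v1 v4 ud.1⟩ bc bd cd
  obtain ⟨v₁, uv1, v11, -, -⟩ := d3 h u z₁ z₁ z₁
  obtain ⟨v₂, uv2, v21, v2v1, -⟩ := d3 h u z₁ v₁ v₁
  obtain ⟨v₃, uv3, v31, v3v1, v3v2⟩ := d3 h u z₁ v₁ v₂
  obtain ⟨p2, p3, p4⟩ := out v₁ uv1
  obtain ⟨r2, r3, r4⟩ := out v₂ uv2
  obtain ⟨s2, s3, s4⟩ := out v₃ uv3
  have e12 := clq v₁ v₂ (nb1 _ uv1 v11) p2 p3 p4 (nb1 _ uv2 v21) r2 r3 r4 v2v1.symm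
  have e23 := clq v₂ v₃ (nb1 _ uv2 v21) r2 r3 r4 (nb1 _ uv3 v31) s2 s3 s4 v3v2.symm
  exact c5 h zu uv1 e12 e23 (nb1 _ uv3 v31).symm v11.symm v21.symm uv2.ne uv3.ne v3v1.symm

theorem caseB' (h : Ctx G 4) {x x' w z b b' : V} (xx : G.Adj x x') (xw : G.Adj x w) (xz : G.Adj x z)
    (yw : G.Adj x' w) (yz : G.Adj x' z) (wz : w ≠ z) (nwz : ¬ G.Adj w z) (zb : G.Adj z b)
    (bx : b ≠ x) (by' : b ≠ x') (zb' : G.Adj z b') (b'x : b' ≠ x) (b'y : b' ≠ x') (bb : b ≠ b')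
    (nbb : ¬ G.Adj b b') : False := by
  obtain ⟨a, wa, ax, ay, -⟩ := d3 h w x x' x'
  have az : a ≠ z := fun e => nwz (e ▸ wa)
  have nya : ¬ G.Adj x' a := fun e => c5 h e wa.symm xw.symm xz yz.symm yw.ne xx.ne.symm ax az wz
  have lz : ∀ t, G.Adj z t → t ≠ x → t ≠ x' →
      t ≠ w ∧ ¬ G.Adj x' t ∧ (a ≠ t ∧ ¬ G.Adj a t) := by
    intro t zt tx ty
    have tw : t ≠ w := fun e => nwz (e ▸ zt.symm)
    refine ⟨tw, fun e => c5 h e zt.symm xz.symm xw yw.symm yz.ne xx.ne.symm tx tw wz.symm, ?_, ?_⟩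
    · rintro rfl
      exact c5 h wa zt.symm xz.symm xx yw wz xw.ne.symm ax ay yz.ne.symm
    · exact fun e => c5 h wa e zt.symm xz.symm xw tw.symm wz az ax tx
  obtain ⟨bw, nyb, ab⟩ := lz b zb bx by'
  obtain ⟨b'w, nyb', ab'⟩ := lz b' zb' b'x b'y
  have ly : ∀ c, G.Adj x' c → c ≠ x → c ≠ w → c ≠ z →
      (c ≠ a ∧ ¬ G.Adj c a) ∧ (c ≠ b ∧ ¬ G.Adj c b) ∧ (c ≠ b' ∧ ¬ G.Adj c b') := fun c yc cx cw cz =>
    ⟨⟨fun e => nya (e ▸ yc), far2 h yw xx.symm xw.symm yc wa cw cx ay ax⟩,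
      ⟨fun e => nyb (e ▸ yc), far2 h yz xx.symm xz.symm yc zb cz cx by' bx⟩,
      ⟨fun e => nyb' (e ▸ yc), far2 h yz xx.symm xz.symm yc zb' cz cx b'y b'x⟩⟩
  have clq : ∀ c c', G.Adj x' c → c ≠ x → c ≠ w → c ≠ z → G.Adj x' c' → c' ≠ x → c' ≠ w → c' ≠ z →
      c ≠ c' → G.Adj c c' := by
    intro c c' yc cx cw cz yc' cx' cw' cz' cc
    by_contra e
    obtain ⟨p1, p2, p3⟩ := ly c yc cx cw cz
    obtain ⟨r1, r2, r3⟩ := ly c' yc' cx' cw' cz'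
    exact i5 h ⟨cc, e⟩ p1 p2 p3 r1 r2 r3 ab ab' ⟨bb, nbb⟩
  obtain ⟨c, yc, cx, cw, cz⟩ := d3 h x' x w z
  obtain ⟨ca, cb, cb'⟩ := ly c yc cx cw cz
  have ncw : ¬ G.Adj c w := fun e => c5 h yc e xw.symm xz yz.symm yw.ne xx.ne.symm cx cz wz
  have ncz : ¬ G.Adj c z := fun e => c5 h yc e xz.symm xw yw.symm yz.ne xx.ne.symm cx cw wz.symm
  have out : ∀ v, G.Adj c v → v ≠ w ∧ v ≠ z := fun v cv =>
    ⟨fun e => ncw (e ▸ cv), fun e => ncz (e ▸ cv)⟩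
  have nb1 : ∀ v, G.Adj c v → v ≠ x' → G.Adj x' v := by
    intro v cv vy
    by_contra e
    obtain ⟨vw, vz⟩ := out v cv
    exact i5 h (a := x') (b := v) (c := a) (d := b) (e := b') ⟨vy.symm, e⟩ ⟨ay.symm, nya⟩
      ⟨by'.symm, nyb⟩ ⟨b'y.symm, nyb'⟩
      ⟨fun e' => ca.2 (e' ▸ cv), far3 h yw yc cv wa cw ay vy vw ca.1⟩
      ⟨fun e' => cb.2 (e' ▸ cv), far3 h yz yc cv zb cz by' vy vz cb.1⟩
      ⟨fun e' => cb'.2 (e' ▸ cv), far3 h yz yc cv zb' cz b'y vy vz cb'.1⟩ ab ab' ⟨bb, nbb⟩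
  obtain ⟨v₁, cv1, v1y, v1x, -⟩ := d3 h c x' x x
  obtain ⟨v₂, cv2, v2y, v2x, v21⟩ := d3 h c x' x v₁
  have e12 := clq v₁ v₂ (nb1 _ cv1 v1y) v1x (out _ cv1).1 (out _ cv1).2 (nb1 _ cv2 v2y) v2x
    (out _ cv2).1 (out _ cv2).2 v21.symm
  exact caseA h yc (nb1 _ cv1 v1y) (nb1 _ cv2 v2y) cv1 cv2 e12

theorem small (h : Ctx G 4) (W : Finset V) (z : V)
    (hc : ∀ b ∈ out G W z, ∀ b' ∈ out G W z, b ≠ b' → G.Adj b b') : (out G W z).card ≤ 2 := by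
  by_contra hlt
  obtain ⟨p, q, r, hp, hq, hr, pq, pr, qr⟩ := two_lt_card_iff.1 (not_le.1 hlt)
  exact caseA h (mem_out.1 hp).2 (mem_out.1 hq).2 (mem_out.1 hr).2 (hc p hp q hq pq)
    (hc p hp r hr pr) (hc q hq r hr qr)

theorem caseB (h : Ctx G 4) {x x' w z : V} (xx : G.Adj x x') (xw : G.Adj x w) (xz : G.Adj x z)
    (yw : G.Adj x' w) (yz : G.Adj x' z) : w = z := by
  by_contra wz
  have nwz : ¬ G.Adj w z := fun e => caseA h xx xw xz yw yz e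
  have s1 : (out G {x, x'} z).card ≤ 2 := by
    apply small h
    intro b hb b' hb' bb
    by_contra e
    rw [mem_out] at hb hb'
    simp only [mem_insert, mem_singleton, not_or] at hb hb'
    exact caseB' h xx xw xz yw yz wz nwz hb.2 hb.1.1 hb.1.2 hb'.2 hb'.1.1 hb'.1.2 bb e
  have s2 : (out G {x, x'} w).card ≤ 2 := by
    apply small h
    intro b hb b' hb' bb
    by_contra e
    rw [mem_out] at hb hb'
    simp only [mem_insert, mem_singleton, not_or] at hb hb'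
    exact caseB' h xx xz xw yz yw (Ne.symm wz) (fun e' => nwz e'.symm) hb.2 hb.1.1 hb.1.2 hb'.2
      hb'.1.1 hb'.1.2 bb e
  have h1 := h.exp {w, z} (by simp) (by
    intro p hp q hq pq
    simp only [coe_insert, coe_singleton, Set.mem_insert_iff, Set.mem_singleton_iff] at hp hq
    rcases hp with rfl | rfl <;> rcases hq with rfl | rfl
    · exact absurd rfl pq
    · exact nwz
    · exact fun e => nwz e.symm
    · exact absurd rfl pq)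
  rw [card_pair wz] at h1
  have h2 : cn G {w, z} ⊆ {w, z, x, x'} ∪ (out G {x, x'} z ∪ out G {x, x'} w) := by
    intro v hv
    rw [mem_cn] at hv
    simp only [mem_union, mem_out, mem_insert, mem_singleton, exists_eq_or_imp,
      exists_eq_left] at hv ⊢
    tauto
  have h3 := card_le_card h2
  have h4 : ({w, z, x, x'} : Finset V).card ≤ 4 := card_le_four
  have h5 := card_union_le ({w, z, x, x'} : Finset V) (out G {x, x'} z ∪ out G {x, x'} w)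
  have h6 := card_union_le (out G {x, x'} z) (out G {x, x'} w)
  omega

theorem caseC' (h : Ctx G 4) {z₁ z₂ z₃ u u' : V} (a12 : G.Adj z₁ z₂) (a13 : G.Adj z₁ z₃)
    (a23 : G.Adj z₂ z₃) (zu : G.Adj z₁ u) (u2 : u ≠ z₂) (u3 : u ≠ z₃) (zu' : G.Adj z₁ u')
    (u2' : u' ≠ z₂) (u3' : u' ≠ z₃) (uu : G.Adj u u') : False := by
  obtain ⟨b, zb, b1, b3, -⟩ := d3 h z₂ z₁ z₃ z₃
  obtain ⟨c, zc, c1, c2, -⟩ := d3 h z₃ z₁ z₂ z₂
  have n1b : ¬ G.Adj z₁ b := fun e => b3 (caseB h a12 e a13 zb a23)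
  have n1c : ¬ G.Adj z₁ c := fun e => c2 (caseB h a13 e a12 zc a23.symm)
  have bc : b ≠ c ∧ ¬ G.Adj b c :=
    ⟨fun e => b1 (caseB h a23 zb a12.symm (e ▸ zc) a13.symm),
      far2 h a23 a12.symm a13.symm zb zc b3 b1 c2 c1⟩
  have key : ∀ t t', G.Adj z₁ t → t ≠ z₂ → t ≠ z₃ → G.Adj z₁ t' → G.Adj t t' → ∀ v, G.Adj t v →
      v ≠ z₁ → v ≠ t' → (z₁ ≠ v ∧ ¬ G.Adj z₁ v) ∧ (v ≠ b ∧ ¬ G.Adj v b) ∧ (v ≠ c ∧ ¬ G.Adj v c) := by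
    intro t t' zt t2 t3 zt' tt v tv v1 vt'
    have v2 : v ≠ z₂ := fun e => t3 (caseB h a12 zt a13 (e ▸ tv.symm) a23)
    have v3 : v ≠ z₃ := fun e => t2 (caseB h a13 zt a12 (e ▸ tv.symm) a23.symm)
    have tb : t ≠ b := fun e => n1b (e ▸ zt)
    have tc : t ≠ c := fun e => n1c (e ▸ zt)
    exact ⟨⟨v1.symm, fun e => vt' (caseB h zt e zt' tv tt)⟩,
      ⟨fun e => far2 h a12 a13 a23 zt zb t2 t3 b1 b3 (e ▸ tv), far3 h a12 zt tv zb t2 b1 v1 v2 tb⟩,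
      ⟨fun e => far2 h a13 a12 a23.symm zt zc t3 t2 c1 c2 (e ▸ tv),
        far3 h a13 zt tv zc t3 c1 v1 v3 tc⟩⟩
  obtain ⟨v, uv, v1, vu', -⟩ := d3 h u z₁ u' u'
  obtain ⟨v', uv', v1', vu, -⟩ := d3 h u' z₁ u u
  obtain ⟨p1, p2, p3⟩ := key u u' zu u2 u3 zu' uu v uv v1 vu'
  obtain ⟨r1, r2, r3⟩ := key u' u zu' u2' u3' zu uu.symm v' uv' v1' vu
  have vv : v ≠ v' ∧ ¬ G.Adj v v' :=
    ⟨fun e => v1 (caseB h uu uv zu.symm (e ▸ uv') zu'.symm),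
      far2 h uu zu.symm zu'.symm uv uv' vu' v1 vu v1'⟩
  exact i5 h p1 r1 ⟨b1.symm, n1b⟩ ⟨c1.symm, n1c⟩ vv p2 p3 r2 r3 bc

end K4

open K4 in
theorem K4_proof : K4Stmt := by
  intro V _ _ G h z₁ z₂ z₃ a12 a13 a23
  obtain ⟨a, za, a2, a3, -⟩ := d3 h z₁ z₂ z₃ z₃
  obtain ⟨a', za', a2', a3', aa⟩ := d3 h z₁ z₂ z₃ a
  obtain ⟨b, zb, b1, b3, -⟩ := d3 h z₂ z₁ z₃ z₃
  obtain ⟨b', zb', b1', b3', bb⟩ := d3 h z₂ z₁ z₃ b
  obtain ⟨c, zc, c1, c2, -⟩ := d3 h z₃ z₁ z₂ z₂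
  have f12 : ∀ s t, G.Adj z₁ s → s ≠ z₂ → s ≠ z₃ → G.Adj z₂ t → t ≠ z₁ → t ≠ z₃ →
      s ≠ t ∧ ¬ G.Adj s t := fun s t zs s2 s3 zt t1 t3 =>
    ⟨fun e => s3 (caseB h a12 zs a13 (e ▸ zt) a23), far2 h a12 a13 a23 zs zt s2 s3 t1 t3⟩
  have f13 : ∀ s, G.Adj z₁ s → s ≠ z₂ → s ≠ z₃ → s ≠ c ∧ ¬ G.Adj s c := fun s zs s2 s3 =>
    ⟨fun e => s2 (caseB h a13 zs a12 (e ▸ zc) a23.symm),
      far2 h a13 a12 a23.symm zs zc s3 s2 c1 c2⟩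
  have f23 : ∀ s, G.Adj z₂ s → s ≠ z₁ → s ≠ z₃ → s ≠ c ∧ ¬ G.Adj s c := fun s zs s1 s3 =>
    ⟨fun e => s1 (caseB h a23 zs a12.symm (e ▸ zc) a13.symm),
      far2 h a23 a12.symm a13.symm zs zc s3 s1 c2 c1⟩
  exact i5 h ⟨aa.symm, fun e => caseC' h a12 a13 a23 za a2 a3 za' a2' a3' e⟩
    (f12 a b za a2 a3 zb b1 b3) (f12 a b' za a2 a3 zb' b1' b3') (f13 a za a2 a3)
    (f12 a' b za' a2' a3' zb b1 b3) (f12 a' b' za' a2' a3' zb' b1' b3') (f13 a' za' a2' a3')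
    ⟨bb.symm, fun e => caseC' h a12.symm a23 a13 zb b1 b3 zb' b1' b3' e⟩
    (f23 b zb b1 b3) (f23 b' zb' b1' b3')

end Crest.Agent.R54
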