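import Crest.Agent.R54.Defs

set_option autoImplicit false

namespace Crest.Agent.R54

open Finset

namespace LAYER

variable {V : Type} [Fintype V] (G : SimpleGraph V) (v : V)

theorem ball_succ (i : ℕ) : ball G v i ⊆ ball G v (i + 1) := by
  intro x hx
  show x ∈ cn G (ball G v i)
  exact mem_cn.2 (Or.inl hx)

theorem ball_mono {i j : ℕ} (h : i ≤ j) : ball G v i ⊆ ball G v j := by
  induction j, h using Nat.le_induction with
  | base => exact Finset.Subset.refl _
  | succ j _ ih => exact ih.trans (ball_succ G v j)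

open Classical in
/-- BFS depth -/
noncomputable def dep (x : V) : ℕ := if h : ∃ i, x ∈ ball G v i then Nat.find h else 0

theorem dep_mem {x : V} (h : ∃ i, x ∈ ball G v i) : x ∈ ball G v (dep G v x) := by
  classical
  unfold dep
  rw [dif_pos h]
  exact Nat.find_spec h

theorem dep_le {x : V} {i : ℕ} (h : x ∈ ball G v i) : dep G v x ≤ i := by
  classical
  unfold dep
  rw [dif_pos ⟨i, h⟩]
  exact Nat.find_min' _ h

theorem ex_par {x : V} (h : ∃ i, x ∈ ball G v i) (h0 : 0 < dep G v x) :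
    ∃ u, (∃ i, u ∈ ball G v i) ∧ G.Adj x u ∧ dep G v u + 1 = dep G v x := by
  have h1 := dep_mem G v h
  obtain ⟨i, hi⟩ : ∃ i, dep G v x = i + 1 := ⟨dep G v x - 1, by omega⟩
  rw [hi] at h1
  have h2 : x ∈ cn G (ball G v i) := h1
  rcases mem_cn.1 h2 with h3 | ⟨u, hu, hux⟩
  · have := dep_le G v h3
    omega
  · refine ⟨u, ⟨i, hu⟩, hux.symm, ?_⟩
    have h4 := dep_le G v hu
    have h5 : x ∈ ball G v (dep G v u + 1) := by
      show x ∈ cn G (ball G v (dep G v u))
      exact mem_cn.2 (Or.inr ⟨u, dep_mem G v ⟨i, hu⟩, hux⟩)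
    have := dep_le G v h5
    omega

open Classical in
/-- BFS parent -/
noncomputable def par (x : V) : V :=
  if h : ∃ u, (∃ i, u ∈ ball G v i) ∧ G.Adj x u ∧ dep G v u + 1 = dep G v x then h.choose else x

theorem par_spec {x : V} (h : ∃ i, x ∈ ball G v i) (h0 : 0 < dep G v x) :
    (∃ i, par G v x ∈ ball G v i) ∧ G.Adj x (par G v x) ∧ dep G v (par G v x) + 1 = dep G v x := by
  classical
  have h1 := ex_par G v h h0
  unfold par
  rw [dif_pos h1]
  exact h1.choose_spec

theorem iter_spec {x : V} (h : ∃ i, x ∈ ball G v i) (t : ℕ) (ht : t ≤ dep G v x) :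
    (∃ i, (par G v)^[t] x ∈ ball G v i) ∧ dep G v ((par G v)^[t] x) + t = dep G v x := by
  induction t with
  | zero => exact ⟨h, rfl⟩
  | succ t ih =>
    obtain ⟨h1, h2⟩ := ih (by omega)
    rw [Function.iterate_succ_apply']
    obtain ⟨h3, -, h4⟩ := par_spec G v h1 (by omega)
    exact ⟨h3, by omega⟩

theorem iter_root {x : V} (h : ∃ i, x ∈ ball G v i) : (par G v)^[dep G v x] x = v := by
  obtain ⟨h1, h2⟩ := iter_spec G v h _ le_rfl
  have h3 := dep_mem G v h1
  have h4 : dep G v ((par G v)^[dep G v x] x) = 0 := by omega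
  rw [h4] at h3
  have h5 : (par G v)^[dep G v x] x ∈ ({v} : Finset V) := h3
  simpa using h5

theorem lay_spec [DecidableEq V] {x : V} {j : ℕ} (hj : 1 ≤ j) (h : x ∈ lay G v j) :
    (∃ i, x ∈ ball G v i) ∧ dep G v x = j := by
  obtain ⟨i, rfl⟩ : ∃ i, j = i + 1 := ⟨j - 1, by omega⟩
  have h1 : x ∈ ball G v (i + 1) \ ball G v i := h
  rw [Finset.mem_sdiff] at h1
  refine ⟨⟨_, h1.1⟩, ?_⟩
  have h2 := dep_le G v h1.1
  by_contra hne
  exact h1.2 (ball_mono G v (by omega) (dep_mem G v ⟨_, h1.1⟩))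

end LAYER

open LAYER in
theorem LAYER_proof (hT : THETAStmt) (hR : TREEStmt) : LAYERStmt := by
  classical
  intro V _ _ G k j n r v f hno hj hjk hkn hth hall
  have hn4 : 4 ≤ n := by have := hth.r2; have := hth.rn; omega
  have hX : ∀ i, i < n → (∃ t, f i ∈ ball G v t) ∧ dep G v (f i) = j :=
    fun i hi => lay_spec G v hj (hall i hi)
  set p := par G v with hp
  -- closing a path through the tree
  have close : ∀ (h L : ℕ) (g : ℕ → V), FP G L g → (∀ i, i ≤ L → ∃ t, t < n ∧ g i = f t) →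
      1 ≤ h → h ≤ j → L = k + 1 - 2 * h → p^[h] (g 0) = p^[h] (g L) →
      p^[h - 1] (g 0) ≠ p^[h - 1] (g L) → False := by
    intro h L g hg hgf h1 h2 hL he hne
    apply hno
    have := hR V G {x | ∃ t, x ∈ ball G v t} (dep G v) p j L h g
      (fun x hx h0 => par_spec G v hx h0) hg
      (fun i hi => by
        obtain ⟨t, ht, e⟩ := hgf i hi
        rw [e]
        exact hX t ht) h1 h2 he hne
    have e : L + 2 * h = k + 1 := by omega
    rwa [e] at this
  have hex : ∃ h, ∀ i, i < n → p^[h] (f i) = p^[h] (f 0) := by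
    refine ⟨j, fun i hi => ?_⟩
    have a1 := iter_root G v (hX i hi).1
    have a2 := iter_root G v (hX 0 (by omega)).1
    rw [(hX i hi).2] at a1
    rw [(hX 0 (by omega)).2] at a2
    rw [hp, a1, a2]
  have hexj : ∀ i, i < n → p^[j] (f i) = p^[j] (f 0) := by
    intro i hi
    have a1 := iter_root G v (hX i hi).1
    have a2 := iter_root G v (hX 0 (by omega)).1
    rw [(hX i hi).2] at a1
    rw [(hX 0 (by omega)).2] at a2
    rw [hp, a1, a2]
  obtain ⟨h, hh, hmin, hhj⟩ : ∃ h, (∀ i, i < n → p^[h] (f i) = p^[h] (f 0)) ∧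
      (∀ h', h' < h → ¬ ∀ i, i < n → p^[h'] (f i) = p^[h'] (f 0)) ∧ h ≤ j :=
    ⟨Nat.find hex, Nat.find_spec hex, fun h' hl => Nat.find_min hex hl, Nat.find_min' hex hexj⟩
  have h1 : 1 ≤ h := by
    by_contra h0
    have h0' : h = 0 := by omega
    subst h0'
    have := hth.inj 1 0 (by omega) (by omega) (hh 1 (by omega))
    omega
  let χ : V → Prop := fun x => p^[h - 1] x = p^[h - 1] (f 0)
  have hχ0 : χ (f 0) := rfl
  have hnc : ∃ i, i < n ∧ ¬ (χ (f i) ↔ χ (f 0)) := by
    have := hmin (h - 1) (by omega)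
    push Not at this
    obtain ⟨i, hi, hne⟩ := this
    exact ⟨i, hi, fun hiff => hne (hiff.2 hχ0)⟩
  rcases hT V G n r (k + 1 - 2 * h) f χ hth hnc (by omega) (by omega) with
    ⟨g, hg, hgf, hg0, hgL⟩ | ⟨hev, halt, hcl, hch⟩
  · refine close h _ g hg hgf h1 hhj rfl ?_ ?_
    · obtain ⟨a, ha, ea⟩ := hgf 0 (by omega)
      obtain ⟨b, hb, eb⟩ := hgf _ le_rfl
      rw [ea, eb, hh a ha, hh b hb]
    · intro e
      exact hgL (e.symm.trans hg0)
  · have hχ1 : ¬ χ (f 1) := fun h' => halt 0 (by omega) ⟨fun _ => h', fun _ => hχ0⟩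
    have hχ2 : χ (f 2) := by
      by_contra h'
      exact halt 1 (by omega) ⟨fun a => absurd a hχ1, fun a => absurd a h'⟩
    have hex' : ∃ h', ∀ i, i < n → χ (f i) → p^[h'] (f i) = p^[h'] (f 0) :=
      ⟨h - 1, fun i _ hi => hi⟩
    obtain ⟨h', hh', hmin', hh'j⟩ : ∃ h', (∀ i, i < n → χ (f i) → p^[h'] (f i) = p^[h'] (f 0)) ∧
        (∀ h'', h'' < h' → ¬ ∀ i, i < n → χ (f i) → p^[h''] (f i) = p^[h''] (f 0)) ∧ h' ≤ h - 1 :=
      ⟨Nat.find hex', Nat.find_spec hex', fun h'' hl => Nat.find_min hex' hl,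
        Nat.find_min' hex' (fun i _ hi => hi)⟩
    have h1' : 1 ≤ h' := by
      by_contra h0
      have h0' : h' = 0 := by omega
      subst h0'
      have := hth.inj 2 0 (by omega) (by omega) (hh' 2 (by omega) hχ2)
      omega
    let χ' : V → Prop := fun x => χ x ∧ p^[h' - 1] x = p^[h' - 1] (f 0)
    have hχ'0 : χ' (f 0) := ⟨hχ0, rfl⟩
    let G' : SimpleGraph V :=
      { Adj := fun a b => G.Adj a b ∧ ¬ (χ a ↔ χ b)
        symm := ⟨fun a b hab => ⟨hab.1.symm, fun e => hab.2 e.symm⟩⟩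
        loopless := ⟨fun a ha => ha.2 Iff.rfl⟩ }
    have hth' : Th G' n r f :=
      ⟨hth.inj, fun i hi => ⟨hth.adj i hi, halt i hi⟩, ⟨hth.cl, hcl⟩, hth.r2, hth.rn, ⟨hth.ch, hch⟩⟩
    have hev' : Even (k + 1 - 2 * h') := by
      obtain ⟨c, hc⟩ := hev
      exact ⟨c + (h - h'), by omega⟩
    rcases hT V G' n r (k + 1 - 2 * h') f χ' hth'
      ⟨1, by omega, fun e => hχ1 (e.2 hχ'0).1⟩ (by omega) (by omega) with
      ⟨g, hg, hgf, hg0, hgL⟩ | ⟨-, halt', -, -⟩
    · have hpar : ∀ c, c + c ≤ k + 1 - 2 * h' → χ (g (c + c)) := by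
        intro c
        induction c with
        | zero => exact fun _ => hg0.1
        | succ c ih =>
          intro hc
          have a0 := ih (by omega)
          have a1 := (hg.adj (c + c) (by omega)).2
          have a2 := (hg.adj (c + c + 1) (by omega)).2
          have e : c + 1 + (c + 1) = c + c + 1 + 1 := by omega
          rw [e]
          tauto
      obtain ⟨c, hc⟩ := hev'
      have hχL : χ (g (k + 1 - 2 * h')) := by
        rw [hc]
        exact hpar c (by omega)
      refine close h' _ g ⟨hg.inj, fun i hi => (hg.adj i hi).1⟩ hgf h1' (by omega) rfl ?_ ?_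
      · obtain ⟨a, ha, ea⟩ := hgf 0 (by omega)
        obtain ⟨b, hb, eb⟩ := hgf _ le_rfl
        have c0 := hg0.1
        rw [ea] at c0
        rw [eb] at hχL
        rw [ea, eb, hh' a ha c0, hh' b hb hχL]
      · intro e
        exact hgL ⟨hχL, e.symm.trans hg0.2⟩
    · have hsame : ∀ i, i < n → (χ' (f i) ↔ χ (f i)) := by
        intro i
        induction i with
        | zero => exact fun _ => ⟨fun _ => hχ0, fun _ => hχ'0⟩
        | succ i ih =>
          intro hi
          have a0 := ih (by omega)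
          have a1 := halt i hi
          have a2 := halt' i hi
          tauto
      exact hmin' (h' - 1) (by omega) (fun i hi hc => ((hsame i hi).2 hc).2)

end Crest.Agent.R54
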