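import Crest.Agent.R54.Defs

/-! Row 54, task LCORE: Pósa rotation gives a long cycle with a chord. -/

set_option autoImplicit false

namespace Crest.Agent.R54

open Finset

namespace LCORE

variable {V : Type} {G : SimpleGraph V}

theorem FP.le_card [Fintype V] {L : ℕ} {g : ℕ → V} (h : FP G L g) : L + 1 ≤ Fintype.card V := by
  classical
  have : ((range (L + 1)).image g).card = L + 1 := by
    rw [card_image_of_injOn, card_range]
    intro i hi j hj e
    exact h.inj i j (Nat.lt_succ_iff.1 (mem_range.1 hi)) (Nat.lt_succ_iff.1 (mem_range.1 hj)) e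
  rw [← this]; exact card_le_univ _

/-- prepend a vertex -/
theorem FP.cons {L : ℕ} {g : ℕ → V} (h : FP G L g) {u : V} (hu : G.Adj u (g 0))
    (hn : ∀ j ≤ L, g j ≠ u) : FP G (L + 1) (fun i => if i = 0 then u else g (i - 1)) := by
  constructor
  · intro i j hi hj e
    by_cases h1 : i = 0 <;> by_cases h2 : j = 0 <;> simp only [h1, h2, if_true, if_false] at e
    · omega
    · exact absurd e.symm (hn _ (by omega))
    · exact absurd e (hn _ (by omega))
    · have := h.inj _ _ (by omega) (by omega) e; omega
  · intro i hi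
    by_cases h1 : i = 0
    · subst h1; simpa using hu
    · have := h.adj (i - 1) (by omega)
      rw [show i - 1 + 1 = i by omega] at this
      simpa [h1] using this

/-- rotation -/
theorem FP.rot {L : ℕ} {g : ℕ → V} (h : FP G L g) {j : ℕ} (h1 : 1 ≤ j) (hj : j ≤ L)
    (ha : G.Adj (g 0) (g j)) : FP G L (fun i => if i < j then g (j - 1 - i) else g i) := by
  constructor
  · intro a b ha' hb' e
    by_cases c1 : a < j <;> by_cases c2 : b < j <;> simp only [c1, c2, if_true, if_false] at e <;>
      have := h.inj _ _ (by omega) (by omega) e <;> omega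
  · intro i hi
    by_cases c1 : i + 1 < j
    · have c2 : i < j := by omega
      simp only [c1, c2, if_true]
      have := h.adj (j - 1 - (i + 1)) (by omega)
      rw [show j - 1 - (i + 1) + 1 = j - 1 - i by omega] at this
      exact this.symm
    · by_cases c2 : i < j
      · simp only [c1, c2, if_true, if_false]
        rw [show j - 1 - i = 0 by omega, show i + 1 = j by omega]
        exact ha
      · simp only [c1, c2, if_false]
        exact h.adj i hi

end LCORE

open LCORE in
theorem LCORE_proof : LCOREStmt := by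
  intro V _ _ G c hc hE hO ⟨v⟩
  classical
  -- a longest path
  obtain ⟨L, ⟨g₀, hg₀⟩, hL⟩ : ∃ L, (∃ g, FP G L g) ∧ ∀ L' g, FP G L' g → L' ≤ L := by
    have h0 : ∃ g, FP G 0 g := ⟨fun _ => v, fun i j hi hj _ => by omega, fun i hi => by omega⟩
    refine ⟨Nat.findGreatest (fun L => ∃ g, FP G L g) (Fintype.card V),
      Nat.findGreatest_spec (P := fun L => ∃ g, FP G L g) (Nat.zero_le _) h0, fun L' g hg => ?_⟩
    exact Nat.le_findGreatest (by have := FP.le_card hg; omega) ⟨g, hg⟩
  have hA : ∀ g, FP G L g → ∀ u, G.Adj (g 0) u → ∃ j, 1 ≤ j ∧ j ≤ L ∧ g j = u := by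
    intro g hg u hu
    by_contra hn
    push Not at hn
    have := hL _ _ (FP.cons hg hu.symm (fun j hj => by
      rcases Nat.eq_zero_or_pos j with rfl | h
      · exact hu.ne
      · exact hn j h hj))
    omega
  have hdeg : ∀ z, c + 1 ≤ (cn G {z}).card := fun z => by
    simpa using hE {z} (by simp) (by simp)
  -- the farthest neighbour
  obtain ⟨p, ⟨x, hx, hxp⟩, hpL, hp⟩ : ∃ p, (∃ g, FP G L g ∧ G.Adj (g 0) (g p)) ∧ p ≤ L ∧
      ∀ p' g, p' ≤ L → FP G L g → G.Adj (g 0) (g p') → p' ≤ p := by
    obtain ⟨u, hu⟩ : ∃ u, G.Adj (g₀ 0) u := by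
      by_contra hn
      push Not at hn
      have : cn G {g₀ 0} ⊆ {g₀ 0} := by
        intro w hw
        rcases mem_cn.1 hw with h | ⟨u, hu, h⟩
        · exact h
        · rw [mem_singleton.1 hu] at h; exact absurd h (hn w)
      have := card_le_card this
      have := hdeg (g₀ 0)
      simp only [card_singleton] at *
      omega
    obtain ⟨j, -, hj, rfl⟩ := hA g₀ hg₀ u hu
    refine ⟨Nat.findGreatest (fun p => ∃ g, FP G L g ∧ G.Adj (g 0) (g p)) L,
      Nat.findGreatest_spec (P := fun p => ∃ g, FP G L g ∧ G.Adj (g 0) (g p)) hj ⟨g₀, hg₀, hu⟩,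
      Nat.findGreatest_le _, fun p' g h1 h2 h3 => Nat.le_findGreatest h1 ⟨g, h2, h3⟩⟩
  have hB : ∀ g, FP G L g → ∀ u, G.Adj (g 0) u → ∃ j, 1 ≤ j ∧ j ≤ p ∧ g j = u := by
    intro g hg u hu
    obtain ⟨j, h1, h2, rfl⟩ := hA g hg u hu
    exact ⟨j, h1, hp j g h2 hg hu, rfl⟩
  have hp1 : 1 ≤ p := by
    rcases Nat.eq_zero_or_pos p with rfl | h
    · exact absurd hxp (G.loopless.irrefl _)
    · exact h
  by_cases hbig : 2 * c + 1 ≤ p + 1
  · obtain ⟨r, r1, r2, r3⟩ : ∃ r, 2 ≤ r ∧ r + 1 ≤ p ∧ G.Adj (x 0) (x r) := by
      by_contra hn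
      push Not at hn
      have : cn G {x 0} ⊆ {x 0, x 1, x p} := by
        intro w hw
        simp only [mem_insert, mem_singleton]
        rcases mem_cn.1 hw with h | ⟨u, hu, h⟩
        · exact Or.inl (mem_singleton.1 h)
        · rw [mem_singleton.1 hu] at h
          obtain ⟨j, j1, j2, rfl⟩ := hB x hx w h
          by_cases e1 : j = 1
          · exact Or.inr (Or.inl (by rw [e1]))
          · by_cases e2 : j = p
            · exact Or.inr (Or.inr (by rw [e2]))
            · exact absurd h (hn j (by omega) (by omega))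
      have h1 := card_le_card this
      have h2 := hdeg (x 0)
      have h3 : ({x 0, x 1, x p} : Finset V).card ≤ 3 := card_le_three
      omega
    exact ⟨p + 1, r, x, hbig, fun i j hi hj e => hx.inj i j (by omega) (by omega) e,
      fun i hi => hx.adj i (by omega), by simpa using hxp.symm, r1, by omega, r3⟩
  exfalso
  set T := (range (p + 1)).image x with hT
  have hTc : T.card ≤ p + 1 := card_image_le.trans (by simp)
  have hmem : ∀ i ≤ p, x i ∈ T := fun i hi => mem_image.2 ⟨i, mem_range.2 (by omega), rfl⟩
  have hrot : ∀ j, 1 ≤ j → j ≤ p → G.Adj (x 0) (x j) → ∀ u, G.Adj (x (j - 1)) u → u ∈ T := by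
    intro j j1 j2 ha u hu
    have hy := FP.rot hx j1 (by omega) ha
    obtain ⟨i, i1, i2, rfl⟩ := hB _ hy u (by simpa [show 0 < j by omega] using hu)
    split_ifs
    · exact hmem _ (by omega)
    · exact hmem _ i2
  have hcl : ∀ j j', 1 ≤ j → j ≤ p → G.Adj (x 0) (x j) → 1 ≤ j' → j' ≤ p → G.Adj (x 0) (x j') →
      j ≠ j' → G.Adj (x (j - 1)) (x (j' - 1)) := by
    intro j j' j1 j2 ha k1 k2 hb hne
    by_contra hn
    have hd : x (j - 1) ≠ x (j' - 1) := fun e => by
      have := hx.inj _ _ (by omega) (by omega) e; omega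
    have h1 := hE {x (j - 1), x (j' - 1)} (by simp) (by
      intro a ha' b hb' hab
      simp only [coe_insert, coe_singleton, Set.mem_insert_iff, Set.mem_singleton_iff] at ha' hb'
      rcases ha' with rfl | rfl <;> rcases hb' with rfl | rfl
      · exact absurd rfl hab
      · exact hn
      · exact fun h => hn h.symm
      · exact absurd rfl hab)
    rw [card_pair hd] at h1
    have h2 : cn G {x (j - 1), x (j' - 1)} ⊆ T := by
      intro w hw
      rcases mem_cn.1 hw with h | ⟨u, hu, h⟩
      · simp only [mem_insert, mem_singleton] at h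
        rcases h with rfl | rfl <;> exact hmem _ (by omega)
      · simp only [mem_insert, mem_singleton] at hu
        rcases hu with rfl | rfl
        · exact hrot j j1 j2 ha w h
        · exact hrot j' k1 k2 hb w h
    have := card_le_card h2
    omega
  have h01 : G.Adj (x 0) (x 1) := hx.adj 0 (by omega)
  have hall : ∀ d j, j + d = p → 1 ≤ j → G.Adj (x 0) (x j) := by
    intro d
    induction d with
    | zero => intro j e _; rw [show j = p by omega]; exact hxp
    | succ d ih =>
      intro j e j1
      have := hcl 1 (j + 1) le_rfl hp1 h01 (by omega) (by omega) (ih (j + 1) (by omega) (by omega))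
        (by omega)
      simpa using this
  have hall' : ∀ j, 1 ≤ j → j ≤ p → G.Adj (x 0) (x j) := fun j j1 j2 =>
    hall (p - j) j (by omega) j1
  -- the first `p` vertices form a clique
  have hS := hO ((range p).image x) (by
    intro a ha b hb hab
    simp only [coe_image, coe_range, Set.mem_image, Set.mem_Iio] at ha hb
    obtain ⟨i, hi, rfl⟩ := ha
    obtain ⟨j, hj, rfl⟩ := hb
    have := hcl (i + 1) (j + 1) (by omega) (by omega) (hall' _ (by omega) (by omega)) (by omega)
      (by omega) (hall' _ (by omega) (by omega)) (fun e => hab (by rw [show i = j by omega]))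
    simpa using this)
  rw [card_image_of_injOn (fun i hi j hj e => hx.inj i j
    (by have := mem_range.1 hi; omega) (by have := mem_range.1 hj; omega) e), card_range] at hS
  have hfull : ∀ i < p, cn G {x i} = T := by
    intro i hi
    refine eq_of_subset_of_card_le (fun w hw => ?_) (by have := hdeg (x i); omega)
    rcases mem_cn.1 hw with h | ⟨u, hu, h⟩
    · rw [mem_singleton.1 h]; exact hmem _ hi.le
    · rw [mem_singleton.1 hu] at h
      exact hrot (i + 1) (by omega) (by omega) (hall' _ (by omega) (by omega)) w (by simpa using h)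
  have hadj : ∀ i < p, ∀ w ∈ T, w ≠ x i → G.Adj (x i) w := by
    intro i hi w hw hne
    rw [← hfull i hi] at hw
    rcases mem_cn.1 hw with h | ⟨u, hu, h⟩
    · exact absurd (mem_singleton.1 h) hne
    · rwa [mem_singleton.1 hu] at h
  have hTq := hO T (by
    intro a ha b hb hab
    obtain ⟨i, hi, rfl⟩ := mem_image.1 (mem_coe.1 ha)
    obtain ⟨j, hj, rfl⟩ := mem_image.1 (mem_coe.1 hb)
    have hi' := mem_range.1 hi
    have hj' := mem_range.1 hj
    by_cases c1 : i < p
    · exact hadj i c1 _ (hmem j (by omega)) (Ne.symm hab)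
    · have c2 : j < p := by
        by_contra c2
        exact hab (by rw [show i = j by omega])
      exact (hadj j c2 _ (hmem i (by omega)) hab).symm)
  have := hdeg (x 0)
  rw [hfull 0 (by omega)] at this
  omega

end Crest.Agent.R54
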