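import Crest.Agent.R54.Defs

set_option autoImplicit false

namespace Crest.Agent.R54

open Finset

section
variable {V : Type}

theorem kp_toList {G : SimpleGraph V} {K : Finset V} (hK : G.IsClique (K : Set V))
    (hne : K.Nonempty) : KP G K K.toList := by
  have hne' : K.toList ≠ [] := by
    intro h
    have := Finset.length_toList K
    rw [h] at this
    have h2 := hne.card_pos
    simp at this; omega
  refine ⟨⟨K.nodup_toList, ?_⟩, ?_, ?_⟩
  · apply List.Pairwise.isChain
    have hn := K.nodup_toList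
    refine List.Pairwise.imp_of_mem ?_ hn
    intro a b ha hb hab
    exact hK (by simpa using ha) (by simpa using hb) hab
  · refine ⟨K.toList.head hne', ?_, List.head?_eq_some_head hne'⟩
    exact Finset.mem_toList.1 (List.head_mem hne')
  · refine ⟨K.toList.getLast hne', ?_, List.getLast?_eq_some_getLast hne'⟩
    exact Finset.mem_toList.1 (List.getLast_mem hne')

/-- extension of a split by an outside connection -/
theorem kp_ext [DecidableEq V] {G : SimpleGraph V} {K W : Finset V} {z z' : V} {p : List V}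
    (hS : Sp G K W z z') (hC : Conn G W z z' p) :
    ∃ l : List V, KP G K l ∧ (∀ x ∈ W, x ∈ l) ∧ l.length = W.card + p.length := by
  obtain ⟨R₁, R₂, hnd, hW, h1, h2, ⟨a, ha, ha'⟩, hz, hz', ⟨b, hb, hb'⟩⟩ := hS
  obtain ⟨pn, pW, pc⟩ := hC
  have hmem : ∀ x, x ∈ W ↔ x ∈ R₁ ∨ x ∈ R₂ := by
    intro x; rw [← hW]; simp
  have hcard : W.card = R₁.length + R₂.length := by
    rw [← hW, List.toFinset_card_of_nodup hnd]; simp
  obtain ⟨R₁', rfl⟩ : ∃ t, R₁ = t ++ [z] := by
    have := List.getLast?_eq_some_iff.1 hz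
    exact this
  obtain ⟨R₂', rfl⟩ : ∃ t, R₂ = z' :: t := by
    have := List.head?_eq_some_iff.1 hz'
    exact this
  refine ⟨(R₁' ++ [z]) ++ p ++ (z' :: R₂'), ⟨⟨?_, ?_⟩, ⟨a, ha, ?_⟩, ⟨b, hb, ?_⟩⟩, ?_, ?_⟩
  · have hperm : ((R₁' ++ [z]) ++ p ++ (z' :: R₂')).Perm (p ++ ((R₁' ++ [z]) ++ (z' :: R₂'))) := by
      rw [List.append_assoc (R₁' ++ [z]) p, ← List.append_assoc p]
      rw [← List.append_assoc (R₁' ++ [z]) p]
      exact List.Perm.append_right _ List.perm_append_comm
    rw [hperm.nodup_iff, List.nodup_append]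
    refine ⟨pn, hnd, ?_⟩
    intro x hx y hy hxy
    subst hxy
    exact pW x hx ((hmem x).2 (List.mem_append.1 hy))
  · have e : (R₁' ++ [z]) ++ p ++ (z' :: R₂') = R₁' ++ ((z :: (p ++ [z'])) ++ R₂') := by simp
    rw [e]
    have c1 : ((z :: (p ++ [z'])) ++ R₂').IsChain G.Adj := by
      have e2 : (z :: (p ++ [z'])) ++ R₂' = (z :: p) ++ (z' :: R₂') := by simp
      rw [e2]
      have e3 : z :: (p ++ [z']) = (z :: p) ++ [z'] := by simp
      rw [e3] at pc
      have := List.IsChain.append_overlap (l₂ := [z']) (l₃ := R₂') pc (by simpa using h2) (by simp)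
      simpa using this
    have e4 : R₁' ++ ((z :: (p ++ [z'])) ++ R₂') = R₁' ++ [z] ++ ((p ++ [z']) ++ R₂') := by simp
    rw [e4]
    exact List.IsChain.append_overlap (l₂ := [z]) h1 (by simpa using c1) (by simp)
  · rw [List.append_assoc, List.head?_append, ha']; rfl
  · rw [List.getLast?_append, hb']; rfl
  · intro x hx
    rcases (hmem x).1 hx with h | h
    · exact List.mem_append_left _ (List.mem_append_left _ h)
    · exact List.mem_append_right _ h
  · simp only [List.length_append] at hcard ⊢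
    omega

/-- a clique inside `N(z)` has at most `s - 1` vertices -/
theorem Om.card_lt [DecidableEq V] {G : SimpleGraph V} {s : ℕ} (h : Om G s) {Q : Finset V} {z : V}
    (hQ : G.IsClique (Q : Set V)) (hz : ∀ u ∈ Q, G.Adj z u) : Q.card + 1 ≤ s := by
  have hzQ : z ∉ Q := fun hh => G.irrefl (hz z hh)
  have := h (insert z Q) (by
    rw [Finset.coe_insert]
    exact hQ.insert (fun b hb _ => hz b hb))
  rwa [Finset.card_insert_of_notMem hzQ] at this

theorem nb_card_lt [DecidableEq V] {G : SimpleGraph V} {W : Finset V} {z : V} (hz : z ∈ W) :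
    (nb G W z).card + 1 ≤ W.card := by
  have : nb G W z ⊆ W.erase z := by
    intro u hu
    rw [mem_nb] at hu
    exact Finset.mem_erase.2 ⟨fun h => G.irrefl (h ▸ hu.2), hu.1⟩
  have h2 := Finset.card_le_card this
  rw [Finset.card_erase_of_mem hz] at h2
  have := Finset.card_pos.2 ⟨z, hz⟩
  omega

end

theorem MAINI_proof (hR : ROOTSStmt) (hS : SPLITStmt) (hB : BTStmt) (hQ : CLQStmt) (hI : INDStmt) :
    MAINIStmt := by
  intro V _ _ G k K hk hc hK hOm h2s hsk hno
  classical
  set s := K.card with hs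
  have hKne : K.Nonempty := Finset.card_pos.1 (by omega)
  -- the longest low `K`-path
  let P : ℕ → Prop := fun n => ∃ l : List V, KP G K l ∧ (∀ x ∈ K, x ∈ l) ∧ l.length = n
  have hPs : P s := ⟨K.toList, kp_toList hK hKne, fun x hx => by simpa using hx, by simp [hs]⟩
  obtain ⟨l, hl, hKl, hlen⟩ : P (Nat.findGreatest P k) := Nat.findGreatest_spec hsk hPs
  have hlk : l.length ≤ k := hlen ▸ Nat.findGreatest_le k
  have hmax : ∀ l' : List V, KP G K l' → (∀ x ∈ K, x ∈ l') → l'.length ≤ k + 2 →
      l'.length ≤ l.length := by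
    intro l' h1 h2 h3
    by_cases ha : l'.length ≤ k
    · rw [hlen]; exact Nat.le_findGreatest ha ⟨l', h1, h2, rfl⟩
    · by_cases hb : l'.length = k + 1
      · exact absurd (hb ▸ hasCyc_of_kp hK h1 (by omega)) hc.nocyc
      · exact absurd (by omega) (hno l' h1 h2)
  set W := l.toFinset with hW
  have hWc : W.card = l.length := List.toFinset_card_of_nodup hl.1.1
  have hKW : K ⊆ W := fun x hx => List.mem_toFinset.2 (hKl x hx)
  have hsl : s ≤ W.card := Finset.card_le_card hKW
  obtain ⟨Z, hZc, hZ⟩ := hR V G K l hl hKl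
  have hZW : Z ⊆ W := fun z hz => List.mem_toFinset.2 (hZ z hz).1
  have hSp : ∀ z ∈ Z, ∀ z' ∈ Z, z ≠ z' → Sp G K W z z' := fun z hz z' hz' h =>
    hS V G K l z z' hK hl (hZ z hz).2 (hZ z' hz').2 h
  have hext : ∀ z ∈ Z, ∀ z' ∈ Z, z ≠ z' → ∀ p : List V, Conn G W z z' p → p ≠ [] →
      k + 2 < W.card + p.length := by
    intro z hz z' hz' h p hp hne
    obtain ⟨l', h1, h2, h3⟩ := kp_ext (hSp z hz z' hz' h) hp
    by_contra hcon
    have := hmax l' h1 (fun x hx => h2 x (hKW hx)) (by omega)
    have := List.length_pos_iff.2 hne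
    omega
  -- N1, N2
  have N1 : ∀ z ∈ Z, ∀ z' ∈ Z, z ≠ z' → ∀ u ∈ out G W z, u ∉ out G W z' := by
    intro z hz z' hz' h u hu hu'
    rw [mem_out] at hu hu'
    have := hext z hz z' hz' h [u] ⟨by simp, by simpa using hu.1, by simp [hu.2, hu'.2.symm]⟩ (by simp)
    simp at this; omega
  have N2 : ∀ z ∈ Z, ∀ z' ∈ Z, z ≠ z' → ∀ u ∈ out G W z, ∀ u' ∈ out G W z', ¬ G.Adj u u' := by
    intro z hz z' hz' h u hu u' hu' huu
    rw [mem_out] at hu hu'
    have := hext z hz z' hz' h [u, u'] ⟨by simp [huu.ne], by simp [hu.1, hu'.1],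
      by simp [hu.2, hu'.2.symm, huu]⟩ (by simp)
    simp at this; omega
  have hdeg := fun z => hc.exp.deg W z
  have hq : ∀ z, G.IsClique (out G W z : Set V) → (out G W z).card + 1 ≤ s := fun z h =>
    hOm.card_lt h (fun u hu => (mem_out.1 hu).2)
  have hone : ∀ z ∈ Z, (out G W z).Nonempty := by
    intro z hz
    have h1 := hdeg z
    have h2 := nb_card_lt (G := G) (hZW hz)
    exact Finset.card_pos.1 (by omega)
  -- neighbours of a vertex of a clique territory
  have hterr : ∀ z ∈ Z, G.IsClique (out G W z : Set V) → ∀ u ∈ out G W z,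
      nb G W u ⊆ insert z (W \ Z) ∧
      k + 1 ≤ (nb G W u).card + (out G W z).card + (out2 G W z).card ∧
      (Disjoint (out G W z) (out2 G W z)) := by
    intro z hz hcl u hu
    refine ⟨?_, ?_, ?_⟩
    · intro x hx
      rw [mem_nb] at hx
      by_cases hxz : x = z
      · simp [hxz]
      · refine Finset.mem_insert_of_mem (Finset.mem_sdiff.2 ⟨hx.1, fun hxZ => ?_⟩)
        exact N1 z hz x hxZ (Ne.symm hxz) u hu (mem_out.2 ⟨(mem_out.1 hu).1, hx.2.symm⟩)
    · have h1 := hdeg u
      have h2 : out G W u ⊆ (out G W z).erase u ∪ out2 G W z := by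
        intro v hv
        rw [mem_out] at hv
        by_cases hzv : G.Adj z v
        · exact Finset.mem_union_left _
            (Finset.mem_erase.2 ⟨hv.2.ne.symm, mem_out.2 ⟨hv.1, hzv⟩⟩)
        · exact Finset.mem_union_right _
            (mem_out2.2 ⟨hv.1, hzv, u, (mem_out.1 hu).1, (mem_out.1 hu).2, hv.2⟩)
      have h3 := Finset.card_le_card h2
      have h4 := Finset.card_union_le ((out G W z).erase u) (out2 G W z)
      rw [Finset.card_erase_of_mem hu] at h4
      have := Finset.card_pos.2 ⟨u, hu⟩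
      omega
    · rw [Finset.disjoint_left]
      intro v hv hv'
      exact (mem_out2.1 hv').2.1 (mem_out.1 hv).2
  have hWZ : ∀ z ∈ Z, (insert z (W \ Z)).card + s = W.card + 1 := by
    intro z hz
    rw [Finset.card_insert_of_notMem (by simp [hz]), Finset.card_sdiff_of_subset hZW]
    have := Finset.card_le_card hZW
    omega
  have htwo : ∀ z ∈ Z, G.IsClique (out G W z : Set V) → (out2 G W z).Nonempty := by
    intro z hz hcl
    obtain ⟨u, hu⟩ := hone z hz
    obtain ⟨h1, h2, -⟩ := hterr z hz hcl u hu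
    have h3 := Finset.card_le_card h1
    have h4 := hWZ z hz
    have h5 := hq z hcl
    exact Finset.card_pos.1 (by omega)
  -- clique territories
  have hcq : ∀ z ∈ Z, G.IsClique ((out G W z ∪ out2 G W z : Finset V) : Set V) →
      W.card = k ∧ ∀ u ∈ out G W z, ∀ x ∈ W, x ∉ Z → G.Adj u x := by
    intro z hz hcl
    have hcl1 : G.IsClique (out G W z : Set V) :=
      hcl.subset (by intro x hx; simp only [Finset.coe_union, Set.mem_union]; exact Or.inl hx)
    have key : ∀ u ∈ out G W z, W.card = k ∧ nb G W u = insert z (W \ Z) := by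
      intro u hu
      obtain ⟨h1, h2, h3⟩ := hterr z hz hcl1 u hu
      have h4 := hOm _ hcl
      rw [Finset.card_union_of_disjoint h3] at h4
      have h5 := hWZ z hz
      have h6 := Finset.card_le_card h1
      exact ⟨by omega, Finset.eq_of_subset_of_card_le h1 (by omega)⟩
    obtain ⟨u0, hu0⟩ := hone z hz
    refine ⟨(key u0 hu0).1, fun u hu x hx hxZ => ?_⟩
    have : x ∈ nb G W u := by
      rw [(key u hu).2]; exact Finset.mem_insert_of_mem (Finset.mem_sdiff.2 ⟨hx, hxZ⟩)
    exact (mem_nb.1 this).2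
  -- choice of `D`
  have hZK : s ≤ (Z ∩ K).card + (W.card - s) := by
    have h1 : Z ⊆ (Z ∩ K) ∪ (W \ K) := by
      intro x hx
      by_cases hxK : x ∈ K
      · exact Finset.mem_union_left _ (Finset.mem_inter.2 ⟨hx, hxK⟩)
      · exact Finset.mem_union_right _ (Finset.mem_sdiff.2 ⟨hZW hx, hxK⟩)
    have h2 := Finset.card_le_card h1
    have h3 := Finset.card_union_le (Z ∩ K) (W \ K)
    rw [Finset.card_sdiff_of_subset hKW] at h3
    omega
  obtain ⟨D, hDZ, hDc, hDK⟩ : ∃ D : Finset V, D ⊆ Z ∧ D.card = k + 1 - s ∧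
      (W.card + k + 1 ≤ 3 * s → D ⊆ K) := by
    by_cases hcase : W.card + k + 1 ≤ 3 * s
    · obtain ⟨D, hD1, hD2⟩ := Finset.exists_subset_card_eq (s := Z ∩ K) (n := k + 1 - s) (by omega)
      exact ⟨D, hD1.trans Finset.inter_subset_left, hD2,
        fun _ => hD1.trans Finset.inter_subset_right⟩
    · obtain ⟨D, hD1, hD2⟩ := Finset.exists_subset_card_eq (s := Z) (n := k + 1 - s) (by omega)
      exact ⟨D, hD1, hD2, fun h => absurd h hcase⟩
  -- two non-adjacent vertices of `W` force `W ≠ K`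
  have hWK : ∀ z ∈ W, ∀ z' ∈ W, z ≠ z' → ¬ G.Adj z z' → s < W.card := by
    intro z hz z' hz' hne hna
    by_contra hcon
    have : K = W := Finset.eq_of_subset_of_card_le hKW (by omega)
    exact hna (hK (by simpa [this] using hz) (by simpa [this] using hz') hne)
  have hnbK : ∀ z ∈ K, s ≤ (nb G W z).card + 1 := by
    intro z hz
    have : K.erase z ⊆ nb G W z := by
      intro x hx
      rw [Finset.mem_erase] at hx
      exact mem_nb.2 ⟨hKW hx.2, hK (by simpa using hz) (by simpa using hx.2) (Ne.symm hx.1)⟩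
    have h2 := Finset.card_le_card this
    rw [Finset.card_erase_of_mem hz] at h2
    omega
  have N3 : ∀ z ∈ D, G.IsClique (out G W z : Set V) → ∀ z' ∈ Z, z ≠ z' →
      ∀ v ∈ out2 G W z, ∀ u' ∈ out G W z', ¬ G.Adj v u' := by
    intro z hzD hcl z' hz' hne v hv u' hu' hvu
    have hz := hDZ hzD
    obtain ⟨hvW, hzv, u, huW, hzu, huv⟩ := mem_out2.1 hv
    have hu : u ∈ out G W z := mem_out.2 ⟨huW, hzu⟩
    have hzu' : ¬ G.Adj z u' := fun h =>
      N1 z hz z' hz' hne u' (mem_out.2 ⟨(mem_out.1 hu').1, h⟩) hu'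
    have huu' : u ≠ u' := fun h => hzu' (h ▸ hzu)
    have hC : Conn G W z z' [u, v, u'] :=
      ⟨by simp [huv.ne, huu', hvu.ne], by simp [huW, hvW, (mem_out.1 hu').1],
        by simp [hzu, huv, hvu, (mem_out.1 hu').2.symm]⟩
    have h1 := hext z hz z' hz' hne _ hC (by simp)
    simp only [List.length_cons, List.length_nil] at h1
    obtain ⟨h2, h3⟩ := hB V G k K W z z' u [v, u'] (by omega) hc hK (hSp z hz z' hz' hne) hC
      (by simp [hzv, hzu']) hcl (by omega) (by simp; omega)
    simp only [List.length_cons, List.length_nil] at h2 h3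
    have h4 := hWK z (hZW hz) z' (hZW hz') hne (h3 (by omega))
    have h5 := hdeg z
    have h6 := hq z hcl
    have h7 := hnbK z (hDK (by omega) hzD)
    omega
  have N4 : ∀ z ∈ D, G.IsClique (out G W z : Set V) → ∀ z' ∈ D, G.IsClique (out G W z' : Set V) →
      z ≠ z' → ∀ v ∈ out2 G W z, ∀ v' ∈ out2 G W z', ¬ G.Adj v v' := by
    intro z hzD hcl z' hzD' hcl' hne v hv v' hv' hvv
    have hz := hDZ hzD
    have hz' := hDZ hzD'
    obtain ⟨hvW, hzv, u, huW, hzu, huv⟩ := mem_out2.1 hv
    obtain ⟨hvW', hzv', u', huW', hzu', huv'⟩ := mem_out2.1 hv'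
    have hu : u ∈ out G W z := mem_out.2 ⟨huW, hzu⟩
    have hu' : u' ∈ out G W z' := mem_out.2 ⟨huW', hzu'⟩
    have hzu2 : ¬ G.Adj z u' := fun h => N1 z hz z' hz' hne u' (mem_out.2 ⟨huW', h⟩) hu'
    have hzv2 : ¬ G.Adj z v' := fun h =>
      N2 z hz z' hz' hne v' (mem_out.2 ⟨hvW', h⟩) u' hu' huv'.symm
    have huu' : u ≠ u' := fun h => hzu2 (h ▸ hzu)
    have huv2 : u ≠ v' := fun h => hzv2 (h ▸ hzu)
    have hvu2 : v ≠ u' := fun h => N2 z hz z' hz' hne u hu u' hu' (h ▸ huv)
    have hC : Conn G W z z' [u, v, v', u'] :=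
      ⟨by simp [huv.ne, huu', hvv.ne, huv2, hvu2, huv'.ne.symm], by simp [huW, hvW, hvW', huW'],
        by simp [hzu, huv, hvv, huv'.symm, hzu'.symm]⟩
    have h1 := hext z hz z' hz' hne _ hC (by simp)
    simp only [List.length_cons, List.length_nil] at h1
    obtain ⟨h2, h3⟩ := hB V G k K W z z' u [v, v', u'] (by omega) hc hK (hSp z hz z' hz' hne) hC
      (by simp [hzv, hzu2, hzv2]) hcl (by omega) (by simp; omega)
    simp only [List.length_cons, List.length_nil] at h2 h3
    have hna := h3 (by omega)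
    have h4 := hWK z (hZW hz) z' (hZW hz') hne hna
    have h5 := hdeg z
    have h6 := hq z hcl
    have h6' := hq z' hcl'
    have hcase : ¬ (W.card + k + 1 ≤ 3 * s) := fun h =>
      hna (hK (by simpa using hDK h hzD) (by simpa using hDK h hzD') hne)
    have h8 := hc.exp {z, z'} (by simp) (by
      rw [Finset.coe_pair]
      intro a ha b hb hab
      simp only [Set.mem_insert_iff, Set.mem_singleton_iff] at ha hb
      rcases ha with rfl | rfl <;> rcases hb with rfl | rfl
      · exact absurd rfl hab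
      · exact hna
      · exact fun h => hna h.symm
      · exact absurd rfl hab)
    rw [Finset.card_pair hne] at h8
    have h9 : cn G {z, z'} ⊆ W ∪ (out G W z ∪ out G W z') := by
      intro x hx
      rw [mem_cn] at hx
      by_cases hxW : x ∈ W
      · exact Finset.mem_union_left _ hxW
      · refine Finset.mem_union_right _ ?_
        rcases hx with hx | ⟨y, hy, hx⟩
        · simp only [Finset.mem_insert, Finset.mem_singleton] at hx
          rcases hx with rfl | rfl
          · exact absurd (hZW hz) hxW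
          · exact absurd (hZW hz') hxW
        · simp only [Finset.mem_insert, Finset.mem_singleton] at hy
          rcases hy with rfl | rfl
          · exact Finset.mem_union_left _ (mem_out.2 ⟨hxW, hx⟩)
          · exact Finset.mem_union_right _ (mem_out.2 ⟨hxW, hx⟩)
    have h10 := Finset.card_le_card h9
    have h11 := Finset.card_union_le W (out G W z ∪ out G W z')
    have h12 := Finset.card_union_le (out G W z) (out G W z')
    omega
  have hU : ∀ z ∈ D, ∀ z' ∈ D, G.IsClique ((out G W z ∪ out2 G W z : Finset V) : Set V) →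
      G.IsClique ((out G W z' ∪ out2 G W z' : Finset V) : Set V) → z = z' := by
    intro z hzD z' hzD' hcl hcl'
    by_contra hne
    have hz := hDZ hzD
    have hz' := hDZ hzD'
    obtain ⟨h1, h2⟩ := hcq z hz hcl
    obtain ⟨-, h2'⟩ := hcq z' hz' hcl'
    have hD2 : 2 ≤ D.card := by
      have : ({z, z'} : Finset V) ⊆ D := by
        intro x hx
        simp only [Finset.mem_insert, Finset.mem_singleton] at hx
        rcases hx with rfl | rfl <;> assumption
      have h3 := Finset.card_le_card this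
      rwa [Finset.card_pair hne] at h3
    have hw : ∃ w ∈ l, w ∉ K := by
      by_contra hcon
      push Not at hcon
      have : W ⊆ K := fun x hx => hcon x (List.mem_toFinset.1 hx)
      have := Finset.card_le_card this
      omega
    obtain ⟨u, hu⟩ := hone z hz
    obtain ⟨u', hu'⟩ := hone z' hz'
    refine hc.nocyc (hQ V G k K l z z' u u' (by omega) hK hl (by omega) hw (hZ z hz).2 (hZ z' hz').2
      hne (fun h => (mem_out.1 hu).1 (List.mem_toFinset.2 h))
      (fun h => (mem_out.1 hu').1 (List.mem_toFinset.2 h))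
      (fun h => N1 z hz z' hz' hne u hu (h ▸ hu')) (mem_out.1 hu).2 (mem_out.1 hu').2 ?_)
    intro x hx hnr
    have hxZ : x ∉ Z := fun h => hnr (hZ x h).2
    exact ⟨h2 u hu x (List.mem_toFinset.2 hx) hxZ, h2' u' hu' x (List.mem_toFinset.2 hx) hxZ⟩
  obtain ⟨I, hI1, hI2⟩ := hI V G W Z D hZW hDZ hone (fun z hz => htwo z (hDZ hz)) N1 N2 N3 N4 hU
  have := hc.alpha I hI1
  omega

end Crest.Agent.R54
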