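import Crest.Agent.R54.Defs

/-! Row 54, tasks MIN and LL. -/

set_option autoImplicit false

namespace Crest.Agent.R54

open Finset

theorem MIN_proof : MINStmt := by
  intro V _ _ G k S hS
  classical
  obtain ⟨T, hT, hmin⟩ := exists_min_image (S.powerset.filter (fun T => k * al G T < T.card)) card
    ⟨S, by simp [hS]⟩
  simp only [mem_filter, mem_powerset] at hT hmin
  refine ⟨T, hT.1, card_pos.1 (by omega), fun I hI hind => ?_⟩
  set C := cn (G.induce (T : Set V)) I with hC
  set T' := T \ C.map (Function.Embedding.subtype _) with hT'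
  have hsub : C.map (Function.Embedding.subtype (fun x => x ∈ (T : Set V))) ⊆ T := by
    intro x hx
    obtain ⟨y, -, rfl⟩ := mem_map.1 hx
    exact y.2
  have hcard : T'.card + C.card = T.card := by
    rw [hT', card_sdiff_of_subset hsub, card_map]
    have := card_le_card hsub
    rw [card_map] at this
    omega
  have hIC : I ⊆ C := fun x hx => mem_cn.2 (Or.inl hx)
  have hpos : 0 < C.card := card_pos.2 (hI.mono hIC)
  have h1 : T'.card ≤ k * al G T' := by
    by_contra hlt
    have := hmin T' ⟨sdiff_subset.trans hT.1, by omega⟩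
    omega
  obtain ⟨J, hJ, hJi, hJc⟩ := exists_al G T'
  have hnot : ∀ x ∈ J, ∀ y : (T : Set V), y ∈ C → x ≠ y.1 := by
    intro x hx y hy hxy
    exact (mem_sdiff.1 (hJ hx)).2 (mem_map.2 ⟨y, hy, hxy.symm⟩)
  have hdis : Disjoint J (I.map (Function.Embedding.subtype _)) := by
    rw [disjoint_left]
    intro x hx hx'
    obtain ⟨y, hy, rfl⟩ := mem_map.1 hx'
    exact hnot _ hx y (hIC hy) rfl
  have hcross : ∀ x ∈ J, ∀ y ∈ I, ¬ G.Adj y.1 x := by
    intro x hx y hy e
    have hxT : x ∈ (T : Set V) := (mem_sdiff.1 (hJ hx)).1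
    exact hnot x hx ⟨x, hxT⟩ (mem_cn.2 (Or.inr ⟨y, hy, e⟩)) rfl
  have h2 : (J ∪ I.map (Function.Embedding.subtype _)).card ≤ al G T := by
    refine le_al (union_subset (hJ.trans sdiff_subset) ((map_subset_map.2 hIC).trans hsub)) ?_
    intro x hx y hy hne e
    rcases mem_union.1 (mem_coe.1 hx) with hx | hx <;> rcases mem_union.1 (mem_coe.1 hy) with hy | hy
    · exact hJi hx hy hne e
    · obtain ⟨y', hy', rfl⟩ := mem_map.1 hy
      exact hcross x hx y' hy' e.symm
    · obtain ⟨x', hx', rfl⟩ := mem_map.1 hx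
      exact hcross y hy x' hx' e
    · obtain ⟨x', hx', rfl⟩ := mem_map.1 hx
      obtain ⟨y', hy', rfl⟩ := mem_map.1 hy
      exact hind hx' hy' (fun h => hne (congrArg _ h)) e
  rw [card_union_of_disjoint hdis, card_map, hJc] at h2
  have h3 : k * (al G T' + I.card) ≤ k * al G T := Nat.mul_le_mul_left _ h2
  rw [mul_add] at h3
  omega

theorem LL_proof (hM : MINStmt) (hL : LCOREStmt) : LLStmt := by
  intro V _ _ G c S hc hO hno
  classical
  by_contra hlt
  obtain ⟨T, hTS, hne, hE⟩ := hM V G c S (by omega)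
  have hO' : Om (G.induce (T : Set V)) c := by
    intro Q hQ
    have := hO (Q.map (Function.Embedding.subtype _)) (by
      intro x hx y hy hne
      obtain ⟨x', hx', rfl⟩ := mem_map.1 (mem_coe.1 hx)
      obtain ⟨y', hy', rfl⟩ := mem_map.1 (mem_coe.1 hy)
      exact hQ hx' hy' (fun h => hne (congrArg _ h)))
    rwa [card_map] at this
  obtain ⟨x, hx⟩ := hne
  obtain ⟨n, r, f, hn, hf⟩ := hL (T : Set V) (G.induce (T : Set V)) c hc (by convert hE) hO' ⟨⟨x, hx⟩⟩
  exact hno n r (fun i => (f i).1) hn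
    ⟨fun i j hi hj h => hf.inj i j hi hj (Subtype.ext h), hf.adj, hf.cl, hf.r2, hf.rn, hf.ch⟩
    (fun i _ => hTS (f i).2)

end Crest.Agent.R54
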