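import Crest.Agent.R54.Defs

set_option autoImplicit false

namespace Crest.Agent.R54

open Finset

namespace REPLaux
variable {V : Type}

theorem ends_ne_nil {K : Finset V} {B : List V} (h : Ends K B) : B ≠ [] := by
  rintro rfl
  obtain ⟨⟨a, -, ha⟩, -⟩ := h
  simp at ha

/-- the concatenation of a nonempty system is a `K`-path -/
theorem kp_flatten {G : SimpleGraph V} {K : Finset V} (hK : G.IsClique (K : Set V)) :
    ∀ (L : List (List V)), Sys G K L → L ≠ [] → KP G K L.flatten
  | [], _, h => absurd rfl h
  | [B], hS, _ => by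
    obtain ⟨h1, h2⟩ := hS
    simp only [List.flatten_cons, List.flatten_nil, List.append_nil] at h1 ⊢
    exact ⟨⟨h1, (h2 B (by simp)).1⟩, (h2 B (by simp)).2⟩
  | B :: B' :: L, hS, _ => by
    obtain ⟨h1, h2⟩ := hS
    rw [List.flatten_cons] at h1 ⊢
    have hS' : Sys G K (B' :: L) :=
      ⟨(List.nodup_append.1 h1).2.1, fun C hC => h2 C (List.mem_cons_of_mem _ hC)⟩
    obtain ⟨⟨-, ih2⟩, ⟨a', ha', ha2'⟩, ⟨b', hb', hb2'⟩⟩ := kp_flatten hK (B' :: L) hS' (by simp)
    obtain ⟨hB, ⟨a, ha, ha2⟩, ⟨b, hb, hb2⟩⟩ := h2 B (by simp)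
    refine ⟨⟨h1, hB.append ih2 ?_⟩, ⟨a, ha, ?_⟩, ⟨b', hb', ?_⟩⟩
    · intro x hx y hy
      rw [hb2] at hx
      rw [ha2'] at hy
      simp only [Option.mem_def, Option.some.injEq] at hx hy
      subst hx hy
      refine hK (by simpa using hb) (by simpa using ha') ?_
      exact (List.nodup_append.1 h1).2.2 _ (List.mem_of_getLast? hb2) _ (List.mem_of_head? ha2')
    · rw [List.head?_append, ha2]; rfl
    · rw [List.getLast?_append, hb2']; rfl

end REPLaux

open REPLaux in
theorem CLOSE_proof : CLOSEStmt := by
  intro V _ G K L n hn hK hS h1 h2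
  classical
  have hc : (L.flatten.toFinset ∪ K).card = L.flatten.length + (K \ L.flatten.toFinset).card := by
    rw [← Finset.union_sdiff_self_eq_union, Finset.card_union_of_disjoint Finset.disjoint_sdiff,
      List.toFinset_card_of_nodup hS.1]
  obtain ⟨M, hM, hMc⟩ := Finset.exists_subset_card_eq (s := K \ L.flatten.toFinset)
    (n := n - L.flatten.length) (by omega)
  let L' : List (List V) := L ++ M.toList.map (fun x => [x])
  have hfl : L'.flatten = L.flatten ++ M.toList := by
    simp only [L', List.flatten_append]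
    congr 1
    induction M.toList with
    | nil => rfl
    | cons a t ih => simp [ih]
  have hS' : Sys G K L' := by
    refine ⟨?_, ?_⟩
    · rw [hfl, List.nodup_append]
      refine ⟨hS.1, M.nodup_toList, ?_⟩
      intro x hx y hy hxy
      subst hxy
      have := hM (Finset.mem_toList.1 hy)
      exact (Finset.mem_sdiff.1 this).2 (List.mem_toFinset.2 hx)
    · intro B hB
      rcases List.mem_append.1 hB with hB | hB
      · exact hS.2 B hB
      · obtain ⟨x, hx, rfl⟩ := List.mem_map.1 hB
        have hxK := (Finset.mem_sdiff.1 (hM (Finset.mem_toList.1 hx))).1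
        exact ⟨by simp, ⟨x, hxK, rfl⟩, ⟨x, hxK, rfl⟩⟩
  have hlen : L'.flatten.length = n := by
    rw [hfl, List.length_append, Finset.length_toList]; omega
  have hne : L' ≠ [] := by
    intro h
    rw [h] at hlen
    simp at hlen; omega
  exact hlen ▸ hasCyc_of_kp hK (kp_flatten hK L' hS' hne) (by omega)

theorem CLQK_proof : CLQKStmt := by
  intro V _ G Q n hn hQ h
  exact CLOSE_proof V G Q [] n hn hQ ⟨by simp, by simp⟩ (by simp) (by simpa using h)

theorem card_union_K {V : Type} [DecidableEq V] (K : Finset V) (l : List V) (hl : l.Nodup) :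
    (l.toFinset ∪ K).card = K.card + l.countP (fun x => x ∉ K) := by
  rw [Finset.union_comm, ← Finset.union_sdiff_self_eq_union,
    Finset.card_union_of_disjoint Finset.disjoint_sdiff]
  congr 1
  rw [List.countP_eq_length_filter, ← List.toFinset_card_of_nodup (hl.filter _)]
  congr 1
  ext x
  simp

theorem REPL_proof (hC : CLOSEStmt) : REPLStmt := by
  intro V _ G K k L Bs R Ns hk hK hW hP hN hmem hlen hcnt
  classical
  obtain ⟨hS, hL, hKL⟩ := hW
  have hPf : L.flatten.Perm (Bs.flatten ++ R.flatten) := by
    rw [← List.flatten_append]; exact hP.flatten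
  have hnd : (Bs.flatten ++ R.flatten).Nodup := hPf.nodup_iff.1 hS.1
  have hS' : Sys G K (Ns ++ R) := by
    refine ⟨?_, ?_⟩
    · rw [List.flatten_append, List.nodup_append]
      refine ⟨hN.1, (List.nodup_append.1 hnd).2.1, ?_⟩
      intro x hx y hy hxy
      subst hxy
      rcases hmem x hx with h | h
      · exact (List.nodup_append.1 hnd).2.2 x h x hy rfl
      · exact h (hPf.mem_iff.2 (List.mem_append_right _ hy))
    · intro B hB
      rcases List.mem_append.1 hB with hB | hB
      · exact hN.2 B hB
      · exact hS.2 B (hP.mem_iff.2 (List.mem_append_right _ hB))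
  have h1 := hPf.length_eq
  rw [List.length_append] at h1
  refine hC V G K (Ns ++ R) (k + 1) (by omega) hK hS' ?_ ?_
  · rw [List.flatten_append, List.length_append]; omega
  · rw [card_union_K K _ hS'.1, List.flatten_append, List.countP_append]
    have h2 := card_union_K K _ hS.1
    have h3 : L.flatten.toFinset ∪ K = L.flatten.toFinset :=
      Finset.union_eq_left.2 (fun x hx => List.mem_toFinset.2 (hKL x hx))
    rw [h3, List.toFinset_card_of_nodup hS.1, hPf.countP_eq, List.countP_append] at h2
    omega

end Crest.Agent.R54
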