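import Crest.Agent.R54.Defs

set_option autoImplicit false

namespace Crest.Agent.R54

open Finset

namespace SPLIT

variable {V : Type}

theorem rt_mem {K : Finset V} {l : List V} {z : V} (h : Rt K l z) : z ∈ l := by
  rcases h with h | ⟨l₁, l₂, y, rfl, -⟩
  · exact List.mem_of_getLast? h
  · simp

theorem rt_dec {K : Finset V} {s t : List V} {z : V} (hn : (s ++ z :: t).Nodup)
    (h : Rt K (s ++ z :: t) z) : t = [] ∨ ∃ y t', t = y :: t' ∧ y ∈ K := by
  have hzs : z ∉ s := by
    intro hz
    exact (List.nodup_append.1 hn).2.2 z hz z (by simp) rfl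
  have hzt : z ∉ t := (List.nodup_cons.1 (List.nodup_append.1 hn).2.1).1
  rcases h with h | ⟨l₁, l₂, y, e, hy⟩
  · left
    by_contra ht
    obtain ⟨a, t', rfl⟩ := List.exists_cons_of_ne_nil ht
    have : z ∈ a :: t' := List.mem_of_getLast? (by simpa using h)
    exact hzt this
  · right
    have := (List.append_cons_inj_of_notMem hzs hzt).1 e
    exact ⟨y, l₂, this.2.2, hy⟩

theorem sp_symm [DecidableEq V] {G : SimpleGraph V} {K W : Finset V} {z z' : V}
    (h : Sp G K W z' z) : Sp G K W z z' := by
  obtain ⟨R₁, R₂, hn, hW, c1, c2, ⟨a, ha, h1⟩, h2, h3, ⟨b, hb, h4⟩⟩ := h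
  refine ⟨R₂.reverse, R₁.reverse, ?_, ?_, ?_, ?_, ⟨b, hb, by simpa using h4⟩, by simpa using h3,
    by simpa using h2, ⟨a, ha, by simpa using h1⟩⟩
  · rw [← List.reverse_append]
    exact List.nodup_reverse.2 hn
  · rw [← List.reverse_append, List.toFinset_reverse, hW]
  · rw [List.isChain_reverse]
    exact c2.imp fun _ _ h => h.symm
  · rw [List.isChain_reverse]
    exact c1.imp fun _ _ h => h.symm

theorem sp_lt [DecidableEq V] {G : SimpleGraph V} {K : Finset V} {A B C : List V} {z z' : V}
    (hK : G.IsClique (K : Set V)) (hp : KP G K (A ++ z :: (B ++ z' :: C)))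
    (h1 : Rt K (A ++ z :: (B ++ z' :: C)) z) (h2 : Rt K (A ++ z :: (B ++ z' :: C)) z') :
    Sp G K (A ++ z :: (B ++ z' :: C)).toFinset z z' := by
  obtain ⟨⟨hn, hc⟩, ⟨a, ha, hha⟩, ⟨b, hb, hhb⟩⟩ := hp
  have e : A ++ z :: (B ++ z' :: C) = (A ++ z :: B) ++ z' :: C := by simp
  have r1 := rt_dec hn h1
  have r2 : C = [] ∨ ∃ y t', C = y :: t' ∧ y ∈ K := by
    rw [e] at hn h2
    exact rt_dec hn h2
  obtain ⟨y, t', ey, hy⟩ : ∃ y t', B ++ z' :: C = y :: t' ∧ y ∈ K := by
    rcases r1 with r1 | r1
    · simp at r1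
    · exact r1
  have hyl : (B ++ [z']).head? = some y := by
    cases B with
    | nil => simp at ey ⊢; exact ey.1
    | cons x B => simp at ey ⊢; exact ey.1
  have hperm : ((A ++ [z]) ++ ((B ++ [z']).reverse ++ C)).Perm (A ++ z :: (B ++ z' :: C)) := by
    have : A ++ z :: (B ++ z' :: C) = (A ++ [z]) ++ ((B ++ [z']) ++ C) := by simp
    rw [this]
    exact ((List.reverse_perm _).append_right C).append_left _
  have e2 : A ++ z :: (B ++ z' :: C) = (A ++ [z]) ++ ((B ++ [z']) ++ C) := by simp
  have hc' := hc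
  rw [e2] at hc'
  have c1 : (A ++ [z]).IsChain G.Adj := hc'.left_of_append
  have c23 : ((B ++ [z']) ++ C).IsChain G.Adj := hc'.right_of_append
  have c2 : (B ++ [z']).IsChain G.Adj := c23.left_of_append
  have c3 : C.IsChain G.Adj := c23.right_of_append
  have hn' := hn
  rw [e2] at hn'
  have n23 : ((B ++ [z']) ++ C).Nodup := (List.nodup_append.1 hn').2.1
  refine ⟨A ++ [z], (B ++ [z']).reverse ++ C, hperm.nodup_iff.2 hn, ?_, c1, ?_, ⟨a, ha, ?_⟩, by simp,
    by simp, ?_⟩
  · exact List.toFinset_eq_of_perm _ _ hperm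
  · refine List.IsChain.append ?_ c3 ?_
    · rw [List.isChain_reverse]
      exact c2.imp fun _ _ h => h.symm
    · intro x hx w hw
      rw [List.getLast?_reverse, hyl] at hx
      simp only [Option.mem_def, Option.some.injEq] at hx
      subst hx
      rcases r2 with rfl | ⟨y', t'', rfl, hy'⟩
      · simp at hw
      · simp only [List.head?_cons, Option.mem_def, Option.some.injEq] at hw
        subst hw
        refine hK (by simpa using hy) (by simpa using hy') ?_
        exact (List.nodup_append.1 n23).2.2 _ (List.mem_of_head? hyl) _ (by simp)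
  · cases A with
    | nil => simpa using hha
    | cons x A => simpa using hha
  · rcases r2 with rfl | ⟨y', t'', rfl, hy'⟩
    · exact ⟨y, hy, by rw [List.append_nil, List.getLast?_reverse, hyl]⟩
    · refine ⟨b, hb, ?_⟩
      rw [e2, List.getLast?_append_of_ne_nil _ (by simp), List.getLast?_append_of_ne_nil _ (by simp)]
        at hhb
      rw [List.getLast?_append_of_ne_nil _ (by simp)]
      exact hhb

end SPLIT

open SPLIT in
theorem SPLIT_proof : SPLITStmt := by
  intro V _ G K l z z' hK hp h1 h2 hne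
  obtain ⟨s, t, rfl⟩ := List.append_of_mem (rt_mem h1)
  have hz' := rt_mem h2
  rcases List.mem_append.1 hz' with h | h
  · obtain ⟨A, B, rfl⟩ := List.append_of_mem h
    apply sp_symm
    have e : A ++ z' :: B ++ z :: t = A ++ z' :: (B ++ z :: t) := by simp
    rw [e] at hp h1 h2 ⊢
    exact sp_lt hK hp h2 h1
  · rcases List.mem_cons.1 h with h | h
    · exact absurd h.symm hne
    · obtain ⟨B, C, rfl⟩ := List.append_of_mem h
      exact sp_lt hK hp h1 h2

theorem ROOTS_proof : ROOTSStmt := by
  intro V _ G K l hp hK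
  obtain ⟨⟨hn, -⟩, ⟨a, ha, hha⟩, -⟩ := hp
  have hne : l ≠ [] := by rintro rfl; simp at hha
  have hlen : 0 < l.length := List.length_pos_iff.2 hne
  let pr : V → V := fun x =>
    if l.idxOf x = 0 then l.getD (l.length - 1) a else l.getD (l.idxOf x - 1) a
  have hidx : ∀ x ∈ K, l.idxOf x < l.length := fun x hx => List.idxOf_lt_length_iff.2 (hK x hx)
  have hinj : ∀ i j, i < l.length → j < l.length → l.getD i a = l.getD j a → i = j := by
    intro i j hi hj h
    rw [List.getD_eq_getElem _ _ hi, List.getD_eq_getElem _ _ hj] at h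
    exact (List.Nodup.getElem_inj_iff hn).1 h
  refine ⟨K.image pr, Finset.card_image_of_injOn ?_, ?_⟩
  · intro x hx y hy h
    have h1 := hidx x hx
    have h2 := hidx y hy
    have key : l.idxOf x = l.idxOf y := by
      simp only [pr] at h
      split_ifs at h with c1 c2 c2
      · omega
      · have := hinj _ _ (by omega) (by omega) h; omega
      · have := hinj _ _ (by omega) (by omega) h; omega
      · have := hinj _ _ (by omega) (by omega) h; omega
    exact (List.idxOf_inj (hK x hx)).1 key
  · intro z hz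
    obtain ⟨x, hx, rfl⟩ := Finset.mem_image.1 hz
    have h1 := hidx x hx
    have hr : Rt K l (pr x) := by
      simp only [pr]
      split_ifs with c
      · left
        rw [List.getD_eq_getElem _ _ (by omega), List.getLast?_eq_getElem?,
          List.getElem?_eq_getElem (by omega)]
      · right
        refine ⟨l.take (l.idxOf x - 1), l.drop (l.idxOf x + 1), x, ?_, hx⟩
        rw [List.getD_eq_getElem _ _ (by omega)]
        have e1 : l.drop (l.idxOf x - 1) = l[l.idxOf x - 1] :: l.drop (l.idxOf x - 1 + 1) :=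
          List.drop_eq_getElem_cons (by omega)
        have e2 : l.drop (l.idxOf x) = l[l.idxOf x] :: l.drop (l.idxOf x + 1) :=
          List.drop_eq_getElem_cons h1
        have e3 : l.idxOf x - 1 + 1 = l.idxOf x := by omega
        rw [e3, e2, List.getElem_idxOf] at e1
        rw [← e1, List.take_append_drop]
    exact ⟨SPLIT.rt_mem hr, hr⟩

end Crest.Agent.R54
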