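import Crest.Agent.R54.Defs

/-! Row 54, task STRUCT: structure of a system of `K`-paths with the most blocks. -/

set_option autoImplicit false

namespace Crest.Agent.R54

namespace STRUCT

variable {V : Type} [DecidableEq V]

/-- number of vertices inside `K` -/
def inn (K : Finset V) (B : List V) : ℕ := B.countP (fun x => x ∈ K)

/-- number of vertices outside `K` -/
def ou (K : Finset V) (B : List V) : ℕ := B.countP (fun x => x ∉ K)

variable {K : Finset V}

theorem inn_nil : inn K [] = 0 := rfl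
theorem ou_nil : ou K [] = 0 := rfl
theorem inn_in {x : V} (h : x ∈ K) (t : List V) : inn K (x :: t) = inn K t + 1 := by simp [inn, h]
theorem inn_out {x : V} (h : x ∉ K) (t : List V) : inn K (x :: t) = inn K t := by simp [inn, h]
theorem ou_in {x : V} (h : x ∈ K) (t : List V) : ou K (x :: t) = ou K t := by simp [ou, h]
theorem ou_out {x : V} (h : x ∉ K) (t : List V) : ou K (x :: t) = ou K t + 1 := by simp [ou, h]

theorem len_eq (t : List V) : t.length = inn K t + ou K t := by
  induction t with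
  | nil => rfl
  | cons x t ih =>
    by_cases h : x ∈ K
    · rw [inn_in h, ou_in h, List.length_cons]; omega
    · rw [inn_out h, ou_out h, List.length_cons]; omega

/-- no two vertices of `K` at distance one or two, last vertex in `K` -/
structure Gd (K : Finset V) (t : List V) : Prop where
  a : ∀ (l₁ : List V) (x y : V) (l₂ : List V), t = l₁ ++ x :: y :: l₂ → x ∈ K → y ∉ K
  b : ∀ (l₁ : List V) (x o y : V) (l₂ : List V), t = l₁ ++ x :: o :: y :: l₂ → x ∈ K → y ∉ K
  c : ∃ b ∈ K, t.getLast? = some b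

omit [DecidableEq V] in
theorem Gd.tail {x y : V} {t : List V} (h : Gd K (x :: y :: t)) : Gd K (y :: t) :=
  ⟨fun l₁ a b l₂ e => h.a (x :: l₁) a b l₂ (by rw [e]; rfl),
    fun l₁ a o b l₂ e => h.b (x :: l₁) a o b l₂ (by rw [e]; rfl), by simpa using h.c⟩

omit [DecidableEq V] in
theorem Gd.single {x : V} (h : Gd K [x]) : x ∈ K := by
  obtain ⟨b, hb, e⟩ := h.c
  simp only [List.getLast?_singleton, Option.some.injEq] at e
  rwa [e]

omit [DecidableEq V] in
theorem Gd.dec {x y : V} {t : List V} (h : Gd K (x :: y :: t)) (hx : x ∈ K) :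
    y ∉ K ∧ ∃ z w t', t = z :: w :: t' ∧ z ∉ K ∧ Gd K (w :: t') := by
  have hy := h.a [] x y t rfl hx
  refine ⟨hy, ?_⟩
  match t, h with
  | [], h => exact absurd h.tail.single hy
  | [z], h => exact absurd h.tail.tail.single (h.b [] x y z [] rfl hx)
  | z :: w :: t', h => exact ⟨z, w, t', rfl, h.b [] x y z _ rfl hx, h.tail.tail.tail⟩

theorem Gd.cnt : ∀ (n : ℕ) (t : List V), t.length ≤ n → Gd K t →
    1 ≤ inn K t ∧ 2 * inn K t ≤ ou K t + 2
  | _, [], _, h => by obtain ⟨b, _, e⟩ := h.c; simp at e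
  | _, [x], _, h => by rw [inn_in h.single, ou_in h.single]; simp [inn_nil, ou_nil]
  | 0, x :: y :: t, hn, _ => by simp at hn
  | n + 1, x :: y :: t, hn, h => by
    by_cases hx : x ∈ K
    · obtain ⟨hy, z, w, t', rfl, hz, h'⟩ := h.dec hx
      have := Gd.cnt n (w :: t') (by simp only [List.length_cons] at hn ⊢; omega) h'
      rw [inn_in hx, inn_out hy, inn_out hz, ou_in hx, ou_out hy, ou_out hz]
      omega
    · have := Gd.cnt n (y :: t) (by simp only [List.length_cons] at hn ⊢; omega) h.tail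
      rw [inn_out hx, ou_out hx]
      omega

theorem Gd.one {w : V} {t : List V} (h : Gd K (w :: t)) (h1 : ou K (w :: t) + 1 ≤ inn K (w :: t)) :
    t = [] ∧ w ∈ K := by
  have h2 := Gd.cnt _ _ le_rfl h
  have h3 := len_eq (K := K) (w :: t)
  have : t = [] := List.eq_nil_of_length_eq_zero (by simp only [List.length_cons] at h3; omega)
  subst this
  exact ⟨rfl, h.single⟩

/-- classification of the blocks -/
theorem Gd.cls {x y : V} {t : List V} (h : Gd K (x :: y :: t)) (hx : x ∈ K) :
    inn K (x :: y :: t) ≤ ou K (x :: y :: t) ∧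
    (ou K (x :: y :: t) ≤ inn K (x :: y :: t) → B4 K (x :: y :: t)) ∧
    (ou K (x :: y :: t) ≤ inn K (x :: y :: t) + 1 →
      B4 K (x :: y :: t) ∨ B5 K (x :: y :: t) ∨ B7 K (x :: y :: t)) := by
  obtain ⟨hy, z, w, t', rfl, hz, h'⟩ := h.dec hx
  have h2 := Gd.cnt _ _ le_rfl h'
  rw [inn_in hx, inn_out hy, inn_out hz, ou_in hx, ou_out hy, ou_out hz]
  refine ⟨by omega, fun h3 => ?_, fun h3 => ?_⟩
  · obtain ⟨rfl, hw⟩ := h'.one (by omega)
    exact ⟨x, y, z, w, rfl, hx, hy, hz, hw⟩
  · match t', h', h2, h3 with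
    | [], h', _, _ => exact Or.inl ⟨x, y, z, w, rfl, hx, hy, hz, h'.single⟩
    | u :: t'', h', h2, h3 =>
      by_cases hw : w ∈ K
      · obtain ⟨hu, a, b, t₃, rfl, ha, h₃⟩ := h'.dec hw
        rw [inn_in hw, inn_out hu, inn_out ha, ou_in hw, ou_out hu, ou_out ha] at h3
        obtain ⟨rfl, hb⟩ := h₃.one (by omega)
        exact Or.inr (Or.inr ⟨x, y, z, w, u, a, b, rfl, hx, hy, hz, hw, hu, ha, hb⟩)
      · rw [inn_out hw, ou_out hw] at h3
        obtain ⟨rfl, hu⟩ := h'.tail.one (by omega)
        exact Or.inr (Or.inl ⟨x, y, z, w, u, rfl, hx, hy, hz, hw, hu⟩)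

theorem sum_le {β : Type} (f g : β → ℕ) : ∀ R : List β, (∀ B ∈ R, f B ≤ g B) →
    (R.map f).sum ≤ (R.map g).sum ∧ ((R.map g).sum ≤ (R.map f).sum → ∀ B ∈ R, g B ≤ f B)
  | [], _ => by simp
  | B :: R, h => by
    have h1 := sum_le f g R (fun C hC => h C (List.mem_cons_of_mem _ hC))
    have h2 := h B List.mem_cons_self
    simp only [List.map_cons, List.sum_cons, List.mem_cons]
    refine ⟨by omega, fun h3 C hC => ?_⟩
    rcases hC with rfl | hC
    · omega
    · exact h1.2 (by omega) C hC

variable {G : SimpleGraph V} {k : ℕ}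

omit [DecidableEq V] in
theorem WS.perm {L L' : List (List V)} (h : WS G K k L) (p : L.Perm L') : WS G K k L' :=
  ⟨⟨p.flatten.nodup_iff.1 h.1.1, fun B hB => h.1.2 B (p.mem_iff.2 hB)⟩,
    p.flatten.length_eq ▸ h.2.1, fun x hx => p.flatten.mem_iff.1 (h.2.2 x hx)⟩

omit [DecidableEq V] in
theorem len_le : ∀ L : List (List V), (∀ B ∈ L, Ends K B) → L.length ≤ L.flatten.length
  | [], _ => by simp
  | B :: L, h => by
    have h1 := len_le L (fun C hC => h C (List.mem_cons_of_mem _ hC))
    obtain ⟨⟨a, _, e⟩, -⟩ := h B List.mem_cons_self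
    cases B with
    | nil => simp at e
    | cons x B => simp only [List.flatten_cons, List.length_cons, List.length_append]; omega

omit [DecidableEq V] in
theorem head_eq (l₁ l₂ l₃ : List V) (x : V) : (l₁ ++ x :: l₂).head? = (l₁ ++ x :: l₃).head? := by
  cases l₁ <;> rfl

omit [DecidableEq V] in
theorem last_eq (l₁ l₂ : List V) (x : V) : (l₁ ++ x :: l₂).getLast? = (x :: l₂).getLast? := by
  rw [List.getLast?_append]
  cases h : (x :: l₂).getLast? with
  | none => simp at h
  | some a => rfl

end STRUCT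

open STRUCT in
theorem STRUCT_proof (hR : REPLStmt) : STRUCTStmt := by
  intro V _ G K k l hk hK hc hs hl hKl hlen
  classical
  obtain ⟨L, hW, hmax⟩ : ∃ L, WS G K k L ∧ ∀ L', WS G K k L' → L'.length ≤ L.length := by
    have h0 : ∃ L, WS G K k L ∧ L.length = 1 :=
      ⟨[l], ⟨⟨by simpa using hl.1.1, fun B hB => by
        rw [List.mem_singleton.1 hB]; exact ⟨hl.1.2, hl.2⟩⟩, by simpa using hlen,
        by simpa using hKl⟩, rfl⟩
    obtain ⟨L, h1, h2⟩ := Nat.findGreatest_spec (P := fun n => ∃ L, WS G K k L ∧ L.length = n)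
      (show 1 ≤ k + 2 by omega) h0
    refine ⟨L, h1, fun L' h' => ?_⟩
    rw [h2]
    refine Nat.le_findGreatest ?_ ⟨L', h', rfl⟩
    have := len_le L' (fun B hB => (h'.1.2 B hB).2)
    rw [h'.2.1] at this
    exact this
  have hA : ∀ B ∈ L, ∀ (l₁ : List V) (x y : V) (l₂ : List V), B = l₁ ++ x :: y :: l₂ → x ∈ K →
      y ∉ K := by
    intro B hB l₁ x y l₂ e hx hy
    have h1 := WS.perm hW (List.perm_cons_erase hB)
    generalize hR' : L.erase B = R at h1
    have hlenR : L.length = R.length + 1 := by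
      rw [(List.perm_cons_erase hB).length_eq, hR']; rfl
    subst e
    have ef : ((l₁ ++ [x]) :: (y :: l₂) :: R).flatten = ((l₁ ++ x :: y :: l₂) :: R).flatten := by
      simp
    obtain ⟨c1, c2, c3⟩ := h1.1.2 _ List.mem_cons_self
    rw [List.isChain_append_cons_cons] at c1
    have h2 : WS G K k ((l₁ ++ [x]) :: (y :: l₂) :: R) := by
      refine ⟨⟨ef ▸ h1.1.1, fun C hC => ?_⟩, ef ▸ h1.2.1, ef ▸ h1.2.2⟩
      simp only [List.mem_cons] at hC
      rcases hC with rfl | rfl | hC
      · exact ⟨c1.1, by rwa [head_eq l₁ [] (y :: l₂)], x, hx, by simp⟩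
      · refine ⟨c1.2.2, ⟨y, hy, rfl⟩, ?_⟩
        rwa [last_eq, List.getLast?_cons_cons] at c3
      · exact h1.1.2 C (List.mem_cons_of_mem _ hC)
    have := hmax _ h2
    simp only [List.length_cons] at this
    omega
  have hB : ∀ B ∈ L, ∀ (l₁ : List V) (x o y : V) (l₂ : List V), B = l₁ ++ x :: o :: y :: l₂ →
      x ∈ K → y ∉ K := by
    intro B hB l₁ x o y l₂ e hx hy
    have hp := List.perm_cons_erase hB
    have h1 := WS.perm hW hp
    have hnd : B.Nodup := by
      have := h1.1.1
      rw [List.flatten_cons] at this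
      exact this.of_append_left
    obtain ⟨c1, c2, c3⟩ := h1.1.2 _ List.mem_cons_self
    have hsub : (l₁ ++ x :: y :: l₂).Sublist B := by
      rw [e]
      exact List.Sublist.append_left (List.Sublist.cons₂ _ (List.sublist_cons_self _ _)) _
    have hxy : x ≠ y := by
      have := hnd.sublist ((List.sublist_append_right _ _).trans hsub)
      simp only [List.nodup_cons, List.mem_cons, not_or] at this
      exact this.1.1
    refine hc (hR V G K k L [B] (L.erase B) [l₁ ++ x :: y :: l₂] hk hK hW hp ⟨?_, fun C hC => ?_⟩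
      ?_ ?_ ?_)
    · simpa using hnd.sublist hsub
    · rw [List.mem_singleton.1 hC]
      rw [e] at c1 c2 c3
      rw [List.isChain_append_cons_cons, List.isChain_cons_cons] at c1
      refine ⟨List.isChain_append_cons_cons.2 ⟨c1.1, hK hx hy hxy, c1.2.2.2⟩,
        by rwa [head_eq l₁ _ (o :: y :: l₂)], ?_⟩
      rw [last_eq, List.getLast?_cons_cons, List.getLast?_cons_cons] at c3
      rwa [last_eq, List.getLast?_cons_cons]
    · intro v hv
      left
      simp only [List.flatten_cons, List.flatten_nil, List.append_nil] at hv ⊢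
      exact hsub.subset hv
    · simp [e]
    · simp only [e, List.flatten_cons, List.flatten_nil, List.append_nil, List.countP_append,
        List.countP_cons]
      split_ifs <;> omega
  have hC : ∀ B ∈ L, inn K B ≤ ou K B ∧ (ou K B ≤ inn K B → B4 K B) ∧
      (ou K B ≤ inn K B + 1 → B4 K B ∨ B5 K B ∨ B7 K B) := by
    intro B hBL
    obtain ⟨-, ⟨a, ha, e⟩, c3⟩ := hW.1.2 B hBL
    match B, hBL, e, c3 with
    | [], _, e, _ => simp at e
    | [x], hBL, e, _ =>
      exfalso
      simp only [List.head?_cons, Option.some.injEq] at e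
      subst e
      exact hc (hR V G K k L [[x]] (L.erase [x]) [] hk hK hW (List.perm_cons_erase hBL)
        ⟨by simp, by simp⟩ (by simp) (by simp) (by simp [ha]))
    | x :: y :: t, hBL, e, c3 =>
      simp only [List.head?_cons, Option.some.injEq] at e
      subst e
      exact Gd.cls ⟨hA _ hBL, hB _ hBL, c3⟩ ha
  have hin : inn K L.flatten = K.card := by
    unfold inn
    rw [List.countP_eq_length_filter, ← List.toFinset_card_of_nodup (hW.1.1.filter _)]
    congr 1
    ext x
    simp only [List.mem_toFinset, List.mem_filter, decide_eq_true_eq]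
    exact ⟨fun h => h.2, fun h => ⟨hW.2.2 x h, h⟩⟩
  have htot : (L.map (ou K)).sum ≤ (L.map (inn K)).sum + 1 := by
    have h1 := len_eq (K := K) L.flatten
    rw [hW.2.1] at h1
    have h2 : ou K L.flatten = (L.map (ou K)).sum := List.countP_flatten
    have h3 : inn K L.flatten = (L.map (inn K)).sum := List.countP_flatten
    omega
  by_cases hall : ∀ B ∈ L, ou K B ≤ inn K B
  · match L, hW, hC, hall with
    | [], hW, _, _ => have := hW.2.1; simp at this
    | S :: R, hW, hC, hall =>
      exact ⟨S, R, hW, fun B hB => (hC B (List.mem_cons_of_mem _ hB)).2.1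
        (hall B (List.mem_cons_of_mem _ hB)),
        Or.inl ((hC S List.mem_cons_self).2.1 (hall S List.mem_cons_self))⟩
  · push Not at hall
    obtain ⟨S, hS, hS'⟩ := hall
    have hp := List.perm_cons_erase hS
    rw [(hp.map _).sum_eq, (hp.map (inn K)).sum_eq] at htot
    simp only [List.map_cons, List.sum_cons] at htot
    have hm : ∀ B ∈ L.erase S, B ∈ L := fun B hB => List.mem_of_mem_erase hB
    have h1 := sum_le (inn K) (ou K) (L.erase S) (fun B hB => (hC B (hm B hB)).1)
    exact ⟨S, L.erase S, WS.perm hW hp, fun B hB => (hC B (hm B hB)).2.1 (h1.2 (by omega) B hB),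
      (hC S hS).2.2 (by omega)⟩

end Crest.Agent.R54
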