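import Crest.Agent.R54.Defs

/-! Row 54, task THETA: paths between two colours in a theta graph. -/

set_option autoImplicit false

namespace Crest.Agent.R54

open Finset

namespace THETA

def Per (X : ℤ → Prop) (p : ℤ) : Prop := ∀ x, X (x + p) ↔ X x

lemma Per.mul {X : ℤ → Prop} {p : ℤ} (h : Per X p) (k : ℤ) : Per X (k * p) := by
  induction k using Int.induction_on with
  | zero => intro x; simp
  | succ k ih => intro x; rw [add_mul, one_mul, ← add_assoc, h, ih]
  | pred k ih =>
    intro x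
    rw [← ih x, ← h (x + (-(k : ℤ) - 1) * p)]
    ring_nf

lemma Per.add {X : ℤ → Prop} {p q : ℤ} (h : Per X p) (h' : Per X q) : Per X (p + q) := by
  intro x
  rw [← add_assoc, h', h]

lemma Per.sub {X : ℤ → Prop} {p q : ℤ} (h : Per X p) (h' : Per X q) : Per X (p - q) := by
  have := h.add (h'.mul (-1))
  rwa [neg_one_mul, ← sub_eq_add_neg] at this

lemma Per.all {P : ℤ → Prop} {p : ℤ} (h : Per P p) (hp : 0 < p) (a : ℤ)
    (ha : ∀ x, a ≤ x → x < a + p → P x) (x : ℤ) : P x := by
  have h1 := Int.emod_nonneg (x - a) hp.ne'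
  have h2 := Int.emod_lt_of_pos (x - a) hp
  have h3 := Int.emod_add_mul_ediv (x - a) p
  have h4 : x = (a + (x - a) % p) + (x - a) / p * p := by linarith [mul_comm p ((x - a) / p)]
  rw [h4, h.mul]
  exact ha _ (by linarith) (by linarith)

lemma Per.eqv {X : ℤ → Prop} {p x y : ℤ} (h : Per X p) (k : ℤ) (e : x = y + k * p) : X x ↔ X y := by
  rw [e, h.mul]

/-- the arithmetic core -/
lemma core (X : ℤ → Prop) (n r L : ℕ) (r2 : 2 ≤ r) (rn : r + 2 ≤ n) (L1 : 1 ≤ L) (Ln : L < n)
    (hn : Per X n) (hL : Per X L) (hnc : ¬ Per X 1)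
    (hF : r + L ≤ n → ∀ a : ℕ, a < L → (X (-a) ↔ X (r + (L - 1 - a))))
    (hB : L ≤ r → ∀ a : ℕ, a < L → (X a ↔ X (r - (L - 1 - a))))
    (hR1 : ∀ a : ℕ, a < L → L ≤ r + a → r + a < n → (X (-a) ↔ X (r - (L - 1 - a))))
    (hR2 : ∀ a : ℕ, a < L → L + r ≤ n + a → a < r → (X a ↔ X (r + (L - 1 - a)))) :
    Even L ∧ (∀ x, ¬ (X x ↔ X (x + 1))) ∧ ¬ (X 0 ↔ X r) := by
  classical
  have hex : ∃ m : ℕ, 0 < m ∧ Per X m := ⟨n, by omega, hn⟩
  obtain ⟨hm0, hm⟩ := Nat.find_spec hex
  have hmin : ∀ p : ℕ, 0 < p → Per X p → Nat.find hex ≤ p := fun p h1 h2 =>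
    Nat.find_min' hex ⟨h1, h2⟩
  generalize Nat.find hex = m at hm0 hm hmin
  have hdvd : ∀ p : ℕ, Per X p → m ∣ p := by
    intro p hp
    have h1 : Per X ((p % m : ℕ) : ℤ) := by
      have := hp.sub (hm.mul ((p / m : ℕ) : ℤ))
      have e : (p : ℤ) - ((p / m : ℕ) : ℤ) * m = ((p % m : ℕ) : ℤ) := by
        have := Nat.div_add_mod p m
        have h2 : ((m * (p / m) + p % m : ℕ) : ℤ) = p := by exact_mod_cast this
        push_cast at h2 ⊢
        linarith
      rwa [e] at this
    by_contra h2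
    have h3 : 0 < p % m := Nat.pos_of_ne_zero fun h => h2 (Nat.dvd_of_mod_eq_zero h)
    have := hmin _ h3 h1
    have := Nat.mod_lt p hm0
    omega
  have m2 : 2 ≤ m := by
    by_contra h
    obtain rfl : m = 1 := by omega
    exact hnc (by simpa using hm)
  have mL : m ≤ L := hmin L L1 hL
  have mnL : m ≤ n - L := hmin _ (by omega) (by
    have := hn.sub hL
    rwa [← Nat.cast_sub Ln.le] at this)
  have hL0 : (0 : ℤ) < L := by exact_mod_cast L1
  have hm0' : (0 : ℤ) < m := by exact_mod_cast hm0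
  have c1 : m < r := by
    by_contra h
    have h1 : ∀ x, X (-x) ↔ X (r - 1 - x) := by
      refine Per.all (p := L) (fun x => ?_) hL0 0 fun x h0 h1 => ?_
      · rw [hL.eqv (x := -(x + L)) (y := -x) (-1) (by ring),
          hL.eqv (x := r - 1 - (x + L)) (y := r - 1 - x) (-1) (by ring)]
      · obtain ⟨a, rfl⟩ := Int.eq_ofNat_of_zero_le h0
        rw [hF (by omega) a (by omega)]
        exact hL.eqv 1 (by ring)
    have h2 : Per X ((r - 1 : ℕ) : ℤ) := by
      intro x
      have := h1 (-x)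
      rw [neg_neg] at this
      rw [this, Nat.cast_sub (by omega)]
      ring_nf
    have := hmin _ (by omega) h2
    omega
  have c2 : r + m < n := by
    by_contra h
    have h1 : ∀ x, X x ↔ X (r + 1 + x) := by
      refine Per.all (p := L) (fun x => ?_) hL0 0 fun x h0 h1 => ?_
      · rw [hL x, hL.eqv (x := r + 1 + (x + L)) (y := r + 1 + x) 1 (by ring)]
      · obtain ⟨a, rfl⟩ := Int.eq_ofNat_of_zero_le h0
        rw [hB (by omega) a (by omega)]
        exact hL.eqv (-1) (by ring)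
    have h2 : Per X ((n - r - 1 : ℕ) : ℤ) := by
      have h3 : Per X (r + 1) := fun x => by rw [h1 x, add_comm]
      have := hn.sub h3
      have e : ((n - r - 1 : ℕ) : ℤ) = n - (r + 1) := by omega
      rwa [e]
    have := hmin _ (by omega) h2
    omega
  have d1 : ∀ x, X (-x) ↔ X (r + 1 + x) := by
    refine Per.all (p := m) (fun x => ?_) hm0' ((L - r : ℕ) : ℤ) fun x h0 h1 => ?_
    · rw [hm.eqv (x := -(x + m)) (y := -x) (-1) (by ring),
        hm.eqv (x := r + 1 + (x + m)) (y := r + 1 + x) 1 (by ring)]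
    · obtain ⟨a, rfl⟩ := Int.eq_ofNat_of_zero_le (show 0 ≤ x by omega)
      rw [hR1 a (by omega) (by omega) (by omega)]
      exact hL.eqv (-1) (by ring)
  have d2 : ∀ x, X x ↔ X (r - 1 - x) := by
    refine Per.all (p := m) (fun x => ?_) hm0' ((L + r - n : ℕ) : ℤ) fun x h0 h1 => ?_
    · rw [hm x, hm.eqv (x := r - 1 - (x + m)) (y := r - 1 - x) (-1) (by ring)]
    · obtain ⟨a, rfl⟩ := Int.eq_ofNat_of_zero_le (show 0 ≤ x by omega)
      rw [hR2 a (by omega) (by omega) (by omega)]
      exact hL.eqv 1 (by ring)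
  have p2 : Per X ((2 : ℕ) : ℤ) := by
    intro x
    have e1 := d1 (x + 1 - r)
    have e2 := d2 x
    rw [e2, show (r : ℤ) - 1 - x = -(x + 1 - r) by ring, e1]
    ring_nf
  obtain rfl : m = 2 := le_antisymm (hmin 2 (by norm_num) p2) m2
  have alt : ∀ x, ¬ (X x ↔ X (x + 1)) := by
    intro x hx
    refine hnc (Per.all (P := fun y => X (y + 1) ↔ X y) (p := (2 : ℕ)) (fun y => ?_) hm0' x
      fun y h0 h1 => ?_)
    · beta_reduce
      rw [hm y, hm.eqv (x := y + (2 : ℕ) + 1) (y := y + 1) 1 (by ring)]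
    · obtain rfl | rfl : y = x ∨ y = x + 1 := by omega
      · exact hx.symm
      · rw [← hx]
        exact hm.eqv 1 (by push_cast; ring)
  refine ⟨even_iff_two_dvd.mpr (hdvd L hL), alt, fun h => alt r ?_⟩
  have := d1 0
  rw [neg_zero, add_zero] at this
  rw [← h, this]

end THETA

open THETA in
theorem THETA_proof : THETAStmt := by
  intro V G n r L f χ hT hnc L1 Ln
  have r2 := hT.r2
  have rn := hT.rn
  have hn0 : (0 : ℤ) < n := by omega
  set F : ℤ → V := fun i => f (i % n).toNat with hF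
  have hlt : ∀ i : ℤ, (i % n).toNat < n := fun i => by
    have := Int.emod_nonneg i hn0.ne'
    have := Int.emod_lt_of_pos i hn0
    omega
  have Fnat : ∀ i : ℕ, i < n → F i = f i := fun i hi => by
    simp only [hF]
    rw [Int.emod_eq_of_lt (by omega) (by omega), Int.toNat_natCast]
  have Fper : ∀ i, F (i + n) = F i := fun i => by simp only [hF, Int.add_emod_right]
  have Finj : ∀ i j, F i = F j → |i - j| < n → i = j := by
    intro i j h1 h2
    have h3 := hT.inj _ _ (hlt i) (hlt j) h1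
    have h4 : i % n = j % n := by
      have := Int.emod_nonneg i hn0.ne'
      have := Int.emod_nonneg j hn0.ne'
      omega
    have h5 : (n : ℤ) ∣ i - j := (Int.ModEq.dvd (show j ≡ i [ZMOD n] from h4.symm))
    exact sub_eq_zero.mp (Int.eq_zero_of_abs_lt_dvd h5 h2)
  have Fadj : ∀ i, G.Adj (F i) (F (i + 1)) := by
    intro i
    have h1 := Int.emod_nonneg i hn0.ne'
    have h2 := Int.emod_lt_of_pos i hn0
    have h3 : (i + 1) % n = (i % n + 1) % n := by rw [Int.emod_add_emod]
    simp only [hF]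
    rw [h3]
    by_cases h4 : i % n + 1 < n
    · rw [Int.emod_eq_of_lt (by omega) h4, show (i % n + 1).toNat = (i % n).toNat + 1 by omega]
      exact hT.adj _ (by omega)
    · rw [show i % n + 1 = n by omega, Int.emod_self, show (i % n).toNat = n - 1 by omega]
      exact hT.cl
  have Fch : G.Adj (F 0) (F r) := by
    rw [show (0 : ℤ) = ((0 : ℕ) : ℤ) from rfl, Fnat 0 (by omega), Fnat r (by omega)]
    exact hT.ch
  rw [or_iff_not_imp_left]
  intro H
  have one : ∀ h : ℕ → ℤ, (∀ i j, i ≤ L → j ≤ L → |h i - h j| < n ∧ (h i = h j → i = j)) →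
      (∀ i < L, G.Adj (F (h i)) (F (h (i + 1)))) → χ (F (h 0)) → χ (F (h L)) := by
    intro h h1 h2 h3
    by_contra h4
    exact H ⟨fun i => F (h i), ⟨fun i j hi hj e => (h1 i j hi hj).2 (Finj _ _ e (h1 i j hi hj).1),
      h2⟩, fun i _ => ⟨_, hlt (h i), rfl⟩, h3, h4⟩
  have two : ∀ h : ℕ → ℤ, (∀ i j, i ≤ L → j ≤ L → |h i - h j| < n ∧ (h i = h j → i = j)) →
      (∀ i < L, G.Adj (F (h i)) (F (h (i + 1)))) → (χ (F (h 0)) ↔ χ (F (h L))) := by
    intro h h1 h2
    refine ⟨one h h1 h2, fun h3 => ?_⟩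
    have := one (fun i => h (L - i)) (fun i j hi hj => ⟨(h1 _ _ (by omega) (by omega)).1,
      fun e => by have := (h1 _ _ (by omega) (by omega)).2 e; omega⟩) (fun i hi => by
        have := (h2 (L - (i + 1)) (by omega)).symm
        rwa [show L - (i + 1) + 1 = L - i by omega] at this) (by simpa using h3)
    simpa using this
  have Fadj' : ∀ i j, (j = i + 1 ∨ i = j + 1) → G.Adj (F i) (F j) := by
    rintro i j (rfl | rfl)
    exacts [Fadj i, (Fadj j).symm]
  have chord : ∀ (ε δ : ℤ) (a : ℕ), (ε = 1 ∨ ε = -1) → (δ = 1 ∨ δ = -1) → a < L →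
      (∀ i j : ℕ, i ≤ a → a < j → j ≤ L → |ε * (a - i) - (r + δ * (j - a - 1))| < n ∧
        ε * (a - i) ≠ r + δ * (j - a - 1)) →
      (χ (F (ε * a)) ↔ χ (F (r + δ * (L - 1 - a)))) := by
    intro ε δ a hε hδ ha hsep
    have := two (fun i => if i ≤ a then ε * (a - i) else r + δ * (i - a - 1)) ?_ ?_
    · simp only [Nat.zero_le, if_true, Nat.cast_zero, sub_zero, if_neg (not_le.mpr ha)] at this
      rw [this, show (L : ℤ) - a - 1 = L - 1 - a by ring]
    · intro i j hi hj
      by_cases h1 : i ≤ a <;> by_cases h2 : j ≤ a <;> simp only [h1, h2, if_true, if_false]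
      · rcases hε with rfl | rfl <;> exact ⟨by rw [abs_lt]; omega, by omega⟩
      · exact ⟨(hsep i j h1 (by omega) hj).1, fun e => absurd e (hsep i j h1 (by omega) hj).2⟩
      · exact ⟨by rw [abs_sub_comm]; exact (hsep j i h2 (by omega) hi).1,
          fun e => absurd e.symm (hsep j i h2 (by omega) hi).2⟩
      · rcases hδ with rfl | rfl <;> exact ⟨by rw [abs_lt]; omega, by omega⟩
    · intro i hi
      rcases lt_trichotomy i a with h1 | rfl | h1
      · simp only [h1.le, show i + 1 ≤ a from h1, if_true]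
        rcases hε with rfl | rfl <;> exact Fadj' _ _ (by push_cast; omega)
      · simp only [le_refl, if_true, show ¬ (i + 1 ≤ i) by omega, if_false]
        convert Fch using 2
        · simp
        · push_cast; ring
      · simp only [not_le.mpr h1, show ¬ (i + 1 ≤ a) by omega, if_false]
        rcases hδ with rfl | rfl <;> exact Fadj' _ _ (by push_cast; omega)
  obtain ⟨e1, e2, e3⟩ := core (fun i => χ (F i)) n r L r2 rn L1 Ln (fun x => by beta_reduce; rw [Fper])
    (fun x => by
      have := two (fun i => x + i) (fun i j hi hj => ⟨by rw [abs_lt]; omega, by omega⟩)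
        (fun i _ => Fadj' _ _ (by push_cast; omega))
      simpa using this.symm)
    (fun h => by
      obtain ⟨i, hi, h1⟩ := hnc
      have := h.mul i 0
      simp only [mul_one, zero_add] at this
      rw [Fnat i hi, show (0 : ℤ) = ((0 : ℕ) : ℤ) from rfl, Fnat 0 (by omega)] at this
      exact h1 this)
    (fun h a ha => by
      have := chord (-1) 1 a (Or.inr rfl) (Or.inl rfl) ha
        fun i j h1 h2 h3 => ⟨by rw [abs_lt]; omega, by omega⟩
      simpa using this)
    (fun h a ha => by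
      have := chord 1 (-1) a (Or.inl rfl) (Or.inr rfl) ha
        fun i j h1 h2 h3 => ⟨by rw [abs_lt]; omega, by omega⟩
      rwa [one_mul, neg_one_mul, ← sub_eq_add_neg] at this)
    (fun a ha h h' => by
      have := chord (-1) (-1) a (Or.inr rfl) (Or.inr rfl) ha
        fun i j h1 h2 h3 => ⟨by rw [abs_lt]; omega, by omega⟩
      rwa [neg_one_mul, neg_one_mul, ← sub_eq_add_neg] at this)
    (fun a ha h h' => by
      have := chord 1 1 a (Or.inl rfl) (Or.inl rfl) ha
        fun i j h1 h2 h3 => ⟨by rw [abs_lt]; omega, by omega⟩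
      rwa [one_mul, one_mul] at this)
  have F0 : F 0 = f 0 := Fnat 0 (by omega)
  refine ⟨e1, fun i hi => ?_, ?_, ?_⟩
  · have := e2 i
    rwa [Fnat i (by omega), ← Nat.cast_succ, Fnat _ hi] at this
  · have := e2 ((n - 1 : ℕ) : ℤ)
    rwa [Fnat _ (by omega), show ((n - 1 : ℕ) : ℤ) + 1 = 0 + n by omega, Fper, F0] at this
  · rwa [F0, Fnat r (by omega)] at e3

end Crest.Agent.R54
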