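import Crest.Agent.R54.Defs

/-! Row 54: closing a path through a rooted tree, and cycles inside a closed neighbourhood. -/

set_option autoImplicit false

namespace Crest.Agent.R54

open Finset

theorem TREE_proof : TREEStmt := by
  intro V G R d par j L h g hp hg hR h1 hj he hne
  have A : ∀ x ∈ R, d x = j → ∀ t, t ≤ j → par^[t] x ∈ R ∧ d (par^[t] x) + t = j := by
    intro x hx hd t
    induction t with
    | zero => intro _; exact ⟨hx, hd⟩
    | succ t ih =>
      intro ht
      obtain ⟨h2, h3⟩ := ih (by omega)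
      obtain ⟨h4, -, h5⟩ := hp _ h2 (by omega)
      rw [Function.iterate_succ_apply']
      exact ⟨h4, by omega⟩
  have B : ∀ x ∈ R, d x = j → ∀ t, t < j → G.Adj (par^[t] x) (par^[t + 1] x) := by
    intro x hx hd t ht
    obtain ⟨h2, h3⟩ := A x hx hd t ht.le
    rw [Function.iterate_succ_apply']
    exact (hp _ h2 (by omega)).2.1
  have h0 := hR 0 (Nat.zero_le _)
  have hL := hR L le_rfl
  have C : ∀ t, t < h → par^[t] (g L) ≠ par^[t] (g 0) := by
    intro t ht e
    apply hne
    obtain ⟨u, hu⟩ : ∃ u, h - 1 = u + t := ⟨h - 1 - t, by omega⟩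
    rw [hu, Function.iterate_add_apply, Function.iterate_add_apply, e]
  let f : ℕ → V := fun i =>
    if i ≤ L then g i else if i ≤ L + h then par^[i - L] (g L) else par^[L + 2 * h - i] (g 0)
  have f1 : ∀ i, i ≤ L → f i = g i := fun i hi => if_pos hi
  have f2 : ∀ i, L ≤ i → i ≤ L + h → f i = par^[i - L] (g L) := by
    intro i hi hi'
    by_cases e : i ≤ L
    · obtain rfl : i = L := by omega
      rw [f1 i le_rfl, Nat.sub_self]
      rfl
    · simp only [f, if_neg e, if_pos hi']
  have f3 : ∀ i, L + h ≤ i → f i = par^[L + 2 * h - i] (g 0) := by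
    intro i hi
    by_cases e : i ≤ L + h
    · obtain rfl : i = L + h := by omega
      rw [f2 _ (by omega) le_rfl, show L + h - L = h by omega, show L + 2 * h - (L + h) = h by omega, he]
    · simp only [f, if_neg e, if_neg (show ¬ i ≤ L by omega)]
  have d1 : ∀ i, i ≤ L → d (f i) = j := fun i hi => by rw [f1 i hi]; exact (hR i hi).2
  have d2 : ∀ i, L ≤ i → i ≤ L + h → d (f i) + (i - L) = j := fun i hi hi' => by
    rw [f2 i hi hi']; exact (A _ hL.1 hL.2 _ (by omega)).2
  have d3 : ∀ i, L + h ≤ i → d (f i) + (L + 2 * h - i) = j := fun i hi => by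
    rw [f3 i hi]; exact (A _ h0.1 h0.2 _ (by omega)).2
  have inj : ∀ i i', i < i' → i' < L + 2 * h → f i ≠ f i' := by
    intro i i' hlt hi' e
    have ed : d (f i) = d (f i') := by rw [e]
    by_cases a' : i' ≤ L
    · rw [f1 i (by omega), f1 i' a'] at e
      have := hg.inj i i' (by omega) a' e
      omega
    by_cases b' : i' ≤ L + h
    · have := d2 i' (by omega) b'
      by_cases a : i ≤ L
      · have := d1 i a
        omega
      · have := d2 i (by omega) (by omega)
        omega
    have q := d3 i' (by omega)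
    by_cases a : i ≤ L
    · have := d1 i a
      omega
    by_cases b : i ≤ L + h
    · have := d2 i (by omega) b
      rw [f2 i (by omega) b, f3 i' (by omega), show L + 2 * h - i' = i - L by omega] at e
      exact C _ (by omega) e
    · have := d3 i (by omega)
      omega
  refine hasCyc_of_fun f (by omega) (fun i i' hi hi' e => ?_) (fun i hi => ?_) ?_
  · rcases lt_trichotomy i i' with c | c | c
    · exact absurd e (inj i i' c hi')
    · exact c
    · exact absurd e.symm (inj i' i c hi)
  · by_cases a : i < L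
    · rw [f1 i a.le, f1 (i + 1) a]
      exact hg.adj i a
    by_cases b : i < L + h
    · rw [f2 i (by omega) b.le, f2 (i + 1) (by omega) b, show i + 1 - L = i - L + 1 by omega]
      exact B _ hL.1 hL.2 _ (by omega)
    · rw [f3 i (by omega), f3 (i + 1) (by omega),
        show L + 2 * h - i = L + 2 * h - (i + 1) + 1 by omega]
      exact (B _ h0.1 h0.2 _ (by omega)).symm
  · rw [f3 _ (by omega), f1 0 (Nat.zero_le _), show L + 2 * h - (L + 2 * h - 1) = 0 + 1 by omega]
    exact (B _ h0.1 h0.2 0 (by omega)).symm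

theorem B1_proof : B1Stmt := by
  intro V _ _ G k n r v f hk hno hn hT hall
  apply hno
  obtain ⟨i0, hi0, hv⟩ : ∃ i0, i0 < n ∧ ∀ i, i < n → i ≠ i0 → f i ≠ v := by
    by_cases h : ∃ i, i < n ∧ f i = v
    · obtain ⟨i0, h0, e⟩ := h
      exact ⟨i0, h0, fun i hi hne e' => hne (hT.inj i i0 hi h0 (e'.trans e.symm))⟩
    · exact ⟨0, by omega, fun i hi _ e => h ⟨i, hi, e⟩⟩
  let ix : ℕ → ℕ := fun t => if i0 + t < n then i0 + t else i0 + t - n
  have ix1 : ∀ t, i0 + t < n → ix t = i0 + t := fun t h => if_pos h
  have ix2 : ∀ t, n ≤ i0 + t → ix t = i0 + t - n := fun t h => if_neg (by omega)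
  have ixs : ∀ t, (i0 + t < n ∧ ix t = i0 + t) ∨ (n ≤ i0 + t ∧ ix t = i0 + t - n) := fun t => by
    by_cases h : i0 + t < n
    · exact Or.inl ⟨h, ix1 t h⟩
    · exact Or.inr ⟨by omega, ix2 t (by omega)⟩
  have lt : ∀ t, t ≤ k → ix t < n := fun t ht => by have := ixs t; omega
  have ne : ∀ t, 0 < t → t ≤ k → f (ix t) ≠ v := fun t h0 ht =>
    hv _ (lt t ht) (by have := ixs t; omega)
  have av : ∀ t, 0 < t → t ≤ k → G.Adj v (f (ix t)) := by
    intro t h0 ht
    have h := hall _ (lt t ht)
    simp only [ball, mem_cn, mem_singleton, exists_eq_left] at h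
    exact h.resolve_left (ne t h0 ht)
  let F : ℕ → V := fun t => if t = 0 then v else f (ix t)
  have F0 : F 0 = v := if_pos rfl
  have F1 : ∀ t, 0 < t → F t = f (ix t) := fun t h => if_neg (by omega)
  refine hasCyc_of_fun F (by omega) (fun i i' hi hi' e => ?_) (fun i hi => ?_) ?_
  · rcases Nat.eq_zero_or_pos i with rfl | a <;> rcases Nat.eq_zero_or_pos i' with rfl | a'
    · rfl
    · rw [F0, F1 _ a'] at e
      exact absurd e.symm (ne _ a' (by omega))
    · rw [F0, F1 _ a] at e
      exact absurd e (ne _ a (by omega))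
    · rw [F1 _ a, F1 _ a'] at e
      have := hT.inj _ _ (lt i (by omega)) (lt i' (by omega)) e
      have := ixs i
      have := ixs i'
      omega
  · rcases Nat.eq_zero_or_pos i with rfl | a
    · rw [F0, F1 _ (by omega)]
      exact av _ (by omega) (by omega)
    · rw [F1 _ a, F1 _ (by omega)]
      by_cases c : i0 + i + 1 = n
      · rw [ix1 i (by omega), ix2 (i + 1) (by omega), show i0 + i = n - 1 by omega,
          show i0 + (i + 1) - n = 0 by omega]
        exact hT.cl
      · have e : ix (i + 1) = ix i + 1 := by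
          have := ixs i
          have := ixs (i + 1)
          omega
        rw [e]
        exact hT.adj _ (by rw [← e]; exact lt _ (by omega))
  · rw [F0, F1 _ (by omega)]
    exact (av _ (by omega) (by omega)).symm

end Crest.Agent.R54
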