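import Crest.Agent.R54.Defs

set_option autoImplicit false

namespace Crest.Agent.R54

open Finset

namespace TRI

variable {V : Type}

lemma walk_of (G : SimpleGraph V) : ∀ (l : List V) (a b : V), l.IsChain G.Adj →
    l.head? = some a → l.getLast? = some b → ∃ p : G.Walk a b, p.support = l
  | [], _, _, _, h, _ => by simp at h
  | [x], a, b, _, h, h' => by
      simp only [List.head?_cons, Option.some.injEq] at h
      simp only [List.getLast?_singleton, Option.some.injEq] at h'
      subst h; subst h'
      exact ⟨SimpleGraph.Walk.nil, rfl⟩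
  | x :: y :: t, a, b, hc, h, h' => by
      simp only [List.head?_cons, Option.some.injEq] at h
      subst h
      rw [List.isChain_cons_cons] at hc
      obtain ⟨p, hp⟩ := walk_of G (y :: t) y b hc.2 rfl (by simpa using h')
      exact ⟨SimpleGraph.Walk.cons hc.1 p, by simp [hp]⟩

lemma bound [DecidableEq V] (G : SimpleGraph V)
    (hT : ∀ a b c : V, G.Adj a b → G.Adj a c → G.Adj b c → False) :
    ∀ (a : ℕ) (S : Finset V), al G S ≤ a → 2 * S.card ≤ a * (a + 3) := by
  intro a
  induction a with
  | zero =>
    intro S hS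
    rcases S.eq_empty_or_nonempty with rfl | ⟨v, hv⟩
    · simp
    · have := le_al (G := G) (singleton_subset_iff.2 hv) (by simp)
      simp only [card_singleton] at this
      omega
  | succ a ih =>
    intro S hS
    rcases S.eq_empty_or_nonempty with rfl | ⟨v, hv⟩
    · simp
    have h1 : (nb G S v).card ≤ a + 1 := by
      refine le_trans (le_al (G := G) (S := S) (fun u hu => (mem_nb.1 hu).1) ?_) hS
      intro x hx y hy _ hxy
      exact hT v x y (mem_nb.1 (mem_coe.1 hx)).2 (mem_nb.1 (mem_coe.1 hy)).2 hxy
    have h2 : al G (S \ insert v (nb G S v)) ≤ a := by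
      obtain ⟨I, hI, hind, hc⟩ := exists_al G (S \ insert v (nb G S v))
      have hv' : v ∉ I := fun h => (mem_sdiff.1 (hI h)).2 (mem_insert_self _ _)
      have hna : ∀ x ∈ I, ¬ G.Adj v x := fun x hx hadj =>
        (mem_sdiff.1 (hI hx)).2 (mem_insert_of_mem (mem_nb.2 ⟨(mem_sdiff.1 (hI hx)).1, hadj⟩))
      have h3 : (insert v I).card ≤ al G S := by
        refine le_al (insert_subset hv (fun x hx => (mem_sdiff.1 (hI hx)).1)) ?_
        intro x hx y hy hne hxy
        rcases mem_insert.1 (mem_coe.1 hx) with rfl | hx'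
        · rcases mem_insert.1 (mem_coe.1 hy) with rfl | hy'
          · exact hne rfl
          · exact hna y hy' hxy
        · rcases mem_insert.1 (mem_coe.1 hy) with rfl | hy'
          · exact hna x hx' hxy.symm
          · exact hind (mem_coe.2 hx') (mem_coe.2 hy') hne hxy
      rw [card_insert_of_notMem hv'] at h3
      omega
    have h4 := ih _ h2
    have h5 := card_insert_le v (nb G S v)
    have h6 := le_card_sdiff (insert v (nb G S v)) S
    have h7 : S.card ≤ (S \ insert v (nb G S v)).card + (a + 2) := by omega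
    nlinarith

end TRI

theorem TRI_proof : TRIStmt := by
  intro V _ _ G k hk hC ⟨v⟩
  by_contra hn
  have hT : ∀ a b c : V, G.Adj a b → G.Adj a c → G.Adj b c → False :=
    fun a b c h1 h2 h3 => hn ⟨a, b, c, h1, h2, h3⟩
  obtain ⟨I, -, hind, hc⟩ := exists_al G (univ : Finset V)
  have h1 : 1 ≤ al G (univ : Finset V) := by
    have := le_al (G := G) (subset_univ {v}) (by simp)
    simpa using this
  have h2 := hC.exp I (card_pos.1 (by omega)) hind
  have h3 := hC.alpha I hind
  have h4 := TRI.bound G hT _ univ le_rfl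
  have h5 := card_le_card (subset_univ (cn G I))
  rw [← hc] at h4
  nlinarith

theorem CYC_proof : CYCStmt := by
  intro V G n hn ⟨a, b, l, hp, hl, ha, hb, hba⟩
  obtain ⟨p, hs⟩ := TRI.walk_of G l a b hp.2 ha hb
  have hpath : p.IsPath := SimpleGraph.Walk.IsPath.mk' (hs ▸ hp.1)
  have hlen : p.length + 1 = n := by rw [← p.length_support, hs, hl]
  refine ⟨b, SimpleGraph.Walk.cons hba p, ?_, by simpa using hlen⟩
  rw [SimpleGraph.Walk.cons_isCycle_iff]
  refine ⟨hpath, fun h => ?_⟩
  have h1 := hpath.length_eq_one_of_mem_edges (by rwa [Sym2.eq_swap] at h)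
  omega

end Crest.Agent.R54
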