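import Crest.Agent.R54.Defs

set_option autoImplicit false

namespace Crest.Agent.R54

open Finset

namespace W4

variable {V : Type} [DecidableEq V]

/-- an oriented 4-block -/
structure HB (G : SimpleGraph V) (K : Finset V) (B : List V) (x a b y : V) : Prop where
  perm : B.Perm [x, a, b, y]
  hx : x ∈ K
  ha : a ∉ K
  hb : b ∉ K
  hy : y ∈ K
  xa : G.Adj x a
  ab : G.Adj a b
  by' : G.Adj b y

omit [DecidableEq V] in
theorem HB.rev {G : SimpleGraph V} {K : Finset V} {B : List V} {x a b y : V}
    (h : HB G K B x a b y) : HB G K B y b a x :=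
  ⟨h.perm.trans (by simpa using (List.reverse_perm [y, b, a, x])), h.hy, h.hb, h.ha, h.hx,
    h.by'.symm, h.ab.symm, h.xa.symm⟩

omit [DecidableEq V] in
theorem hb_of {G : SimpleGraph V} {K : Finset V} {B : List V} (h4 : B4 K B)
    (hc : B.IsChain G.Adj) : ∃ x a b y, HB G K B x a b y := by
  obtain ⟨x, a, b, y, rfl, hx, ha, hb, hy⟩ := h4
  simp only [List.isChain_cons_cons, List.IsChain.singleton, and_true] at hc
  exact ⟨x, a, b, y, List.Perm.refl _, hx, ha, hb, hy, hc.1, hc.2.1, hc.2.2⟩

theorem cnt (K : Finset V) (L : List (List V)) (h : ∀ B ∈ L, B4 K B) :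
    L.flatten.length = 4 * L.length ∧ L.flatten.countP (fun x => x ∉ K) = 2 * L.length := by
  induction L with
  | nil => simp
  | cons B L ih =>
    obtain ⟨x, a, b, y, rfl, hx, ha, hb, hy⟩ := h B (by simp)
    obtain ⟨h1, h2⟩ := ih fun B hB => h B (by simp [hB])
    rw [List.flatten_cons, List.length_append, List.countP_append, h1, h2]
    simp [hx, ha, hb, hy]
    omega

end W4

open W4 in
theorem W4_proof (hR : REPLStmt) (hF : FINStmt) : W4Stmt := by
  intro V _ _ G K k L hctx hK hOm h3 hWS h4
  obtain ⟨hlen, hcnt⟩ := cnt K L h4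
  have hnd : L.flatten.Nodup := hWS.1.1
  have hk : k + 2 = 4 * L.length := by rw [← hWS.2.1, hlen]
  set W := L.flatten.toFinset with hW
  set Y := (L.flatten.filter (fun x => x ∉ K)).toFinset with hY
  have hYc : Y.card = 2 * L.length := by
    rw [hY, List.toFinset_card_of_nodup (hnd.filter _), ← List.countP_eq_length_filter, hcnt]
  have hKc : K.card = 2 * L.length := by
    have h1 : K = (L.flatten.filter (fun x => ¬ decide (x ∉ K))).toFinset := by
      ext x
      simp only [List.mem_toFinset, List.mem_filter]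
      constructor
      · intro hx; exact ⟨hWS.2.2 x hx, by simp [hx]⟩
      · intro hx; simpa using hx.2
    have h2 := List.length_eq_countP_add_countP (fun x => decide (x ∉ K)) (l := L.flatten)
    have h5 : K.card = L.flatten.countP (fun x => ¬ decide (x ∉ K)) := by
      conv_lhs => rw [h1]
      rw [List.toFinset_card_of_nodup (hnd.filter _), ← List.countP_eq_length_filter]
    omega
  have hk2 : 2 ≤ k := by omega
  have hno := hctx.nocyc
  -- every vertex of `W` is the first or second vertex of an oriented block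
  have hmem : ∀ z ∈ L.flatten, ∃ B ∈ L, ∃ x a b y, HB G K B x a b y ∧ (z = x ∨ z = a) := by
    intro z hz
    obtain ⟨B, hB, hzB⟩ := List.mem_flatten.1 hz
    obtain ⟨x, a, b, y, h⟩ := hb_of (h4 B hB) (hWS.1.2 B hB).1
    have := h.perm.mem_iff.1 hzB
    simp only [List.mem_cons, List.not_mem_nil, or_false] at this
    rcases this with rfl | rfl | rfl | rfl
    · exact ⟨B, hB, _, _, _, _, h, Or.inl rfl⟩
    · exact ⟨B, hB, _, _, _, _, h, Or.inr rfl⟩
    · exact ⟨B, hB, _, _, _, _, h.rev, Or.inr rfl⟩
    · exact ⟨B, hB, _, _, _, _, h.rev, Or.inl rfl⟩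
  have hmemY : ∀ a ∈ Y, ∃ B ∈ L, ∃ x b y, HB G K B x a b y := by
    intro a ha
    simp only [hY, List.mem_toFinset, List.mem_filter, decide_eq_true_eq] at ha
    obtain ⟨B, hB, x, a', b, y, h, rfl | rfl⟩ := hmem a ha.1
    · exact absurd h.hx ha.2
    · exact ⟨B, hB, x, b, y, h⟩
  have hmemK : ∀ x ∈ K, ∃ B ∈ L, ∃ a b y, HB G K B x a b y := by
    intro x hx
    obtain ⟨B, hB, x', a, b, y, h, rfl | rfl⟩ := hmem x (hWS.2.2 x hx)
    · exact ⟨B, hB, a, b, y, h⟩
    · exact absurd hx h.ha
  have one : ∀ B ∈ L, ∀ x a b y, HB G K B x a b y → [x, a, b, y].Nodup ∧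
      ∀ N : List V, N.Nodup → N.IsChain G.Adj → Ends K N → (∀ z ∈ N, z ∈ [x, a, b, y]) →
        N.length < 4 → 1 ≤ N.countP (fun x => x ∉ K) → False := by
    intro B hB x a b y h
    have hp : L.Perm ([B] ++ L.erase B) := List.perm_cons_erase hB
    have hn : B.Nodup := (List.nodup_flatten.1 hnd).1 B hB
    refine ⟨h.perm.nodup_iff.1 hn, fun N n1 n2 n3 n4 n5 n6 => hno ?_⟩
    refine hR V G K k L [B] (L.erase B) [N] hk2 hK hWS hp ⟨by simpa using n1, by simpa using ⟨n2, n3⟩⟩
      ?_ ?_ ?_
    · intro z hz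
      left
      simpa using h.perm.mem_iff.2 (n4 z (by simpa using hz))
    · simpa [h.perm.length_eq] using n5
    · simp only [List.flatten_cons, List.flatten_nil, List.append_nil]
      rw [h.perm.countP_eq]
      simp only [List.countP_cons, h.hx, h.ha, h.hb, h.hy]
      simp only [not_true_eq_false, decide_false, Bool.false_eq_true, ↓reduceIte, not_false_eq_true,
        decide_true, List.countP_nil]
      omega
  have two : ∀ B ∈ L, ∀ x a b y, HB G K B x a b y → ∀ B' ∈ L, ∀ x' a' b' y', HB G K B' x' a' b' y' →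
      B ≠ B' → [x, a, b, y, x', a', b', y'].Nodup ∧
      ∀ N : List V, N.Nodup → N.IsChain G.Adj → Ends K N →
        (∀ z ∈ N, z ∈ [x, a, b, y, x', a', b', y'] ∨ z ∉ W) →
        N.length < 8 → 3 ≤ N.countP (fun x => x ∉ K) → False := by
    intro B hB x a b y h B' hB' x' a' b' y' h' hne
    have hB'' : B' ∈ L.erase B := (List.mem_erase_of_ne hne.symm).2 hB'
    have hp : L.Perm ([B, B'] ++ (L.erase B).erase B') :=
      (List.perm_cons_erase hB).trans ((List.perm_cons_erase hB'').cons B)
    have hpp : (B ++ B').Perm [x, a, b, y, x', a', b', y'] := h.perm.append h'.perm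
    have hn : (B ++ B').Nodup := by
      have := hp.flatten.nodup_iff.1 hnd
      rw [List.flatten_append] at this
      simpa using (List.nodup_append.1 this).1
    refine ⟨hpp.nodup_iff.1 hn, fun N n1 n2 n3 n4 n5 n6 => hno ?_⟩
    refine hR V G K k L [B, B'] ((L.erase B).erase B') [N] hk2 hK hWS hp
      ⟨by simpa using n1, by simpa using ⟨n2, n3⟩⟩ ?_ ?_ ?_
    · intro z hz
      rcases n4 z (by simpa using hz) with h1 | h1
      · left
        simpa using hpp.mem_iff.2 h1
      · right
        simpa [hW] using h1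
    · have := hpp.length_eq
      simp only [List.flatten_cons, List.flatten_nil, List.append_nil]
      rw [this]
      simpa using n5
    · simp only [List.flatten_cons, List.flatten_nil, List.append_nil]
      rw [hpp.countP_eq]
      simp only [List.countP_cons, h.hx, h.ha, h.hb, h.hy, h'.hx, h'.ha, h'.hb, h'.hy]
      simp only [not_true_eq_false, decide_false, Bool.false_eq_true, ↓reduceIte, not_false_eq_true,
        decide_true, List.countP_nil]
      omega
  have hKW : ∀ u, u ∉ W → u ∉ K := fun u hu h => hu (List.mem_toFinset.2 (hWS.2.2 u h))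
  have hBW : ∀ B ∈ L, ∀ x a b y, HB G K B x a b y → x ∈ W ∧ a ∈ W ∧ b ∈ W ∧ y ∈ W := by
    intro B hB x a b y h
    have : ∀ z ∈ [x, a, b, y], z ∈ W := fun z hz =>
      List.mem_toFinset.2 (List.mem_flatten.2 ⟨B, hB, h.perm.mem_iff.2 hz⟩)
    simpa using this
  have hdiff : ∀ B x a b y, HB G K B x a b y → ∀ B' z, z ∈ B' → z ∉ [x, a, b, y] → B ≠ B' := by
    rintro B x a b y h B' z hz hz' rfl
    exact hz' (h.perm.mem_iff.1 hz)
  -- another block
  have other : ∀ B x a b y, HB G K B x a b y →
      ∃ B' ∈ L, ∃ x' a' b' y', HB G K B' x' a' b' y' ∧ B ≠ B' := by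
    intro B x a b y h
    have : ∃ x' ∈ K, x' ∉ ({x, y} : Finset V) := by
      by_contra hcon
      push Not at hcon
      have h1 := card_le_card (show K ⊆ {x, y} from hcon)
      have h2 : ({x, y} : Finset V).card ≤ 2 := card_le_two
      omega
    obtain ⟨x', hx', hxy⟩ := this
    obtain ⟨B', hB', a', b', y', h'⟩ := hmemK x' hx'
    refine ⟨B', hB', x', a', b', y', h', hdiff B x a b y h B' x' (h'.perm.mem_iff.2 (by simp)) ?_⟩
    simp only [mem_insert, mem_singleton, not_or] at hxy
    simp only [List.mem_cons, List.not_mem_nil, or_false, not_or]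
    exact ⟨hxy.1, fun e => h.ha (e ▸ hx'), fun e => h.hb (e ▸ hx'), hxy.2⟩
  -- connections
  have conn : ∀ a ∈ Y, ∀ a' ∈ Y, a ≠ a' → ∀ p : List V, p.Nodup → (∀ u ∈ p, u ∉ W) →
      1 ≤ p.length → p.length ≤ 2 → (a :: (p ++ [a'])).IsChain G.Adj → False := by
    intro a ha a' ha' hne p p1 p2 p3 p4 p5
    obtain ⟨B, hB, x, b, y, h⟩ := hmemY a ha
    have key : ∀ B' ∈ L, ∀ x' a₁ b' y', HB G K B' x' a₁ b' y' → B ≠ B' → ∀ e, e ∈ K →
        G.Adj a' e → e ≠ x → a' ∉ K → a' ∈ [x, a, b, y, x', a₁, b', y'] →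
        e ∈ [x, a, b, y, x', a₁, b', y'] → False := by
      intro B' hB' x' a₁ b' y' h' hBB e he hae hex haK m1 m2
      obtain ⟨-, hrep⟩ := two B hB x a b y h B' hB' x' a₁ b' y' h' hBB
      obtain ⟨w1, w2, -, -⟩ := hBW B hB x a b y h
      have w3 : a' ∈ W := by
        simp only [hY, List.mem_toFinset, List.mem_filter] at ha'
        exact List.mem_toFinset.2 ha'.1
      have w4 : e ∈ W := List.mem_toFinset.2 (hWS.2.2 e he)
      have hxa : x ≠ a := h.xa.ne
      have hxa' : x ≠ a' := fun e' => haK (e' ▸ h.hx)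
      have hae' : a ≠ e := fun e' => h.ha (e' ▸ he)
      have hae'' : a' ≠ e := hae.ne
      match p, p1, p2, p3, p4, p5 with
      | [u], _, p2, _, _, p5 =>
        have hu : u ∉ W := p2 u (by simp)
        have huK := hKW u hu
        simp only [List.cons_append, List.nil_append, List.isChain_cons_cons,
          List.IsChain.singleton, and_true] at p5
        refine hrep [x, a, u, a', e] ?_ ?_ ⟨⟨x, h.hx, rfl⟩, ⟨e, he, rfl⟩⟩ ?_ (by simp) ?_
        · have : x ≠ u := fun e' => hu (e' ▸ w1)
          have : a ≠ u := fun e' => hu (e' ▸ w2)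
          have : u ≠ a' := fun e' => hu (e' ▸ w3)
          have : u ≠ e := fun e' => hu (e' ▸ w4)
          have := hex.symm
          simp [*]
        · simp [h.xa, p5.1, p5.2, hae]
        · intro z hz
          simp only [List.mem_cons, List.not_mem_nil, or_false] at hz
          rcases hz with rfl | rfl | rfl | rfl | rfl
          · simp
          · simp
          · exact Or.inr hu
          · exact Or.inl m1
          · exact Or.inl m2
        · simp [h.hx, h.ha, huK, haK, he]
      | [u, u'], p1, p2, _, _, p5 =>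
        have hu : u ∉ W := p2 u (by simp)
        have hu' : u' ∉ W := p2 u' (by simp)
        have huK := hKW u hu
        have huK' := hKW u' hu'
        simp only [List.cons_append, List.nil_append, List.isChain_cons_cons,
          List.IsChain.singleton, and_true] at p5
        refine hrep [x, a, u, u', a', e] ?_ ?_ ⟨⟨x, h.hx, rfl⟩, ⟨e, he, rfl⟩⟩ ?_ (by simp) ?_
        · have : x ≠ u := fun e' => hu (e' ▸ w1)
          have : a ≠ u := fun e' => hu (e' ▸ w2)
          have : u ≠ a' := fun e' => hu (e' ▸ w3)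
          have : u ≠ e := fun e' => hu (e' ▸ w4)
          have : x ≠ u' := fun e' => hu' (e' ▸ w1)
          have : a ≠ u' := fun e' => hu' (e' ▸ w2)
          have : u' ≠ a' := fun e' => hu' (e' ▸ w3)
          have : u' ≠ e := fun e' => hu' (e' ▸ w4)
          have : u ≠ u' := p5.2.1.ne
          have := hex.symm
          simp [*]
        · simp [h.xa, p5.1, p5.2.1, p5.2.2, hae]
        · intro z hz
          simp only [List.mem_cons, List.not_mem_nil, or_false] at hz
          rcases hz with rfl | rfl | rfl | rfl | rfl | rfl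
          · simp
          · simp
          · exact Or.inr hu
          · exact Or.inr hu'
          · exact Or.inl m1
          · exact Or.inl m2
        · simp [h.hx, h.ha, huK, huK', haK, he]
    by_cases hab : a' = b
    · subst hab
      obtain ⟨B', hB', x', a₁, b', y', h', hBB⟩ := other B x a a' y h
      have hn := (one B hB x a a' y h).1
      refine key B' hB' x' a₁ b' y' h' hBB y h.hy h.by' ?_ h.hb (by simp) (by simp)
      rintro rfl
      simp at hn
    · obtain ⟨B', hB', x', b', y', h'⟩ := hmemY a' ha'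
      have hBB : B ≠ B' := by
        refine hdiff B x a b y h B' a' (h'.perm.mem_iff.2 (by simp)) ?_
        simp only [List.mem_cons, List.not_mem_nil, or_false, not_or]
        exact ⟨fun e => h'.ha (e ▸ h.hx), hne.symm, hab, fun e => h'.ha (e ▸ h.hy)⟩
      have hn := (two B hB x a b y h B' hB' x' a' b' y' h' hBB).1
      refine key B' hB' x' a' b' y' h' hBB x' h'.hx h'.xa.symm ?_ h'.ha (by simp) (by simp)
      rintro rfl
      simp at hn
  -- neighbours inside `W`
  have hnb : ∀ a ∈ Y, (nb G W a).card ≤ 2 := by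
    intro a ha
    obtain ⟨B, hB, x, b, y, h⟩ := hmemY a ha
    refine le_trans (card_le_card (show nb G W a ⊆ {x, b} from ?_)) card_le_two
    intro z hz
    obtain ⟨hzW, haz⟩ := mem_nb.1 hz
    by_contra hcon
    simp only [mem_insert, mem_singleton, not_or] at hcon
    obtain ⟨hn, hrep1⟩ := one B hB x a b y h
    by_cases hzy : z = y
    · subst hzy
      refine hrep1 [x, a, z] ?_ ?_ ⟨⟨x, h.hx, rfl⟩, ⟨z, h.hy, rfl⟩⟩ (by simp) (by simp) ?_
      · simp only [List.nodup_cons, List.mem_cons, List.not_mem_nil, or_false, not_or] at hn ⊢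
        tauto
      · simp [h.xa, haz]
      · simp [h.hx, h.ha, h.hy]
    obtain ⟨B', hB', x', a', b', y', h', hz'⟩ := hmem z (List.mem_toFinset.1 hzW)
    have hBB : B ≠ B' := by
      refine hdiff B x a b y h B' z (h'.perm.mem_iff.2 (by rcases hz' with rfl | rfl <;> simp)) ?_
      simp only [List.mem_cons, List.not_mem_nil, or_false, not_or]
      exact ⟨hcon.1, haz.ne.symm, hcon.2, hzy⟩
    obtain ⟨hn2, hrep⟩ := two B hB x a b y h B' hB' x' a' b' y' h' hBB
    simp only [List.nodup_cons, List.mem_cons, List.not_mem_nil, or_false, not_or] at hn2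
    rcases hz' with rfl | rfl
    · refine hrep [y, b, a, z, a', b', y'] ?_ ?_ ⟨⟨y, h.hy, rfl⟩, ⟨y', h'.hy, rfl⟩⟩ (by simp)
        (by simp) ?_
      · simp only [List.nodup_cons, List.mem_cons, List.not_mem_nil, or_false, not_or]
        grind
      · simp [h.by'.symm, h.ab.symm, haz, h'.xa, h'.ab, h'.by']
      · simp [h.hy, h.ha, h.hb, h'.hx, h'.ha, h'.hb, h'.hy]
    · refine hrep [y, b, a, z, b', y'] ?_ ?_ ⟨⟨y, h.hy, rfl⟩, ⟨y', h'.hy, rfl⟩⟩ (by simp)
        (by simp) ?_
      · simp only [List.nodup_cons, List.mem_cons, List.not_mem_nil, or_false, not_or]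
        grind
      · simp [h.by'.symm, h.ab.symm, haz, h'.ab, h'.by']
      · simp [h.hy, h.ha, h.hb, h'.ha, h'.hb, h'.hy]
  refine hF V G k K.card W Y id h3 hctx hOm (by omega) (fun y hy => ?_)
    (fun y hy => ⟨hy, rfl, fun h => absurd rfl h⟩) ?_ ?_
  · have := hnb y hy
    omega
  · intro a ha a' ha' hne _ u hu hu'
    obtain ⟨u1, u2⟩ := mem_out.1 hu
    obtain ⟨-, u3⟩ := mem_out.1 hu'
    exact conn a ha a' ha' hne [u] (by simp) (by simpa using u1) (by simp) (by simp)
      (by simp [u2, u3.symm])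
  · intro a ha a' ha' hne u hu u' hu' huu
    obtain ⟨u1, u2⟩ := mem_out.1 hu
    obtain ⟨u4, u3⟩ := mem_out.1 hu'
    exact conn a ha a' ha' hne [u, u'] (by simp [huu.ne]) (by simpa using ⟨u1, u4⟩) (by simp)
      (by simp) (by simp [u2, u3.symm, huu])

end Crest.Agent.R54
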