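import Crest.Agent.R54.Defs

/-! Row 54, task W5. -/

set_option autoImplicit false

namespace Crest.Agent.R54

open Finset

namespace W5

variable {V : Type} [DecidableEq V]

/-- the vertices `T` cannot be replaced by a shorter `K`-path -/
def Rep (G : SimpleGraph V) (K W : Finset V) (T : List V) : Prop :=
  ∀ l : List V, l.Nodup → l.IsChain G.Adj → Ends K l → (∀ v ∈ l, v ∈ T ∨ v ∉ W) →
    l.length < T.length → T.countP (fun x => x ∉ K) ≤ l.countP (fun x => x ∉ K) + 1 → False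

lemma rep_of (hR : REPLStmt) {G : SimpleGraph V} {K : Finset V} {k : ℕ} {L Bs R : List (List V)}
    (hk : 2 ≤ k) (hK : G.IsClique (K : Set V)) (hW : WS G K k L) (hc : ¬ HasCyc G (k + 1))
    (hp : L.Perm (Bs ++ R)) {T : List V} (hT : T.Perm Bs.flatten) :
    T.Nodup ∧ Rep G K L.flatten.toFinset T := by
  refine ⟨?_, fun l h1 h2 h3 h4 h5 h6 => hc (hR V G K k L Bs R [l] hk hK hW hp
    ⟨by simpa using h1, by simpa using ⟨h2, h3⟩⟩ ?_ ?_ ?_)⟩
  · have := hp.flatten.nodup_iff.mp hW.1.1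
    rw [List.flatten_append] at this
    exact hT.nodup_iff.mpr this.of_append_left
  · intro x hx
    rcases h4 x (by simpa using hx) with h | h
    · exact Or.inl (hT.mem_iff.mp h)
    · exact Or.inr fun h' => h (List.mem_toFinset.mpr h')
  · rw [← hT.length_eq]
    simpa using h5
  · rw [← hT.countP_eq]
    simpa using h6

omit [DecidableEq V] in
lemma perm_rev (x a b y : V) : [x, a, b, y].Perm [y, b, a, x] := by
  simpa using (List.reverse_perm [y, b, a, x])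

lemma count_R {K : Finset V} (R : List (List V)) (h : ∀ B ∈ R, B4 K B) :
    R.flatten.length = 4 * R.length ∧ R.flatten.countP (fun x => x ∈ K) = 2 * R.length := by
  induction R with
  | nil => simp
  | cons B R ih =>
    obtain ⟨x, a, b, y, rfl, h1, h2, h3, h4⟩ := h B (by simp)
    obtain ⟨i1, i2⟩ := ih fun B hB => h B (by simp [hB])
    rw [List.flatten_cons, List.length_append, List.countP_append, i1, i2]
    simp [h1, h2, h3, h4]
    omega

omit [DecidableEq V] in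
lemma ends_iff (K : Finset V) (l : List V) :
    Ends K l ↔ (∃ a ∈ K, l.head? = some a) ∧ (∃ b ∈ K, l.getLast? = some b) := Iff.rfl

/-- one surgery -/
macro "surg " h:term ", " l:term : tactic =>
  `(tactic| (refine $h $l ?_ ?_ ?_ ?_ ?_ ?_
             · simp only [List.nodup_cons, List.mem_cons, List.not_mem_nil, List.nodup_nil]; grind (splits := 40)
             · simp [*]
             · simp [ends_iff, *]
             · simp [*]
             · simp
             · simp [*]))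

section moves

variable {G : SimpleGraph V} {K W : Finset V}

lemma L4 {x a b y : V} (k : x ∈ K ∧ a ∉ K ∧ b ∉ K ∧ y ∈ K) (e1 : G.Adj x a)
    (n : [x, a, b, y].Nodup) (r : Rep G K W [x, a, b, y]) : ¬ G.Adj a y := by
  obtain ⟨k1, k2, k3, k4⟩ := k
  simp only [List.nodup_cons, List.mem_cons, List.not_mem_nil, List.nodup_nil] at n
  intro h
  surg r, [x, a, y]

lemma L5 {P c m d Q : V} (kP : P ∈ K) (kc : c ∉ K) (km : m ∉ K) (kd : d ∉ K) (kQ : Q ∈ K)
    (aPc : G.Adj P c) (acm : G.Adj c m) (amd : G.Adj m d) (adQ : G.Adj d Q)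
    (n : [P, c, m, d, Q].Nodup) (r : Rep G K W [P, c, m, d, Q]) :
    ¬ G.Adj c d ∧ ¬ G.Adj P m ∧ ¬ G.Adj m Q := by
  simp only [List.nodup_cons, List.mem_cons, List.not_mem_nil, List.nodup_nil] at n
  refine ⟨fun h => ?_, fun h => ?_, fun h => ?_⟩
  · surg r, [P, c, d, Q]
  · surg r, [P, m, d, Q]
  · surg r, [P, c, m, Q]

/-- no outside connection with one vertex -/
def NoC (G : SimpleGraph V) (W : Finset V) (z z' : V) : Prop :=
  ∀ u, u ∉ W → G.Adj z u → G.Adj u z' → False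

/-- no outside connection with two vertices -/
def NoD (G : SimpleGraph V) (W : Finset V) (z z' : V) : Prop :=
  ∀ u u', u ∉ W → u' ∉ W → G.Adj z u → G.Adj u u' → G.Adj u' z' → False

omit [DecidableEq V] in
lemma NoC.symm {z z' : V} (h : NoC G W z z') : NoC G W z' z :=
  fun u h1 h2 h3 => h u h1 h3.symm h2.symm

omit [DecidableEq V] in
lemma NoD.symm {z z' : V} (h : NoD G W z z') : NoD G W z' z :=
  fun u u' h1 h2 h3 h4 h5 => h u' u h2 h1 h5.symm h4.symm h3.symm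

lemma L8 {x a b y x' a' b' y' : V} (hKW : K ⊆ W) (k : x ∈ K ∧ a ∉ K ∧ b ∉ K ∧ y ∈ K)
    (k' : x' ∈ K ∧ a' ∉ K ∧ b' ∉ K ∧ y' ∈ K) (w : x ∈ W ∧ a ∈ W ∧ b ∈ W ∧ y ∈ W)
    (w' : x' ∈ W ∧ a' ∈ W ∧ b' ∈ W ∧ y' ∈ W)
    (e : G.Adj x a ∧ G.Adj a b ∧ G.Adj b y ∧ G.Adj a x ∧ G.Adj b a ∧ G.Adj y b)
    (e' : G.Adj x' a' ∧ G.Adj a' b' ∧ G.Adj b' y' ∧ G.Adj a' x' ∧ G.Adj b' a' ∧ G.Adj y' b')
    (n : [x, a, b, y, x', a', b', y'].Nodup) (r : Rep G K W [x, a, b, y, x', a', b', y']) :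
    ¬ G.Adj a x' ∧ ¬ G.Adj a a' ∧ NoC G W a a' ∧ NoD G W a a' := by
  obtain ⟨k1, k2, k3, k4⟩ := k
  obtain ⟨k5, k6, k7, k8⟩ := k'
  obtain ⟨w1, w2, -, -⟩ := w
  obtain ⟨w5, w6, -, -⟩ := w'
  obtain ⟨e1, e2, e3, e4, e5, e6⟩ := e
  obtain ⟨f1, f2, f3, f4, f5, f6⟩ := e'
  simp only [List.nodup_cons, List.mem_cons, List.not_mem_nil, List.nodup_nil] at n
  refine ⟨fun h => ?_, fun h => ?_, fun u u1 u2 u3 => ?_, fun u u' u1 u1' u2 u3 u5 => ?_⟩
  · surg r, [y, b, a, x', a', b', y']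
  · surg r, [y, b, a, a', b', y']
  · have u4 : u ∉ K := fun h => u1 (hKW h)
    surg r, [x, a, u, a', x']
  · have u4 : u ∉ K := fun h => u1 (hKW h)
    have u4' : u' ∉ K := fun h => u1' (hKW h)
    have u6 := u3.ne
    surg r, [x, a, u, u', a', x']

lemma L9a {P c m d Q x a b y : V} (kP : P ∈ K) (kc : c ∉ K) (km : m ∉ K) (kd : d ∉ K)
    (kQ : Q ∈ K) (aPc : G.Adj P c) (acm : G.Adj c m) (amd : G.Adj m d) (adQ : G.Adj d Q)
    (k : x ∈ K ∧ a ∉ K ∧ b ∉ K ∧ y ∈ K)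
    (e : G.Adj x a ∧ G.Adj a b ∧ G.Adj b y ∧ G.Adj a x ∧ G.Adj b a ∧ G.Adj y b)
    (n : [P, c, m, d, Q, x, a, b, y].Nodup) (r : Rep G K W [P, c, m, d, Q, x, a, b, y]) :
    (¬ G.Adj a P ∧ ¬ G.Adj a c ∧ ¬ G.Adj a m ∧ ¬ G.Adj a d ∧ ¬ G.Adj a Q) ∧
      ¬ G.Adj c x ∧ ¬ G.Adj m x := by
  obtain ⟨k1, k2, k3, k4⟩ := k
  obtain ⟨e1, e2, e3, e4, e5, e6⟩ := e
  have acP := aPc.symm
  have amc := acm.symm
  have adm := amd.symm
  have aQd := adQ.symm
  simp only [List.nodup_cons, List.mem_cons, List.not_mem_nil, List.nodup_nil] at n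
  refine ⟨⟨fun h => ?_, fun h => ?_, fun h => ?_, fun h => ?_, fun h => ?_⟩, fun h => ?_,
    fun h => ?_⟩
  · surg r, [y, b, a, P, c, m, d, Q]
  · surg r, [y, b, a, c, m, d, Q]
  · surg r, [y, b, a, m, d, Q]
  · surg r, [y, b, a, d, m, c, P]
  · surg r, [y, b, a, Q, d, m, c, P]
  · surg r, [Q, d, m, c, x, a, b, y]
  · surg r, [Q, d, m, x, a, b, y]

lemma L9b {P c m d Q x a b y : V} (hKW : K ⊆ W) (kP : P ∈ K) (kc : c ∉ K) (km : m ∉ K)
    (kd : d ∉ K) (kQ : Q ∈ K) (wP : P ∈ W) (wc : c ∈ W) (wm : m ∈ W) (wd : d ∈ W) (wQ : Q ∈ W)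
    (aPc : G.Adj P c) (acm : G.Adj c m) (amd : G.Adj m d) (adQ : G.Adj d Q)
    (k : x ∈ K ∧ a ∉ K ∧ b ∉ K ∧ y ∈ K) (w : x ∈ W ∧ a ∈ W ∧ b ∈ W ∧ y ∈ W)
    (e : G.Adj x a ∧ G.Adj a b ∧ G.Adj b y ∧ G.Adj a x ∧ G.Adj b a ∧ G.Adj y b)
    (n : [P, c, m, d, Q, x, a, b, y].Nodup) (r : Rep G K W [P, c, m, d, Q, x, a, b, y]) :
    (NoC G W a c ∧ NoD G W a c) ∧ (NoC G W a m ∧ NoD G W a m) ∧
      (NoC G W c m ∧ NoD G W c m) ∧ NoD G W a b := by
  obtain ⟨k1, k2, k3, k4⟩ := k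
  obtain ⟨w1, w2, w3, w4⟩ := w
  obtain ⟨e1, e2, e3, -, -, -⟩ := e
  simp only [List.nodup_cons, List.mem_cons, List.not_mem_nil, List.nodup_nil] at n
  refine ⟨⟨?_, ?_⟩, ⟨?_, ?_⟩, ⟨?_, ?_⟩, ?_⟩
  · intro u u1 u2 u3
    have u4 : u ∉ K := fun h => u1 (hKW h)
    surg r, [x, a, u, c, m, d, Q]
  · intro u u' u1 u1' u2 u3 u5
    have u4 : u ∉ K := fun h => u1 (hKW h)
    have u4' : u' ∉ K := fun h => u1' (hKW h)
    have u6 := u3.ne
    surg r, [x, a, u, u', c, m, d, Q]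
  · intro u u1 u2 u3
    have u4 : u ∉ K := fun h => u1 (hKW h)
    surg r, [x, a, u, m, d, Q]
  · intro u u' u1 u1' u2 u3 u5
    have u4 : u ∉ K := fun h => u1 (hKW h)
    have u4' : u' ∉ K := fun h => u1' (hKW h)
    have u6 := u3.ne
    surg r, [x, a, u, u', m, d, Q]
  · intro u u1 u2 u3
    have u4 : u ∉ K := fun h => u1 (hKW h)
    surg r, [P, c, u, m, d, Q]
  · intro u u' u1 u1' u2 u3 u5
    have u4 : u ∉ K := fun h => u1 (hKW h)
    have u4' : u' ∉ K := fun h => u1' (hKW h)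
    have u6 := u3.ne
    surg r, [P, c, u, u', m, d, Q]
  · intro u u' u1 u1' u2 u3 u5
    have u4 : u ∉ K := fun h => u1 (hKW h)
    have u4' : u' ∉ K := fun h => u1' (hKW h)
    have u6 := u3.ne
    surg r, [x, a, u, u', b, y]

end moves

end W5

set_option maxHeartbeats 1000000 in
open W5 in
theorem W5_proof (hR : REPLStmt) (hF : FINStmt) : W5Stmt := by
  intro V _ _ G K k S R hctx hK hom h3 hW hS hB
  obtain ⟨P, c, m, d, Q, rfl, kP, kc, km, kd, kQ⟩ := hS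
  obtain ⟨c1, c2⟩ := count_R R hB
  set W := ([P, c, m, d, Q] :: R).flatten.toFinset with hWdef
  have hKW : K ⊆ W := fun x hx => List.mem_toFinset.mpr (hW.2.2 x hx)
  have hWc : W.card = k + 2 := by rw [hWdef, List.toFinset_card_of_nodup hW.1.1, hW.2.1]
  have hlen : k + 2 = 5 + 4 * R.length := by
    rw [← hW.2.1, List.flatten_cons, List.length_append, c1]
    rfl
  have hKc : K.card = 2 + 2 * R.length := by
    have h1 : K = (([P, c, m, d, Q] :: R).flatten.filter (fun x => x ∈ K)).toFinset := by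
      ext x
      simp only [List.mem_toFinset, List.mem_filter, decide_eq_true_eq]
      exact ⟨fun h => ⟨hW.2.2 x h, h⟩, fun h => h.2⟩
    rw [h1, List.toFinset_card_of_nodup (hW.1.1.filter _), ← List.countP_eq_length_filter,
      List.flatten_cons, List.countP_append, c2]
    simp [kP, kc, km, kd, kQ]
  have hk : 2 ≤ k := by omega
  have hc := hctx.nocyc
  have chS : [P, c, m, d, Q].IsChain G.Adj := (hW.1.2 _ (by simp)).1
  obtain ⟨aPc, acm, amd, adQ⟩ : G.Adj P c ∧ G.Adj c m ∧ G.Adj m d ∧ G.Adj d Q := by simpa using chS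
  have wP : P ∈ W := by simp [hWdef]
  have wc : c ∈ W := by simp [hWdef]
  have wm : m ∈ W := by simp [hWdef]
  have wd : d ∈ W := by simp [hWdef]
  have wQ : Q ∈ W := by simp [hWdef]
  obtain ⟨nS, rS⟩ := rep_of hR hk hK hW hc (Bs := [[P, c, m, d, Q]]) (R := R) (List.Perm.refl _)
    (T := [P, c, m, d, Q]) (by simp)
  rw [← hWdef] at rS
  let OB : V → V → V → V → Prop := fun x a b y => [x, a, b, y] ∈ R ∨ [y, b, a, x] ∈ R
  have obs : ∀ {x a b y}, OB x a b y → OB y b a x := fun h => h.symm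
  have obB : ∀ {x a b y}, OB x a b y → ∃ B ∈ R, [x, a, b, y].Perm B ∧
      (B = [x, a, b, y] ∨ B = [y, b, a, x]) := by
    rintro x a b y (h | h)
    · exact ⟨_, h, List.Perm.refl _, Or.inl rfl⟩
    · exact ⟨_, h, perm_rev _ _ _ _, Or.inr rfl⟩
  have obf : ∀ {x a b y}, OB x a b y → (x ∈ K ∧ a ∉ K ∧ b ∉ K ∧ y ∈ K) ∧
      (x ∈ W ∧ a ∈ W ∧ b ∈ W ∧ y ∈ W) ∧
      (G.Adj x a ∧ G.Adj a b ∧ G.Adj b y ∧ G.Adj a x ∧ G.Adj b a ∧ G.Adj y b) ∧
      Rep G K W [x, a, b, y] ∧ [P, c, m, d, Q, x, a, b, y].Nodup ∧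
      Rep G K W [P, c, m, d, Q, x, a, b, y] := by
    intro x a b y h
    obtain ⟨B, hBR, hp, hB'⟩ := obB h
    have hm : ∀ v ∈ [x, a, b, y], v ∈ W := fun v hv => List.mem_toFinset.mpr
      (List.mem_flatten.mpr ⟨B, List.mem_cons_of_mem _ hBR, hp.mem_iff.mp hv⟩)
    have hch : B.IsChain G.Adj := (hW.1.2 _ (List.mem_cons_of_mem _ hBR)).1
    obtain ⟨x', a', b', y', e, g1, g2, g3, g4⟩ := hB B hBR
    have pe := List.perm_cons_erase hBR
    refine ⟨?_, ⟨hm _ (by simp), hm _ (by simp), hm _ (by simp), hm _ (by simp)⟩, ?_,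
      (rep_of hR hk hK hW hc (Bs := [B]) (R := [P, c, m, d, Q] :: R.erase B)
        ((pe.cons _).trans (List.Perm.swap _ _ _)) (by simpa using hp)).2,
      rep_of hR hk hK hW hc (Bs := [[P, c, m, d, Q], B]) (R := R.erase B) (pe.cons _)
        (by simpa using hp)⟩
    · rcases hB' with rfl | rfl <;> simp only [List.cons.injEq, and_true] at e <;>
        obtain ⟨rfl, rfl, rfl, rfl⟩ := e <;> exact ⟨‹_›, ‹_›, ‹_›, ‹_›⟩
    · rcases hB' with rfl | rfl
      · obtain ⟨e1, e2, e3⟩ : G.Adj x a ∧ G.Adj a b ∧ G.Adj b y := by simpa using hch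
        exact ⟨e1, e2, e3, e1.symm, e2.symm, e3.symm⟩
      · obtain ⟨e1, e2, e3⟩ : G.Adj y b ∧ G.Adj b a ∧ G.Adj a x := by simpa using hch
        exact ⟨e3.symm, e2.symm, e1.symm, e3, e2, e1⟩
  have obu : ∀ {x a b y x' a' b' y'}, OB x a b y → OB x' a' b' y' →
      (x' = x ∧ a' = a ∧ b' = b ∧ y' = y) ∨ (x' = y ∧ a' = b ∧ b' = a ∧ y' = x) ∨
      ([x, a, b, y, x', a', b', y'].Nodup ∧ Rep G K W [x, a, b, y, x', a', b', y']) := by
    intro x a b y x' a' b' y' h h'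
    obtain ⟨B, hBR, hp, hB1⟩ := obB h
    obtain ⟨B', hBR', hp', hB2⟩ := obB h'
    by_cases hBB : B' = B
    · subst hBB
      rcases hB1 with rfl | rfl <;> rcases hB2 with h2 | h2 <;>
        simp only [List.cons.injEq, and_true] at h2 <;> obtain ⟨rfl, rfl, rfl, rfl⟩ := h2 <;> simp
    · have pe := List.perm_cons_erase hBR
      have pe' := List.perm_cons_erase ((List.mem_erase_of_ne hBB).mpr hBR')
      refine Or.inr (Or.inr (rep_of hR hk hK hW hc (Bs := [B, B'])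
        (R := [P, c, m, d, Q] :: (R.erase B).erase B') ?_ (by simpa using hp.append hp')))
      exact ((pe.trans (pe'.cons _)).cons _).trans (List.perm_middle (l₁ := [B, B'])).symm
  have cls : ∀ v ∈ W, v = P ∨ v = c ∨ v = m ∨ v = d ∨ v = Q ∨
      ∃ x a b y, OB x a b y ∧ (v = x ∨ v = a) := by
    intro v hv
    rw [hWdef, List.mem_toFinset, List.flatten_cons, List.mem_append, List.mem_flatten] at hv
    rcases hv with hv | ⟨B, h1, h2⟩
    · simp only [List.mem_cons, List.not_mem_nil, or_false] at hv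
      rcases hv with h | h | h | h | h
      · exact Or.inl h
      · exact Or.inr (Or.inl h)
      · exact Or.inr (Or.inr (Or.inl h))
      · exact Or.inr (Or.inr (Or.inr (Or.inl h)))
      · exact Or.inr (Or.inr (Or.inr (Or.inr (Or.inl h))))
    · obtain ⟨x, a, b, y, rfl, -⟩ := hB B h1
      simp only [List.mem_cons, List.not_mem_nil, or_false] at h2
      refine Or.inr (Or.inr (Or.inr (Or.inr (Or.inr ?_))))
      rcases h2 with h2 | h2 | h2 | h2
      · exact ⟨x, a, b, y, Or.inl h1, Or.inl h2⟩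
      · exact ⟨x, a, b, y, Or.inl h1, Or.inr h2⟩
      · exact ⟨y, b, a, x, Or.inr h1, Or.inr h2⟩
      · exact ⟨y, b, a, x, Or.inr h1, Or.inl h2⟩
  obtain ⟨x₀, a₀, b₀, y₀, ob₀⟩ : ∃ x a b y, OB x a b y := by
    obtain ⟨B, hB0⟩ := List.exists_mem_of_length_pos (show 0 < R.length by omega)
    obtain ⟨x, a, b, y, rfl, -⟩ := hB B hB0
    exact ⟨x, a, b, y, Or.inl hB0⟩
  -- neighbourhoods inside `W`
  have l5 := L5 kP kc km kd kQ aPc acm amd adQ nS rS
  have l9 : ∀ {x a b y}, OB x a b y →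
      (¬ G.Adj a P ∧ ¬ G.Adj a c ∧ ¬ G.Adj a m ∧ ¬ G.Adj a d ∧ ¬ G.Adj a Q) ∧
      ¬ G.Adj c x ∧ ¬ G.Adj m x := fun h =>
    L9a kP kc km kd kQ aPc acm amd adQ (obf h).1 (obf h).2.2.1 (obf h).2.2.2.2.1
      (obf h).2.2.2.2.2
  have conS : ∀ {x a b y}, OB x a b y → (NoC G W a c ∧ NoD G W a c) ∧
      (NoC G W a m ∧ NoD G W a m) ∧ (NoC G W c m ∧ NoD G W c m) ∧ NoD G W a b := fun h =>
    L9b hKW kP kc km kd kQ wP wc wm wd wQ aPc acm amd adQ (obf h).1 (obf h).2.1 (obf h).2.2.1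
      (obf h).2.2.2.2.1 (obf h).2.2.2.2.2
  have nba : ∀ {x a b y}, OB x a b y → ∀ v ∈ W, G.Adj a v → v = x ∨ v = b := by
    intro x a b y h v hv hav
    rcases cls v hv with e | e | e | e | e | ⟨x', a', b', y', h', hv'⟩
    · exact absurd (e ▸ hav) (l9 h).1.1
    · exact absurd (e ▸ hav) (l9 h).1.2.1
    · exact absurd (e ▸ hav) (l9 h).1.2.2.1
    · exact absurd (e ▸ hav) (l9 h).1.2.2.2.1
    · exact absurd (e ▸ hav) (l9 h).1.2.2.2.2
    · rcases obu h h' with ⟨e1, e2, -, -⟩ | ⟨e1, e2, -, -⟩ | ⟨n8, r8⟩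
      · rcases hv' with e | e
        · exact Or.inl (e.trans e1)
        · exact absurd ((e.trans e2) ▸ hav) G.irrefl
      · rcases hv' with e | e
        · refine absurd ((e.trans e1) ▸ hav) (L4 (obf h).1 (obf h).2.2.1.1 ?_ (obf h).2.2.2.1)
          exact List.Nodup.of_append_right (l₁ := [P, c, m, d, Q]) (obf h).2.2.2.2.1
        · exact Or.inr (e.trans e2)
      · have l8 := L8 hKW (obf h).1 (obf h').1 (obf h).2.1 (obf h').2.1 (obf h).2.2.1
          (obf h').2.2.1 n8 r8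
        rcases hv' with e | e
        · exact absurd (e ▸ hav) l8.1
        · exact absurd (e ▸ hav) l8.2.1
  have nbc : ∀ v ∈ W, G.Adj c v → v = P ∨ v = m ∨ v = Q := by
    intro v hv hav
    rcases cls v hv with e | e | e | e | e | ⟨x, a, b, y, h, e | e⟩
    · exact Or.inl e
    · exact absurd (e ▸ hav) G.irrefl
    · exact Or.inr (Or.inl e)
    · exact absurd (e ▸ hav) l5.1
    · exact Or.inr (Or.inr e)
    · exact absurd (e ▸ hav) (l9 h).2.1
    · exact absurd (e ▸ hav.symm) (l9 h).1.2.1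
  have nbm : ∀ v ∈ W, G.Adj m v → v = c ∨ v = d := by
    intro v hv hav
    rcases cls v hv with e | e | e | e | e | ⟨x, a, b, y, h, e | e⟩
    · exact absurd (e ▸ hav.symm) l5.2.1
    · exact Or.inl e
    · exact absurd (e ▸ hav) G.irrefl
    · exact Or.inr e
    · exact absurd (e ▸ hav) l5.2.2
    · exact absurd (e ▸ hav) (l9 h).2.2
    · exact absurd (e ▸ hav.symm) (l9 h).1.2.2.1
  have conA : ∀ {x a b y x' a' b' y'}, OB x a b y → OB x' a' b' y' → a ≠ a' →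
      (a' ≠ b → NoC G W a a') ∧ NoD G W a a' := by
    intro x a b y x' a' b' y' h h' hne
    rcases obu h h' with ⟨-, e, -, -⟩ | ⟨-, e, -, -⟩ | ⟨n8, r8⟩
    · exact absurd e.symm hne
    · exact ⟨fun h => absurd e h, e ▸ (conS h).2.2.2⟩
    · have l8 := L8 hKW (obf h).1 (obf h').1 (obf h).2.1 (obf h').2.1 (obf h).2.2.1
        (obf h').2.2.1 n8 r8
      exact ⟨fun _ => l8.2.2.1, l8.2.2.2⟩
  classical
  let σ : V → V := fun v => if h : ∃ b x y, OB x v b y then h.choose else v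
  have σa : ∀ {x a b y}, OB x a b y → σ a = b := by
    intro x a b y h
    have hex : ∃ b x y, OB x a b y := ⟨b, x, y, h⟩
    obtain ⟨x', y', h'⟩ := hex.choose_spec
    simp only [σ, dif_pos hex]
    have ab := (obf h).2.2.1.2.1.ne
    rcases obu h h' with h1 | h1 | ⟨n8, -⟩
    · exact h1.2.2.1
    · exact absurd h1.2.1 ab
    · simp at n8
  have σS : ∀ v, (v = c ∨ v = m) → σ v = v := by
    intro v hv
    refine dif_neg ?_
    rintro ⟨b, x, y, h⟩
    have n9 := (obf h).2.2.2.2.1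
    rcases hv with rfl | rfl <;> simp at n9
  have clY : ∀ v ∈ (W \ K).erase d, v = c ∨ v = m ∨ ∃ x b y, OB x v b y := by
    intro v hv
    obtain ⟨h1, h2⟩ := Finset.mem_erase.mp hv
    obtain ⟨h2, h4⟩ := Finset.mem_sdiff.mp h2
    rcases cls v h2 with rfl | rfl | rfl | rfl | rfl | ⟨x, a, b, y, h, rfl | rfl⟩
    · exact absurd kP h4
    · simp
    · simp
    · exact absurd rfl h1
    · exact absurd kQ h4
    · exact absurd (obf h).1.1 h4
    · exact Or.inr (Or.inr ⟨x, b, y, h⟩)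
  have cardA : ∀ {x a b y}, OB x a b y → (nb G W a).card ≤ 2 := by
    intro x a b y h
    refine le_trans (Finset.card_le_card (t := {x, b}) fun v hv => ?_) Finset.card_le_two
    simpa using nba h v (mem_nb.mp hv).1 (mem_nb.mp hv).2
  have con : ∀ z ∈ (W \ K).erase d, ∀ z' ∈ (W \ K).erase d, z ≠ z' →
      (z' ≠ σ z → NoC G W z z') ∧ NoD G W z z' := by
    intro z hz z' hz' hne
    have cm := (conS ob₀).2.2.1
    rcases clY z hz with rfl | rfl | ⟨x, b, y, h⟩ <;>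
      rcases clY z' hz' with rfl | rfl | ⟨x', b', y', h'⟩
    · exact absurd rfl hne
    · exact ⟨fun _ => cm.1, cm.2⟩
    · exact ⟨fun _ => (conS h').1.1.symm, (conS h').1.2.symm⟩
    · exact ⟨fun _ => cm.1.symm, cm.2.symm⟩
    · exact absurd rfl hne
    · exact ⟨fun _ => (conS h').2.1.1.symm, (conS h').2.1.2.symm⟩
    · exact ⟨fun _ => (conS h).1.1, (conS h).1.2⟩
    · exact ⟨fun _ => (conS h).2.1.1, (conS h).2.1.2⟩
    · rw [σa h]
      exact conA h h' hne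
  refine hF V G k K.card W ((W \ K).erase d) σ h3 hctx hom ?_ (fun z hz => ?_) (fun z hz => ?_)
    (fun z hz z' hz' hne hs u hu hu' => (con z hz z' hz' hne).1 hs u (mem_out.mp hu).1
      (mem_out.mp hu).2 (mem_out.mp hu').2.symm)
    (fun z hz z' hz' hne u hu u' hu' huu => (con z hz z' hz' hne).2 u u' (mem_out.mp hu).1
      (mem_out.mp hu').1 (mem_out.mp hu).2 huu (mem_out.mp hu').2.symm)
  · rw [Finset.card_erase_of_mem (Finset.mem_sdiff.mpr ⟨wd, kd⟩), Finset.card_sdiff_of_subset hKW]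
    omega
  · rcases clY z hz with rfl | rfl | ⟨x, b, y, h⟩
    · have : (nb G W z).card ≤ 3 := by
        refine le_trans (Finset.card_le_card (t := {P, m, Q}) fun v hv => ?_) Finset.card_le_three
        simpa using nbc v (mem_nb.mp hv).1 (mem_nb.mp hv).2
      omega
    · have : (nb G W z).card ≤ 2 := by
        refine le_trans (Finset.card_le_card (t := {c, d}) fun v hv => ?_) Finset.card_le_two
        simpa using nbm v (mem_nb.mp hv).1 (mem_nb.mp hv).2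
      omega
    · have := cardA h
      omega
  · rcases clY z hz with rfl | rfl | ⟨x, b, y, h⟩
    · rw [σS z (Or.inl rfl), σS z (Or.inl rfl)]
      exact ⟨hz, rfl, fun h => absurd rfl h⟩
    · rw [σS z (Or.inr rfl), σS z (Or.inr rfl)]
      exact ⟨hz, rfl, fun h => absurd rfl h⟩
    · rw [σa h, σa (obs h)]
      refine ⟨Finset.mem_erase.mpr ⟨?_, Finset.mem_sdiff.mpr ⟨(obf h).2.1.2.2.1,
        (obf h).1.2.2.1⟩⟩, rfl, fun _ => ?_⟩
      · rintro rfl
        have n9 := (obf h).2.2.2.2.1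
        simp at n9
      · have := cardA h
        omega

end Crest.Agent.R54
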