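import Crest.Agent.R54.Defs

/-! Row 54, task W7. -/

set_option autoImplicit false
set_option linter.unusedSectionVars false

namespace Crest.Agent.R54

open Finset

namespace W7

variable {V : Type} [DecidableEq V]

/-- no replacement of the vertices `T` by a shorter system with `≥ q` vertices outside `K` -/
def NoR (G : SimpleGraph V) (K W : Finset V) (T : List V) (q : ℕ) : Prop :=
  ∀ Ns : List (List V), Sys G K Ns → (∀ z ∈ Ns.flatten, z ∈ T ∨ z ∉ W) →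
    Ns.flatten.length < T.length → q ≤ Ns.flatten.countP (fun x => x ∉ K) → False

theorem NoR.perm {G : SimpleGraph V} {K W : Finset V} {T T' : List V} {q : ℕ} (h : NoR G K W T q)
    (hp : T.Perm T') : NoR G K W T' q := fun Ns h1 h2 h3 h4 =>
  h Ns h1 (fun z hz => (h2 z hz).imp (fun h => hp.mem_iff.2 h) id) (hp.length_eq ▸ h3) h4

structure Bk (G : SimpleGraph V) (K W : Finset V) (x a b y : V) : Prop where
  xa : G.Adj x a
  ab : G.Adj a b
  bz : G.Adj b y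
  kx : x ∈ K
  ka : a ∉ K
  kb : b ∉ K
  ky : y ∈ K
  wx : x ∈ W
  wa : a ∈ W
  wb : b ∈ W
  wy : y ∈ W

structure Cf (G : SimpleGraph V) (K W : Finset V) (Blk : V → V → V → V → Prop)
    (x₀ c d X a₀ b₀ y₀ : V) : Prop where
  nd : [x₀, c, d, X, a₀, b₀, y₀].Nodup
  l : Bk G K W x₀ c d X
  r : Bk G K W X a₀ b₀ y₀
  kw : ∀ z ∈ K, z ∈ W
  cover : ∀ z ∈ W, z ∈ [x₀, c, d, X, a₀, b₀, y₀] ∨ ∃ x a b y, Blk x a b y ∧ (z = x ∨ z = a)
  sym : ∀ x a b y, Blk x a b y → Blk y b a x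
  blk : ∀ x a b y, Blk x a b y → Bk G K W x a b y ∧ [x₀, c, d, X, a₀, b₀, y₀, x, a, b, y].Nodup ∧
    NoR G K W [x₀, c, d, X, a₀, b₀, y₀, x, a, b, y] 5
  two : ∀ x a b y x' a' b' y', Blk x a b y → Blk x' a' b' y' →
    (x' = x ∧ a' = a) ∨ (x' = y ∧ a' = b) ∨
      ([x, a, b, y, x', a', b', y'].Nodup ∧ NoR G K W [x, a, b, y, x', a', b', y'] 3)
  one : NoR G K W [x₀, c, d, X, a₀, b₀, y₀] 3

theorem Bk.rev {G : SimpleGraph V} {K W : Finset V} {x a b y : V} (h : Bk G K W x a b y) :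
    Bk G K W y b a x :=
  ⟨h.bz.symm, h.ab.symm, h.xa.symm, h.ky, h.kb, h.ka, h.kx, h.wy, h.wb, h.wa, h.wx⟩

variable {G : SimpleGraph V} {K W : Finset V} {Blk : V → V → V → V → Prop} {x₀ c d X a₀ b₀ y₀ : V}

theorem Cf.rev (h : Cf G K W Blk x₀ c d X a₀ b₀ y₀) : Cf G K W Blk y₀ b₀ a₀ X d c x₀ := by
  have hp : [x₀, c, d, X, a₀, b₀, y₀].Perm [y₀, b₀, a₀, X, d, c, x₀] :=
    (List.reverse_perm [y₀, b₀, a₀, X, d, c, x₀])
  refine ⟨hp.nodup_iff.1 h.nd, h.r.rev, h.l.rev, h.kw, fun z hz => (h.cover z hz).imp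
    (fun h => hp.mem_iff.1 h) id, h.sym, fun x a b y hb => ?_, h.two, h.one.perm hp⟩
  have hq := hp.append_right [x, a, b, y]
  exact ⟨(h.blk x a b y hb).1, hq.nodup_iff.1 (h.blk x a b y hb).2.1, (h.blk x a b y hb).2.2.perm hq⟩

/-- nodup of a list of entries of a nodup list -/
theorem nodup_idx (T : List V) (hT : T.Nodup) (v : V) (I : List ℕ) (hI : I.Nodup)
    (hl : ∀ i ∈ I, i < T.length) : (I.map (fun i => T.getD i v)).Nodup := by
  refine hI.map_on fun i hi j hj h => ?_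
  rw [List.getD_eq_getElem _ _ (hl i hi), List.getD_eq_getElem _ _ (hl j hj)] at h
  exact (List.Nodup.getElem_inj_iff hT).1 h

/-- no short connection outside `W` -/
def NoC (G : SimpleGraph V) (W : Finset V) (z z' : V) : Prop :=
  (∀ u, u ∉ W → G.Adj z u → G.Adj z' u → False) ∧
    ∀ u u', u ∉ W → u' ∉ W → G.Adj z u → G.Adj z' u' → G.Adj u u' → False

theorem NoC.symm {z z' : V} (h : NoC G W z z') : NoC G W z' z :=
  ⟨fun u h1 h2 h3 => h.1 u h1 h3 h2, fun u u' h1 h2 h3 h4 h5 => h.2 u' u h2 h1 h4 h3 h5.symm⟩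

theorem nd1 {T : List V} (hT : T.Nodup) (hW : ∀ z ∈ T, z ∈ W) {u : V} (hu : u ∉ W) :
    (u :: T).Nodup := List.nodup_cons.2 ⟨fun h => hu (hW u h), hT⟩

theorem nd2 {T : List V} (hT : T.Nodup) (hW : ∀ z ∈ T, z ∈ W) {u u' : V} (hu : u ∉ W) (hu' : u' ∉ W)
    (h : G.Adj u u') : (u :: u' :: T).Nodup :=
  List.nodup_cons.2 ⟨fun h' => (List.mem_cons.1 h').elim h.ne (fun h => hu (hW u h)),
    nd1 hT hW hu'⟩

/-- a surgery: `hR : NoR ..`, `hN` a nodup list, `I` the indices of the new system in it -/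
macro "surg " hR:term:max hN:term:max Ns:term:max I:term:max : tactic => `(tactic|
  (refine $hR $Ns ⟨nodup_idx _ $hN x₀ $I (by decide) (by simp), ?_⟩ ?_ (by simp) ?_
   · simp [Ends, *]
   · simp [*]
   · simp [List.countP_cons, *]))

section
variable (h : Cf G K W Blk x₀ c d X a₀ b₀ y₀)
include h

theorem Cf.c_nb : ¬ G.Adj c X ∧ ¬ G.Adj c y₀ ∧ ¬ G.Adj c a₀ ∧ ¬ G.Adj c b₀ ∧ ¬ G.Adj d x₀ ∧
    ¬ G.Adj d a₀ ∧ ¬ G.Adj d b₀ := by
  have hN := h.nd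
  have hR := h.one
  obtain ⟨e1, e2, e3, k1, k2, k3, k4, -⟩ := h.l
  obtain ⟨e4, e5, e6, -, k5, k6, k7, -⟩ := h.r
  have e4' := e4.symm
  have e5' := e5.symm
  have e6' := e6.symm
  refine ⟨fun e => ?_, fun e => ?_, fun e => ?_, fun e => ?_, fun e => ?_, fun e => ?_, fun e => ?_⟩
  · surg hR hN [[x₀, c, X, a₀, b₀, y₀]] [0, 1, 3, 4, 5, 6]
  · surg hR hN [[x₀, c, y₀, b₀, a₀, X]] [0, 1, 6, 5, 4, 3]
  · surg hR hN [[x₀, c, a₀, b₀, y₀]] [0, 1, 4, 5, 6]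
  · surg hR hN [[x₀, c, b₀, a₀, X]] [0, 1, 5, 4, 3]
  · have e' := e.symm
    surg hR hN [[x₀, d, X, a₀, b₀, y₀]] [0, 2, 3, 4, 5, 6]
  · surg hR hN [[x₀, c, d, a₀, b₀, y₀]] [0, 1, 2, 4, 5, 6]
  · surg hR hN [[x₀, c, d, b₀, a₀, X]] [0, 1, 2, 5, 4, 3]

theorem Cf.wS : ∀ z ∈ [x₀, c, d, X, a₀, b₀, y₀], z ∈ W := by
  have h1 := h.l
  have h2 := h.r
  simp [h1.wx, h1.wa, h1.wb, h1.wy, h2.wa, h2.wb, h2.wy]

theorem Cf.a_nb {x a b y : V} (hb : Blk x a b y) : ¬ G.Adj a x₀ ∧ ¬ G.Adj a c ∧ ¬ G.Adj a d ∧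
    ¬ G.Adj a y ∧ ¬ G.Adj c x ∧ ¬ G.Adj d x := by
  obtain ⟨⟨f1, f2, f3, j1, j2, j3, j4, -⟩, hN, hR⟩ := h.blk x a b y hb
  obtain ⟨e1, e2, e3, k1, k2, k3, k4, -⟩ := h.l
  obtain ⟨e4, e5, e6, -, k5, k6, k7, -⟩ := h.r
  have e1' := e1.symm
  have e2' := e2.symm
  have f1' := f1.symm
  have f2' := f2.symm
  have f3' := f3.symm
  refine ⟨fun e => ?_, fun e => ?_, fun e => ?_, fun e => ?_, fun e => ?_, fun e => ?_⟩
  · surg hR hN [[y, b, a, x₀, c, d, X, a₀, b₀, y₀]] [10, 9, 8, 0, 1, 2, 3, 4, 5, 6]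
  · surg hR hN [[y, b, a, c, d, X, a₀, b₀, y₀]] [10, 9, 8, 1, 2, 3, 4, 5, 6]
  · surg hR hN [[y, b, a, d, c, x₀], [X, a₀, b₀, y₀]] [10, 9, 8, 2, 1, 0, 3, 4, 5, 6]
  · surg hR hN [[x, a, y], [x₀, c, d, X, a₀, b₀, y₀]] [7, 8, 10, 0, 1, 2, 3, 4, 5, 6]
  · have e' := e.symm
    surg hR hN [[y, b, a, x, c, d, X, a₀, b₀, y₀]] [10, 9, 8, 7, 1, 2, 3, 4, 5, 6]
  · have e' := e.symm
    surg hR hN [[y, b, a, x, d, X, a₀, b₀, y₀]] [10, 9, 8, 7, 2, 3, 4, 5, 6]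

theorem Cf.s_conn : NoC G W c d ∧ NoC G W c b₀ ∧ NoC G W d b₀ := by
  have hN := h.nd
  have hR := h.one
  have hW := h.wS
  obtain ⟨e1, e2, e3, k1, k2, k3, k4, -⟩ := h.l
  obtain ⟨e4, e5, e6, -, k5, k6, k7, -⟩ := h.r
  have e3' := e3.symm
  refine ⟨⟨fun u hu g1 g2 => ?_, fun u u' hu hu' g1 g2 g3 => ?_⟩,
    ⟨fun u hu g1 g2 => ?_, fun u u' hu hu' g1 g2 g3 => ?_⟩,
    ⟨fun u hu g1 g2 => ?_, fun u u' hu hu' g1 g2 g3 => ?_⟩⟩
  all_goals have g2' := g2.symm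
  all_goals have ku : u ∉ K := fun hk => hu (h.kw u hk)
  · surg hR (nd1 hN hW hu) [[x₀, c, u, d, X]] [1, 2, 0, 3, 4]
  · have ku' : u' ∉ K := fun hk => hu' (h.kw u' hk)
    surg hR (nd2 hN hW hu hu' g3) [[x₀, c, u, u', d, X]] [2, 3, 0, 1, 4, 5]
  · surg hR (nd1 hN hW hu) [[x₀, c, u, b₀, y₀]] [1, 2, 0, 6, 7]
  · have ku' : u' ∉ K := fun hk => hu' (h.kw u' hk)
    surg hR (nd2 hN hW hu hu' g3) [[x₀, c, u, u', b₀, y₀]] [2, 3, 0, 1, 7, 8]
  · surg hR (nd1 hN hW hu) [[X, d, u, b₀, y₀]] [4, 3, 0, 6, 7]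
  · have ku' : u' ∉ K := fun hk => hu' (h.kw u' hk)
    surg hR (nd2 hN hW hu hu' g3) [[X, d, u, u', b₀, y₀]] [5, 4, 0, 1, 7, 8]

theorem Cf.a_conn {x a b y : V} (hb : Blk x a b y) :
    NoC G W a b ∧ NoC G W a c ∧ NoC G W a d := by
  obtain ⟨⟨f1, f2, f3, j1, j2, j3, j4, w1, w2, w3, w4⟩, hN, hR⟩ := h.blk x a b y hb
  have hW : ∀ z ∈ [x₀, c, d, X, a₀, b₀, y₀, x, a, b, y], z ∈ W := by
    have h1 := h.l
    have h2 := h.r
    simp [h1.wx, h1.wa, h1.wb, h1.wy, h2.wa, h2.wb, h2.wy, w1, w2, w3, w4]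
  obtain ⟨e1, e2, e3, k1, k2, k3, k4, -⟩ := h.l
  obtain ⟨e4, e5, e6, -, k5, k6, k7, -⟩ := h.r
  have e1' := e1.symm
  refine ⟨⟨fun u hu g1 g2 => ?_, fun u u' hu hu' g1 g2 g3 => ?_⟩,
    ⟨fun u hu g1 g2 => ?_, fun u u' hu hu' g1 g2 g3 => ?_⟩,
    ⟨fun u hu g1 g2 => ?_, fun u u' hu hu' g1 g2 g3 => ?_⟩⟩
  all_goals have g2' := g2.symm
  all_goals have ku : u ∉ K := fun hk => hu (h.kw u hk)
  · surg hR (nd1 hN hW hu) [[x, a, u, b, y], [x₀, c, d, X]] [8, 9, 0, 10, 11, 1, 2, 3, 4]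
  · have ku' : u' ∉ K := fun hk => hu' (h.kw u' hk)
    surg hR (nd2 hN hW hu hu' g3) [[x, a, u, u', b, y], [x₀, c, d, X]]
      [9, 10, 0, 1, 11, 12, 2, 3, 4, 5]
  · surg hR (nd1 hN hW hu) [[x, a, u, c, x₀], [X, a₀, b₀, y₀]] [8, 9, 0, 2, 1, 4, 5, 6, 7]
  · have ku' : u' ∉ K := fun hk => hu' (h.kw u' hk)
    surg hR (nd2 hN hW hu hu' g3) [[x, a, u, u', c, x₀], [X, a₀, b₀, y₀]]
      [9, 10, 0, 1, 3, 2, 5, 6, 7, 8]
  · surg hR (nd1 hN hW hu) [[x, a, u, d, X, a₀, b₀, y₀]] [8, 9, 0, 3, 4, 5, 6, 7]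
  · have ku' : u' ∉ K := fun hk => hu' (h.kw u' hk)
    surg hR (nd2 hN hW hu hu' g3) [[x, a, u, u', d, X, a₀, b₀, y₀]] [9, 10, 0, 1, 4, 5, 6, 7, 8]

theorem Cf.aa {x a b y x' a' b' y' : V} (hb : Blk x a b y) (hb' : Blk x' a' b' y')
    (hN : [x, a, b, y, x', a', b', y'].Nodup) (hR : NoR G K W [x, a, b, y, x', a', b', y'] 3) :
    ¬ G.Adj a x' ∧ ¬ G.Adj a a' ∧ NoC G W a a' := by
  obtain ⟨⟨f1, f2, f3, j1, j2, j3, j4, w1, w2, w3, w4⟩, -, -⟩ := h.blk x a b y hb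
  obtain ⟨⟨f4, f5, f6, j5, j6, j7, j8, w5, w6, w7, w8⟩, -, -⟩ := h.blk x' a' b' y' hb'
  have hW : ∀ z ∈ [x, a, b, y, x', a', b', y'], z ∈ W := by
    simp [w1, w2, w3, w4, w5, w6, w7, w8]
  have f2' := f2.symm
  have f3' := f3.symm
  have f4' := f4.symm
  refine ⟨fun e => ?_, fun e => ?_, fun u hu g1 g2 => ?_, fun u u' hu hu' g1 g2 g3 => ?_⟩
  · surg hR hN [[y, b, a, x', a', b', y']] [3, 2, 1, 4, 5, 6, 7]
  · surg hR hN [[y, b, a, a', b', y']] [3, 2, 1, 5, 6, 7]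
  · have g2' := g2.symm
    have ku : u ∉ K := fun hk => hu (h.kw u hk)
    surg hR (nd1 hN hW hu) [[x, a, u, a', x']] [1, 2, 0, 6, 5]
  · have g2' := g2.symm
    have ku : u ∉ K := fun hk => hu (h.kw u hk)
    have ku' : u' ∉ K := fun hk => hu' (h.kw u' hk)
    surg hR (nd2 hN hW hu hu' g3) [[x, a, u, u', a', x']] [2, 3, 0, 1, 7, 6]

theorem Cf.nb_c : nb G W c ⊆ {x₀, d} := by
  intro z hz
  obtain ⟨hw, e⟩ := mem_nb.1 hz
  obtain ⟨h1, h2, h3, h4, -⟩ := h.c_nb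
  rcases h.cover z hw with hz | ⟨x, a, b, y, hb, rfl | rfl⟩
  · simp only [List.mem_cons, List.not_mem_nil, or_false] at hz
    rcases hz with rfl | rfl | rfl | rfl | rfl | rfl | rfl <;> simp_all
  · exact absurd e (h.a_nb hb).2.2.2.2.1
  · exact absurd e.symm (h.a_nb hb).2.1

theorem Cf.nb_d : ∀ z ∈ nb G W d, z = c ∨ z = X ∨ (z = y₀ ∧ G.Adj d y₀) := by
  intro z hz
  obtain ⟨hw, e⟩ := mem_nb.1 hz
  obtain ⟨-, -, -, -, h1, h2, h3⟩ := h.c_nb
  rcases h.cover z hw with hz | ⟨x, a, b, y, hb, rfl | rfl⟩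
  · simp only [List.mem_cons, List.not_mem_nil, or_false] at hz
    rcases hz with rfl | rfl | rfl | rfl | rfl | rfl | rfl <;> simp_all
  · exact absurd e (h.a_nb hb).2.2.2.2.2
  · exact absurd e.symm (h.a_nb hb).2.2.1

theorem Cf.nb_a {x a b y : V} (hb : Blk x a b y) : nb G W a ⊆ {x, b, X} := by
  intro z hz
  obtain ⟨hw, e⟩ := mem_nb.1 hz
  clear hz
  obtain ⟨h1, h2, h3, h4, -⟩ := h.a_nb hb
  obtain ⟨h5, h6, h7, -⟩ := h.rev.a_nb hb
  rcases h.cover z hw with hz | ⟨x', a', b', y', hb', hz⟩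
  · simp only [List.mem_cons, List.not_mem_nil, or_false] at hz
    rcases hz with rfl | rfl | rfl | rfl | rfl | rfl | rfl <;> simp_all
  · rcases h.two _ _ _ _ _ _ _ _ hb hb' with ⟨rfl, rfl⟩ | ⟨rfl, rfl⟩ | ⟨hN, hR⟩
    · rcases hz with rfl | rfl <;> simp_all
    · rcases hz with rfl | rfl <;> simp_all
    · obtain ⟨g1, g2, -⟩ := h.aa hb hb' hN hR
      rcases hz with rfl | rfl <;> simp_all

theorem Cf.cls {z : V} (hw : z ∈ W) (hk : z ∉ K) (ha : z ≠ a₀) :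
    z = c ∨ z = d ∨ z = b₀ ∨ ∃ x b y, Blk x z b y := by
  rcases h.cover z hw with hz | ⟨x, a, b, y, hb, rfl | rfl⟩
  · have k1 := h.l.kx
    have k2 := h.l.ky
    have k3 := h.r.ky
    simp only [List.mem_cons, List.not_mem_nil, or_false] at hz
    rcases hz with rfl | rfl | rfl | rfl | rfl | rfl | rfl <;> simp_all
  · exact absurd (h.blk _ _ _ _ hb).1.kx hk
  · exact Or.inr (Or.inr (Or.inr ⟨x, b, y, hb⟩))

theorem Cf.noc {z z' : V} (hz : z = c ∨ z = d ∨ z = b₀ ∨ ∃ x b y, Blk x z b y)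
    (hz' : z' = c ∨ z' = d ∨ z' = b₀ ∨ ∃ x b y, Blk x z' b y) (hne : z ≠ z') : NoC G W z z' := by
  obtain ⟨h1, h2, h3⟩ := h.s_conn
  rcases hz with rfl | rfl | rfl | ⟨x, b, y, hb⟩ <;>
    rcases hz' with rfl | rfl | rfl | ⟨x', b', y', hb'⟩
  · exact absurd rfl hne
  · exact h1
  · exact h2
  · exact (h.a_conn hb').2.1.symm
  · exact h1.symm
  · exact absurd rfl hne
  · exact h3
  · exact (h.a_conn hb').2.2.symm
  · exact h2.symm
  · exact h3.symm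
  · exact absurd rfl hne
  · exact (h.rev.a_conn hb').2.1.symm
  · exact (h.a_conn hb).2.1
  · exact (h.a_conn hb).2.2
  · exact (h.rev.a_conn hb).2.1
  · rcases h.two _ _ _ _ _ _ _ _ hb hb' with ⟨rfl, rfl⟩ | ⟨rfl, rfl⟩ | ⟨hN, hR⟩
    · exact absurd rfl hne
    · exact (h.a_conn hb).1
    · exact (h.aa hb hb' hN hR).2.2

theorem Cf.fin [Fintype V] (hF : FINStmt) {k ρ : ℕ} (hC : Ctx G k) (hO : Om G K.card)
    (hs : K.card = 3 + 2 * ρ) (hw : W.card = 7 + 4 * ρ) (hk : k = 5 + 4 * ρ)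
    (hρ : ∀ x a b y, Blk x a b y → 1 ≤ ρ) (h0 : ρ = 0 → ¬ G.Adj d y₀) : False := by
  have hY : ∀ z ∈ (W \ K).erase a₀, z = c ∨ z = d ∨ z = b₀ ∨ ∃ x b y, Blk x z b y := by
    intro z hz
    simp only [mem_erase, mem_sdiff] at hz
    exact h.cls hz.2.1 hz.2.2 hz.1
  refine hF V G k K.card W ((W \ K).erase a₀) id (by omega) hC hO ?_ ?_ ?_ ?_ ?_
  · rw [card_erase_of_mem (mem_sdiff.2 ⟨h.r.wa, h.r.ka⟩), card_sdiff_of_subset h.kw]
    omega
  · intro z hz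
    rcases hY z hz with rfl | rfl | rfl | ⟨x, b, y, hb⟩
    · have := (card_le_card h.nb_c).trans card_le_two
      omega
    · rcases Nat.eq_zero_or_pos ρ with h1 | h1
      · have : nb G W z ⊆ {c, X} := fun v hv => by
          rcases h.nb_d v hv with rfl | rfl | ⟨-, e⟩
          · simp
          · simp
          · exact absurd e (h0 h1)
        have := (card_le_card this).trans card_le_two
        omega
      · have : nb G W z ⊆ {c, X, y₀} := fun v hv => by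
          rcases h.nb_d v hv with rfl | rfl | ⟨rfl, -⟩ <;> simp
        have := (card_le_card this).trans card_le_three
        omega
    · have := (card_le_card h.rev.nb_c).trans card_le_two
      omega
    · have := (card_le_card (h.nb_a hb)).trans card_le_three
      have := hρ _ _ _ _ hb
      omega
  · intro z hz
    exact ⟨hz, rfl, fun h => absurd rfl h⟩
  · intro z hz z' hz' hne _ u hu hu'
    exact (h.noc (hY z hz) (hY z' hz') hne).1 u (mem_out.1 hu).1 (mem_out.1 hu).2 (mem_out.1 hu').2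
  · intro z hz z' hz' hne u hu u' hu' e
    exact (h.noc (hY z hz) (hY z' hz') hne).2 u u' (mem_out.1 hu).1 (mem_out.1 hu').1
      (mem_out.1 hu).2 (mem_out.1 hu').2 e

end

theorem counts {R : List (List V)} (hB : ∀ B ∈ R, B4 K B) :
    R.flatten.length = 4 * R.length ∧ R.flatten.countP (fun x => x ∈ K) = 2 * R.length := by
  induction R with
  | nil => simp
  | cons B R ih =>
    obtain ⟨h1, h2⟩ := ih fun B hB' => hB B (List.mem_cons_of_mem _ hB')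
    obtain ⟨x, a, b, y, rfl, k1, k2, k3, k4⟩ := hB B List.mem_cons_self
    rw [List.flatten_cons, List.length_append, List.countP_append, h1, h2]
    simp [*]
    omega

theorem noR (hR : REPLStmt) {k : ℕ} {L Bs R : List (List V)} (hk : 2 ≤ k)
    (hK : G.IsClique (K : Set V)) (hc : ¬ HasCyc G (k + 1)) (hW : WS G K k L)
    (hp : L.Perm (Bs ++ R)) {q : ℕ} (hq : Bs.flatten.countP (fun x => x ∉ K) ≤ q + 1) :
    Bs.flatten.Nodup ∧ NoR G K L.flatten.toFinset Bs.flatten q := by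
  refine ⟨?_, fun Ns h1 h2 h3 h4 => hc (hR V G K k L Bs R Ns hk hK hW hp h1
    (fun z hz => (h2 z hz).imp id (fun h h' => h (List.mem_toFinset.2 h'))) h3 (by omega))⟩
  have := hp.flatten.nodup_iff.1 hW.1.1
  rw [List.flatten_append] at this
  exact this.of_append_left

end W7

open W7 in
theorem W7_proof (hR : REPLStmt) (hF : FINStmt) : W7Stmt := by
  intro V _ _ G K k S R hC hK hO hW hS hB
  obtain ⟨x₀, c, d, X, a₀, b₀, y₀, rfl, k1, k2, k3, k4, k5, k6, k7⟩ := hS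
  obtain ⟨c1, c2⟩ := counts hB
  have hlen := hW.2.1
  rw [List.flatten_cons, List.length_append, c1] at hlen
  simp only [List.length_cons, List.length_nil] at hlen
  have hk : k = 5 + 4 * R.length := by omega
  have hw : ([x₀, c, d, X, a₀, b₀, y₀] :: R).flatten.toFinset.card = 7 + 4 * R.length := by
    rw [List.toFinset_card_of_nodup hW.1.1, hW.2.1]; omega
  have hs : K.card = 3 + 2 * R.length := by
    have h1 : K = (([x₀, c, d, X, a₀, b₀, y₀] :: R).flatten.filter (fun x => x ∈ K)).toFinset := by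
      ext z
      simp only [List.mem_toFinset, List.mem_filter, decide_eq_true_eq]
      exact ⟨fun h => ⟨hW.2.2 z h, h⟩, fun h => h.2⟩
    refine (congrArg card h1).trans ?_
    rw [List.toFinset_card_of_nodup (hW.1.1.filter _), ← List.countP_eq_length_filter,
      List.flatten_cons, List.countP_append, c2]
    simp [k1, k2, k3, k4, k5, k6, k7]
  have hch := (hW.1.2 _ List.mem_cons_self).1
  simp only [List.isChain_cons_cons, List.isChain_singleton, and_true] at hch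
  obtain ⟨e1, e2, e3, e4, e5, e6⟩ := hch
  have hbk : ∀ x a b y, [x, a, b, y] ∈ R →
      Bk G K ([x₀, c, d, X, a₀, b₀, y₀] :: R).flatten.toFinset x a b y := by
    intro x a b y hm
    have hch := (hW.1.2 _ (List.mem_cons_of_mem _ hm)).1
    simp only [List.isChain_cons_cons, List.isChain_singleton, and_true] at hch
    obtain ⟨x', a', b', y', he, j1, j2, j3, j4⟩ := hB _ hm
    simp only [List.cons.injEq, and_true] at he
    obtain ⟨rfl, rfl, rfl, rfl⟩ := he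
    have hin : ∀ z ∈ [x, a, b, y], z ∈ ([x₀, c, d, X, a₀, b₀, y₀] :: R).flatten.toFinset :=
      fun z hz => List.mem_toFinset.2 (List.mem_flatten.2 ⟨_, List.mem_cons_of_mem _ hm, hz⟩)
    exact ⟨hch.1, hch.2.1, hch.2.2, j1, j2, j3, j4, hin _ (by simp), hin _ (by simp),
      hin _ (by simp), hin _ (by simp)⟩
  have hin : ∀ z ∈ [x₀, c, d, X, a₀, b₀, y₀],
      z ∈ ([x₀, c, d, X, a₀, b₀, y₀] :: R).flatten.toFinset :=
    fun z hz => List.mem_toFinset.2 (List.mem_flatten.2 ⟨_, List.mem_cons_self, hz⟩)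
  have h1 := noR hR (Bs := [[x₀, c, d, X, a₀, b₀, y₀]]) (R := R) (by omega) hK hC.nocyc hW
    (List.Perm.refl _) (q := 3) (by simp [*])
  have h2 : ∀ x a b y, [x, a, b, y] ∈ R → [x₀, c, d, X, a₀, b₀, y₀, x, a, b, y].Nodup ∧
      NoR G K ([x₀, c, d, X, a₀, b₀, y₀] :: R).flatten.toFinset
        [x₀, c, d, X, a₀, b₀, y₀, x, a, b, y] 5 := by
    intro x a b y hm
    obtain ⟨-, -, -, j1, j2, j3, j4, -⟩ := hbk x a b y hm
    exact noR hR (Bs := [[x₀, c, d, X, a₀, b₀, y₀], [x, a, b, y]]) (R := R.erase [x, a, b, y])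
      (by omega) hK hC.nocyc hW (List.Perm.cons _ (List.perm_cons_erase hm)) (q := 5)
      (by simp [*])
  have h3 : ∀ x a b y x' a' b' y', [x, a, b, y] ∈ R → [x', a', b', y'] ∈ R →
      [x', a', b', y'] = [x, a, b, y] ∨ ([x, a, b, y, x', a', b', y'].Nodup ∧
      NoR G K ([x₀, c, d, X, a₀, b₀, y₀] :: R).flatten.toFinset [x, a, b, y, x', a', b', y'] 3) := by
    intro x a b y x' a' b' y' hm hm'
    by_cases he : [x', a', b', y'] = [x, a, b, y]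
    · exact Or.inl he
    right
    obtain ⟨-, -, -, j1, j2, j3, j4, -⟩ := hbk x a b y hm
    obtain ⟨-, -, -, j5, j6, j7, j8, -⟩ := hbk x' a' b' y' hm'
    have hm'' : [x', a', b', y'] ∈ R.erase [x, a, b, y] := (List.mem_erase_of_ne he).2 hm'
    refine noR hR (Bs := [[x, a, b, y], [x', a', b', y']])
      (R := [x₀, c, d, X, a₀, b₀, y₀] :: (R.erase [x, a, b, y]).erase [x', a', b', y'])
      (by omega) hK hC.nocyc hW ?_ (q := 3) (by simp [*])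
    refine List.Perm.trans (List.Perm.cons _ ((List.perm_cons_erase hm).trans
      (List.Perm.cons _ (List.perm_cons_erase hm'')))) ?_
    exact (List.perm_middle (l₁ := [[x, a, b, y], [x', a', b', y']])).symm
  have rv : ∀ x a b y : V, [y, b, a, x].Perm [x, a, b, y] := fun x a b y =>
    List.reverse_perm [x, a, b, y]
  have hcf : Cf G K ([x₀, c, d, X, a₀, b₀, y₀] :: R).flatten.toFinset
      (fun x a b y => [x, a, b, y] ∈ R ∨ [y, b, a, x] ∈ R) x₀ c d X a₀ b₀ y₀ := by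
    refine ⟨h1.1, ⟨e1, e2, e3, k1, k2, k3, k4, hin _ (by simp), hin _ (by simp), hin _ (by simp),
      hin _ (by simp)⟩, ⟨e4, e5, e6, k4, k5, k6, k7, hin _ (by simp), hin _ (by simp),
      hin _ (by simp), hin _ (by simp)⟩, fun z hz => List.mem_toFinset.2 (hW.2.2 z hz), ?_,
      fun x a b y h => h.symm, ?_, ?_, h1.2⟩
    · intro z hz
      obtain ⟨B, hB', hz⟩ := List.mem_flatten.1 (List.mem_toFinset.1 hz)
      rcases List.mem_cons.1 hB' with rfl | hB'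
      · exact Or.inl hz
      obtain ⟨x, a, b, y, rfl, -⟩ := hB _ hB'
      right
      simp only [List.mem_cons, List.not_mem_nil, or_false] at hz
      rcases hz with rfl | rfl | rfl | rfl
      · exact ⟨_, _, _, _, Or.inl hB', Or.inl rfl⟩
      · exact ⟨_, _, _, _, Or.inl hB', Or.inr rfl⟩
      · exact ⟨_, _, _, _, Or.inr hB', Or.inr rfl⟩
      · exact ⟨_, _, _, _, Or.inr hB', Or.inl rfl⟩
    · rintro x a b y (hm | hm)
      · exact ⟨hbk _ _ _ _ hm, h2 _ _ _ _ hm⟩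
      · have hp := (rv x a b y).append_left [x₀, c, d, X, a₀, b₀, y₀]
        exact ⟨(hbk _ _ _ _ hm).rev, hp.nodup_iff.1 (h2 _ _ _ _ hm).1, (h2 _ _ _ _ hm).2.perm hp⟩
    · rintro x a b y x' a' b' y' (hm | hm) (hm' | hm') <;>
        rcases h3 _ _ _ _ _ _ _ _ hm hm' with he | ⟨hN, hR⟩
      · simp only [List.cons.injEq] at he; exact Or.inl ⟨he.1, he.2.1⟩
      · exact Or.inr (Or.inr ⟨hN, hR⟩)
      · simp only [List.cons.injEq] at he; exact Or.inr (Or.inl ⟨he.2.2.2.1, he.2.2.1⟩)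
      · have hp := (rv x' a' b' y').append_left [x, a, b, y]
        exact Or.inr (Or.inr ⟨hp.nodup_iff.1 hN, hR.perm hp⟩)
      · simp only [List.cons.injEq] at he; exact Or.inr (Or.inl ⟨he.1, he.2.1⟩)
      · have hp := (rv x a b y).append_right [x', a', b', y']
        exact Or.inr (Or.inr ⟨hp.nodup_iff.1 hN, hR.perm hp⟩)
      · simp only [List.cons.injEq] at he; exact Or.inl ⟨he.2.2.2.1, he.2.2.1⟩
      · have hp := (rv x a b y).append (rv x' a' b' y')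
        exact Or.inr (Or.inr ⟨hp.nodup_iff.1 hN, hR.perm hp⟩)
  have hρ : ∀ x a b y : V, ([x, a, b, y] ∈ R ∨ [y, b, a, x] ∈ R) → 1 ≤ R.length := by
    rintro x a b y (hm | hm) <;> exact List.length_pos_of_mem hm
  by_cases g1 : R.length = 0 → ¬ G.Adj d y₀
  · exact hcf.fin hF hC hO hs hw hk hρ g1
  by_cases g2 : R.length = 0 → ¬ G.Adj a₀ x₀
  · exact hcf.rev.fin hF hC hO hs hw hk hρ g2
  push Not at g1 g2
  apply hC.nocyc
  rw [hk, g1.1]
  have e1' := e1.symm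
  have e2' := e2.symm
  have g1' := g1.2.symm
  have g2' := g2.2.symm
  refine ⟨x₀, c, [x₀, a₀, b₀, y₀, d, c], ⟨nodup_idx _ hcf.nd x₀ [0, 4, 5, 6, 2, 1] (by decide)
    (by simp), by simp [*]⟩, rfl, rfl, rfl, e1'⟩

end Crest.Agent.R54
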